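import Vale.Agent.P032.Words.H670.Split

/-!
# Hexagons around a centre with six colours: box tables
-/

namespace Vale.Agent.P032.Words.Trie

/-! ### 01 02 13 24 35 45 (7|56: 7 never) -/

namespace C22a

/-- the data -/
def D : Dat where
  A := 6
  N := 11
  nb := [56, 52, 42, 21, 11, 7]
  op := [63, 63, 63, 63, 63, 63]
  nbT := [1592, 1332, 682, 341, 139, 71, 1704, 1364, 650, 325, 195]
  opT := [511, 767, 1407, 1727, 1919, 1983, 2007, 2027, 2037, 2042, 2044]
  PL := [[0], [1], [2], [3], [4], [5], [0, 2], [1, 3], [2, 4], [3, 5], [4, 5]]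
  L := [3, 5, 10, 20, 40, 48]
  P := [3, 5, 10, 20, 40, 48, 11, 21, 42, 52, 56]
  r := 0
  tie := [0, 0, 0, 0, 0, 0, 0, 0, 0, 0, 0]

/-- changes of the value at a tie -/
def J : List (List ℕ) := [[]]

/-- reachable values -/
def R : List (List ℕ) := [[1], [2], [4], [8], [0x10], [0x20], [0x40], [0x80], [0x100], [0x200], [0x400], [0x800],
[0x1000], [0x2000], [0x4000], [0x8000], [0x10000], [0x20000], [0x40000], [0x80000], [0x100000],
[0x200000], [0x400000], [0x800000], [0x1000000], [0x2000000], [0x4000000], [0x8000000],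
[0x10000000], [0x20000000], [0x40000000], [0x80000000], [0x100000000], [0x200000000],
[0x400000000], [0x800000000], [0x1000000000], [0x2000000000], [0x4000000000], [0x8000000000],
[0x10000000000], [0x20000000000], [0x40000000000], [0x80000000000], [0x100000000000],
[0x200000000000], [0x400000000000], [0x800000000000], [0x1000000000000], [0x2000000000000],
[0x4000000000000], [0x8000000000000], [0x10000000000000], [0x20000000000000],
[0x40000000000000], [0x80000000000000], [0x100000000000000], [0x200000000000000],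
[0x400000000000000], [0x800000000000000], [0x1000000000000000], [0x2000000000000000],
[0x4000000000000000], [0x8000000000000000], [0x10000000000000000], [0x20000000000000000],
[0x40000000000000000], [0x80000000000000000], [0x100000000000000000], [0x200000000000000000],
[0x400000000000000000], [0x800000000000000000], [0x1000000000000000000],
[0x2000000000000000000], [0x4000000000000000000], [0x8000000000000000000],
[0x10000000000000000000], [0x20000000000000000000], [0x40000000000000000000],
[0x80000000000000000000], [0x100000000000000000000], [0x200000000000000000000],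
[0x400000000000000000000], [0x800000000000000000000], [0x1000000000000000000000],
[0x2000000000000000000000], [0x4000000000000000000000], [0x8000000000000000000000],
[0x10000000000000000000000], [0x20000000000000000000000], [0x40000000000000000000000],
[0x80000000000000000000000], [0x100000000000000000000000], [0x200000000000000000000000],
[0x400000000000000000000000], [0x800000000000000000000000], [0x1000000000000000000000000],
[0x2000000000000000000000000], [0x4000000000000000000000000], [0x8000000000000000000000000],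
[0x10000000000000000000000000], [0x20000000000000000000000000], [0x40000000000000000000000000],
[0x80000000000000000000000000], [0x100000000000000000000000000],
[0x200000000000000000000000000], [0x400000000000000000000000000],
[0x800000000000000000000000000]]

noncomputable def q0 : Tr := .c 3 (.l 0) (.c 4 (.l 0) (.c 5 (.l 0) .e))
noncomputable def q1 : Tr := .c 3 (.l 0) (.c 5 (.l 0) .e)
noncomputable def q2 : Tr := .c 3 (.l 0) .e
noncomputable def r0 : Tr := .c 0 q0 (.c 2 q1 (.c 4 q2 .e))
noncomputable def q3 : Tr := .c 4 (.l 1) (.c 5 (.l 2) .e)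
noncomputable def q4 : Tr := .c 4 (.l 1) .e
noncomputable def r1 : Tr := .c 0 q0 (.c 1 q3 (.c 3 q4 .e))
noncomputable def q5 : Tr := .c 4 (.l 3) (.c 5 (.l 4) .e)
noncomputable def r2 : Tr := .c 0 q0 (.c 1 q5 (.c 2 q1 .e))
noncomputable def t0 : Tr := .c 3 r0 (.c 4 r1 (.c 5 r2 .e))
noncomputable def r3 : Tr := .c 2 q1 (.c 4 q2 .e)
noncomputable def q6 : Tr := .c 4 (.l 3) (.c 5 (.l 3) .e)
noncomputable def r4 : Tr := .c 0 q0 (.c 1 q6 (.c 2 q1 .e))
noncomputable def t1 : Tr := .c 1 r3 (.c 3 r0 (.c 5 r4 .e))
noncomputable def q7 : Tr := .c 4 (.l 5) .e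
noncomputable def q8 : Tr := .c 3 (.l 6) .e
noncomputable def r5 : Tr := .c 3 q7 (.c 4 q8 .e)
noncomputable def t2 : Tr := .c 0 r5 (.c 1 r3 (.c 3 r0 .e))
noncomputable def q9 : Tr := .c 3 (.l 0) (.c 4 (.l 7) (.c 5 (.l 0) .e))
noncomputable def q10 : Tr := .c 4 (.l 8) (.c 5 (.l 9) .e)
noncomputable def r6 : Tr := .c 0 q9 (.c 1 q10 (.c 3 q4 .e))
noncomputable def q11 : Tr := .c 4 (.l 10) (.c 5 (.l 11) .e)
noncomputable def r7 : Tr := .c 0 q0 (.c 1 q11 (.c 2 q1 .e))
noncomputable def t3 : Tr := .c 3 r0 (.c 4 r6 (.c 5 r7 .e))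
noncomputable def q12 : Tr := .c 4 (.l 12) (.c 5 (.l 13) .e)
noncomputable def q13 : Tr := .c 4 (.l 14) .e
noncomputable def r8 : Tr := .c 1 q12 (.c 3 q13 .e)
noncomputable def q14 : Tr := .c 3 (.l 15) (.c 4 (.l 16) (.c 5 (.l 15) .e))
noncomputable def r9 : Tr := .c 0 q14 (.c 1 q12 (.c 3 q13 .e))
noncomputable def q15 : Tr := .c 3 (.l 17) (.c 4 (.l 18) (.c 5 (.l 17) .e))
noncomputable def q16 : Tr := .c 4 (.l 19) (.c 5 (.l 20) .e)
noncomputable def q17 : Tr := .c 3 (.l 17) (.c 5 (.l 17) .e)
noncomputable def r10 : Tr := .c 0 q15 (.c 1 q16 (.c 2 q17 .e))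
noncomputable def t4 : Tr := .c 2 r8 (.c 4 r9 (.c 5 r10 .e))
noncomputable def q18 : Tr := .c 4 (.l 21) .e
noncomputable def q19 : Tr := .c 3 (.l 22) .e
noncomputable def r11 : Tr := .c 3 q18 (.c 4 q19 .e)
noncomputable def q20 : Tr := .c 4 (.l 13) (.c 5 (.l 13) .e)
noncomputable def r12 : Tr := .c 1 q20 (.c 3 q18 .e)
noncomputable def q21 : Tr := .c 3 (.l 15) (.c 4 (.l 15) (.c 5 (.l 15) .e))
noncomputable def r13 : Tr := .c 0 q21 (.c 1 q20 (.c 3 q18 .e))
noncomputable def t5 : Tr := .c 0 r11 (.c 2 r12 (.c 4 r13 .e))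
noncomputable def q22 : Tr := .c 4 (.l 14) (.c 5 (.l 21) .e)
noncomputable def r14 : Tr := .c 1 q22 (.c 3 q13 .e)
noncomputable def q23 : Tr := .c 3 (.l 23) (.c 4 (.l 24) (.c 5 (.l 23) .e))
noncomputable def r15 : Tr := .c 0 q23 (.c 1 q22 (.c 3 q13 .e))
noncomputable def q24 : Tr := .c 3 (.l 25) (.c 4 (.l 26) (.c 5 (.l 25) .e))
noncomputable def q25 : Tr := .c 4 (.l 27) (.c 5 (.l 28) .e)
noncomputable def r16 : Tr := .c 0 q24 (.c 1 q25 (.c 2 q17 .e))
noncomputable def t6 : Tr := .c 2 r14 (.c 4 r15 (.c 5 r16 .e))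
noncomputable def q26 : Tr := .c 2 (.l 29) (.c 4 (.l 29) (.c 5 (.l 29) .e))
noncomputable def q27 : Tr := .c 2 (.l 29) (.c 4 (.l 29) .e)
noncomputable def q28 : Tr := .c 2 (.l 29) .e
noncomputable def r17 : Tr := .c 1 q26 (.c 3 q27 (.c 5 q28 .e))
noncomputable def q29 : Tr := .c 4 (.l 30) (.c 5 (.l 31) .e)
noncomputable def r18 : Tr := .c 0 q29 (.c 1 q26 (.c 3 q27 .e))
noncomputable def q30 : Tr := .c 4 (.l 32) (.c 5 (.l 33) .e)
noncomputable def q31 : Tr := .c 5 (.l 33) .e
noncomputable def r19 : Tr := .c 0 q30 (.c 1 q26 (.c 2 q31 .e))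
noncomputable def t7 : Tr := .c 2 r17 (.c 4 r18 (.c 5 r19 .e))
noncomputable def r20 : Tr := .c 3 q27 (.c 5 q28 .e)
noncomputable def q32 : Tr := .c 4 (.l 31) (.c 5 (.l 31) .e)
noncomputable def r21 : Tr := .c 0 q32 (.c 1 q26 (.c 3 q27 .e))
noncomputable def t8 : Tr := .c 0 r20 (.c 2 r17 (.c 4 r21 .e))
noncomputable def q33 : Tr := .c 5 (.l 34) .e
noncomputable def q34 : Tr := .c 2 (.l 35) .e
noncomputable def r22 : Tr := .c 2 q33 (.c 5 q34 .e)
noncomputable def t9 : Tr := .c 0 r20 (.c 1 r22 (.c 2 r17 .e))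
noncomputable def q35 : Tr := .c 4 (.l 36) (.c 5 (.l 37) .e)
noncomputable def q36 : Tr := .c 5 (.l 37) .e
noncomputable def r23 : Tr := .c 0 q35 (.c 2 q36 .e)
noncomputable def q37 : Tr := .c 4 (.l 38) (.c 5 (.l 39) .e)
noncomputable def q38 : Tr := .c 2 (.l 40) (.c 4 (.l 40) (.c 5 (.l 41) .e))
noncomputable def q39 : Tr := .c 2 (.l 42) (.c 4 (.l 42) .e)
noncomputable def r24 : Tr := .c 0 q37 (.c 1 q38 (.c 3 q39 .e))
noncomputable def q40 : Tr := .c 2 (.l 43) (.c 4 (.l 43) (.c 5 (.l 44) .e))
noncomputable def r25 : Tr := .c 0 q35 (.c 1 q40 (.c 2 q36 .e))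
noncomputable def t10 : Tr := .c 3 r23 (.c 4 r24 (.c 5 r25 .e))
noncomputable def q41 : Tr := .c 4 (.l 45) (.c 5 (.l 46) .e)
noncomputable def r26 : Tr := .c 0 q41 (.c 2 q36 .e)
noncomputable def q42 : Tr := .c 4 (.l 47) (.c 5 (.l 48) .e)
noncomputable def q43 : Tr := .c 2 (.l 42) (.c 4 (.l 42) (.c 5 (.l 49) .e))
noncomputable def r27 : Tr := .c 0 q42 (.c 1 q43 (.c 3 q39 .e))
noncomputable def q44 : Tr := .c 2 (.l 50) (.c 4 (.l 50) (.c 5 (.l 51) .e))
noncomputable def r28 : Tr := .c 0 q41 (.c 1 q44 (.c 2 q36 .e))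
noncomputable def t11 : Tr := .c 3 r26 (.c 4 r27 (.c 5 r28 .e))
noncomputable def q45 : Tr := .c 4 (.l 52) (.c 5 (.l 53) .e)
noncomputable def r29 : Tr := .c 0 q45 (.c 1 q26 (.c 3 q27 .e))
noncomputable def q46 : Tr := .c 4 (.l 54) (.c 5 (.l 55) .e)
noncomputable def q47 : Tr := .c 2 (.l 29) (.c 4 (.l 29) (.c 5 (.l 56) .e))
noncomputable def r30 : Tr := .c 0 q46 (.c 1 q47 (.c 2 q31 .e))
noncomputable def t12 : Tr := .c 2 r17 (.c 4 r29 (.c 5 r30 .e))
noncomputable def q48 : Tr := .c 5 (.l 36) .e
noncomputable def q49 : Tr := .c 2 (.l 57) .e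
noncomputable def r31 : Tr := .c 2 q48 (.c 5 q49 .e)
noncomputable def q50 : Tr := .c 4 (.l 45) (.c 5 (.l 45) .e)
noncomputable def r32 : Tr := .c 0 q50 (.c 2 q48 .e)
noncomputable def q51 : Tr := .c 2 (.l 50) (.c 4 (.l 50) (.c 5 (.l 50) .e))
noncomputable def r33 : Tr := .c 0 q50 (.c 1 q51 (.c 2 q48 .e))
noncomputable def t13 : Tr := .c 1 r31 (.c 3 r32 (.c 5 r33 .e))
noncomputable def q52 : Tr := .c 1 (.l 0) (.c 3 (.l 0) (.c 5 (.l 0) .e))
noncomputable def q53 : Tr := .c 1 (.l 0) (.c 3 (.l 0) .e)
noncomputable def q54 : Tr := .c 1 (.l 0) .e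
noncomputable def r34 : Tr := .c 2 q52 (.c 4 q53 (.c 5 q54 .e))
noncomputable def r35 : Tr := .c 0 q1 (.c 2 q52 (.c 4 q53 .e))
noncomputable def q55 : Tr := .c 5 (.l 1) .e
noncomputable def r36 : Tr := .c 0 q1 (.c 1 q55 (.c 2 q52 .e))
noncomputable def t14 : Tr := .c 1 r34 (.c 3 r35 (.c 5 r36 .e))
noncomputable def q56 : Tr := .c 1 (.l 58) (.c 3 (.l 59) .e)
noncomputable def q57 : Tr := .c 1 (.l 60) .e
noncomputable def r37 : Tr := .c 4 q56 (.c 5 q57 .e)
noncomputable def t15 : Tr := .c 0 r37 (.c 1 r34 (.c 3 r35 .e))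
noncomputable def q58 : Tr := .c 1 (.l 59) (.c 3 (.l 59) .e)
noncomputable def q59 : Tr := .c 1 (.l 6) .e
noncomputable def r38 : Tr := .c 4 q58 (.c 5 q59 .e)
noncomputable def q60 : Tr := .c 5 (.l 5) .e
noncomputable def r39 : Tr := .c 1 q60 (.c 5 q59 .e)
noncomputable def t16 : Tr := .c 0 r38 (.c 1 r34 (.c 2 r39 .e))
noncomputable def q61 : Tr := .c 5 (.l 2) .e
noncomputable def r40 : Tr := .c 0 q1 (.c 1 q61 .e)
noncomputable def r41 : Tr := .c 0 q1 (.c 1 q61 (.c 2 q52 .e))
noncomputable def t17 : Tr := .c 3 r35 (.c 4 r40 (.c 5 r41 .e))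
noncomputable def q62 : Tr := .c 1 (.l 60) (.c 3 (.l 6) .e)
noncomputable def r42 : Tr := .c 4 q62 (.c 5 q57 .e)
noncomputable def t18 : Tr := .c 0 r42 (.c 1 r34 (.c 3 r35 .e))
noncomputable def q63 : Tr := .c 5 (.l 21) .e
noncomputable def q64 : Tr := .c 1 (.l 22) .e
noncomputable def r43 : Tr := .c 1 q63 (.c 5 q64 .e)
noncomputable def q65 : Tr := .c 3 (.l 23) (.c 5 (.l 23) .e)
noncomputable def r44 : Tr := .c 0 q65 (.c 1 q63 .e)
noncomputable def q66 : Tr := .c 1 (.l 15) (.c 3 (.l 15) (.c 5 (.l 15) .e))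
noncomputable def r45 : Tr := .c 0 q65 (.c 1 q63 (.c 2 q66 .e))
noncomputable def t19 : Tr := .c 2 r43 (.c 4 r44 (.c 5 r45 .e))
noncomputable def q67 : Tr := .c 0 (.l 29) (.c 2 (.l 29) (.c 4 (.l 29) .e))
noncomputable def q68 : Tr := .c 0 (.l 29) .e
noncomputable def q69 : Tr := .c 0 (.l 29) (.c 2 (.l 29) .e)
noncomputable def r46 : Tr := .c 3 q67 (.c 4 q68 (.c 5 q69 .e))
noncomputable def r47 : Tr := .c 1 q27 (.c 3 q67 (.c 5 q69 .e))
noncomputable def q70 : Tr := .c 4 (.l 33) .e
noncomputable def r48 : Tr := .c 0 q70 (.c 1 q27 (.c 3 q67 .e))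
noncomputable def t20 : Tr := .c 0 r46 (.c 2 r47 (.c 4 r48 .e))
noncomputable def q71 : Tr := .c 0 (.l 35) .e
noncomputable def q72 : Tr := .c 0 (.l 61) (.c 2 (.l 61) .e)
noncomputable def r49 : Tr := .c 4 q71 (.c 5 q72 .e)
noncomputable def q73 : Tr := .c 4 (.l 34) .e
noncomputable def r50 : Tr := .c 0 q73 (.c 4 q71 .e)
noncomputable def t21 : Tr := .c 0 r46 (.c 1 r49 (.c 3 r50 .e))
noncomputable def q74 : Tr := .c 0 (.l 62) .e
noncomputable def q75 : Tr := .c 0 (.l 63) (.c 2 (.l 61) .e)
noncomputable def r51 : Tr := .c 4 q74 (.c 5 q75 .e)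
noncomputable def t22 : Tr := .c 0 r46 (.c 1 r51 (.c 2 r47 .e))
noncomputable def q76 : Tr := .c 4 (.l 32) .e
noncomputable def r52 : Tr := .c 0 q76 (.c 1 q27 (.c 3 q67 .e))
noncomputable def r53 : Tr := .c 0 q76 (.c 1 q27 .e)
noncomputable def t23 : Tr := .c 2 r47 (.c 4 r52 (.c 5 r53 .e))
noncomputable def q77 : Tr := .c 0 (.l 62) (.c 2 (.l 35) .e)
noncomputable def r54 : Tr := .c 4 q74 (.c 5 q77 .e)
noncomputable def t24 : Tr := .c 0 r46 (.c 1 r54 (.c 2 r47 .e))
noncomputable def q78 : Tr := .c 4 (.l 36) .e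
noncomputable def q79 : Tr := .c 0 (.l 57) .e
noncomputable def r55 : Tr := .c 0 q78 (.c 4 q79 .e)
noncomputable def q80 : Tr := .c 2 (.l 43) (.c 4 (.l 43) .e)
noncomputable def q81 : Tr := .c 0 (.l 50) (.c 2 (.l 50) (.c 4 (.l 50) .e))
noncomputable def r56 : Tr := .c 0 q78 (.c 1 q80 (.c 3 q81 .e))
noncomputable def r57 : Tr := .c 0 q78 (.c 1 q80 .e)
noncomputable def t25 : Tr := .c 3 r55 (.c 4 r56 (.c 5 r57 .e))
noncomputable def q82 : Tr := .c 0 (.l 29) (.c 1 (.l 64) (.c 3 (.l 64) .e))
noncomputable def q83 : Tr := .c 0 (.l 29) (.c 1 (.l 65) .e)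
noncomputable def r58 : Tr := .c 3 q68 (.c 4 q82 (.c 5 q83 .e))
noncomputable def r59 : Tr := .c 3 q68 (.c 5 q83 .e)
noncomputable def q84 : Tr := .c 3 (.l 66) .e
noncomputable def r60 : Tr := .c 0 q84 (.c 3 q68 .e)
noncomputable def t26 : Tr := .c 0 r58 (.c 2 r59 (.c 4 r60 .e))
noncomputable def q85 : Tr := .c 0 (.l 67) (.c 1 (.l 68) (.c 3 (.l 64) .e))
noncomputable def q86 : Tr := .c 0 (.l 29) (.c 1 (.l 69) .e)
noncomputable def r61 : Tr := .c 3 q68 (.c 4 q85 (.c 5 q86 .e))
noncomputable def q87 : Tr := .c 1 (.l 70) (.c 3 (.l 71) .e)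
noncomputable def q88 : Tr := .c 0 (.l 72) (.c 1 (.l 70) (.c 3 (.l 71) .e))
noncomputable def q89 : Tr := .c 0 (.l 73) (.c 1 (.l 74) .e)
noncomputable def r62 : Tr := .c 2 q87 (.c 4 q88 (.c 5 q89 .e))
noncomputable def q90 : Tr := .c 3 (.l 75) .e
noncomputable def q91 : Tr := .c 1 (.l 76) (.c 3 (.l 75) .e)
noncomputable def q92 : Tr := .c 0 (.l 35) (.c 1 (.l 76) (.c 3 (.l 75) .e))
noncomputable def r63 : Tr := .c 0 q90 (.c 2 q91 (.c 4 q92 .e))
noncomputable def t27 : Tr := .c 0 r61 (.c 1 r62 (.c 3 r63 .e))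
noncomputable def q93 : Tr := .c 1 (.l 71) (.c 3 (.l 71) .e)
noncomputable def q94 : Tr := .c 0 (.l 77) (.c 1 (.l 71) (.c 3 (.l 71) .e))
noncomputable def q95 : Tr := .c 0 (.l 78) (.c 1 (.l 79) .e)
noncomputable def r64 : Tr := .c 2 q93 (.c 4 q94 (.c 5 q95 .e))
noncomputable def t28 : Tr := .c 0 r58 (.c 1 r64 (.c 2 r59 .e))
noncomputable def q96 : Tr := .c 0 (.l 80) (.c 1 (.l 0) (.c 3 (.l 0) .e))
noncomputable def q97 : Tr := .c 0 (.l 81) (.c 1 (.l 0) .e)
noncomputable def r65 : Tr := .c 2 q53 (.c 4 q96 (.c 5 q97 .e))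
noncomputable def q98 : Tr := .c 0 (.l 82) (.c 1 (.l 0) (.c 3 (.l 0) .e))
noncomputable def r66 : Tr := .c 0 q2 (.c 2 q53 (.c 4 q98 .e))
noncomputable def r67 : Tr := .c 0 q2 (.c 2 q53 .e)
noncomputable def t29 : Tr := .c 1 r65 (.c 3 r66 (.c 5 r67 .e))
noncomputable def q99 : Tr := .c 0 (.l 83) .e
noncomputable def q100 : Tr := .c 0 (.l 84) (.c 1 (.l 58) (.c 3 (.l 59) .e))
noncomputable def q101 : Tr := .c 0 (.l 83) (.c 1 (.l 60) .e)
noncomputable def r68 : Tr := .c 3 q99 (.c 4 q100 (.c 5 q101 .e))
noncomputable def t30 : Tr := .c 0 r68 (.c 1 r65 (.c 3 r66 .e))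
noncomputable def q102 : Tr := .c 0 (.l 85) .e
noncomputable def q103 : Tr := .c 0 (.l 86) (.c 1 (.l 59) (.c 3 (.l 59) .e))
noncomputable def q104 : Tr := .c 0 (.l 85) (.c 1 (.l 6) .e)
noncomputable def r69 : Tr := .c 3 q102 (.c 4 q103 (.c 5 q104 .e))
noncomputable def q105 : Tr := .c 0 (.l 87) (.c 1 (.l 0) (.c 3 (.l 0) .e))
noncomputable def q106 : Tr := .c 0 (.l 88) (.c 1 (.l 0) .e)
noncomputable def r70 : Tr := .c 2 q53 (.c 4 q105 (.c 5 q106 .e))
noncomputable def r71 : Tr := .c 3 q102 (.c 5 q104 .e)
noncomputable def t31 : Tr := .c 0 r69 (.c 1 r70 (.c 2 r71 .e))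
noncomputable def q107 : Tr := .c 0 (.l 89) (.c 1 (.l 0) (.c 3 (.l 0) .e))
noncomputable def r72 : Tr := .c 0 q2 (.c 2 q53 (.c 4 q107 .e))
noncomputable def q108 : Tr := .c 0 (.l 90) .e
noncomputable def r73 : Tr := .c 0 q2 (.c 3 q108 .e)
noncomputable def t32 : Tr := .c 3 r72 (.c 4 r73 (.c 5 r67 .e))
noncomputable def q109 : Tr := .c 0 (.l 81) (.c 1 (.l 0) (.c 3 (.l 0) .e))
noncomputable def r74 : Tr := .c 2 q53 (.c 4 q109 (.c 5 q97 .e))
noncomputable def t33 : Tr := .c 1 r74 (.c 3 r72 (.c 5 r67 .e))
noncomputable def q110 : Tr := .c 0 (.l 83) (.c 1 (.l 60) (.c 3 (.l 6) .e))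
noncomputable def r75 : Tr := .c 3 q99 (.c 4 q110 (.c 5 q101 .e))
noncomputable def t34 : Tr := .c 0 r75 (.c 1 r74 (.c 3 r72 .e))
noncomputable def q111 : Tr := .c 0 (.l 29) (.c 1 (.l 91) .e)
noncomputable def q112 : Tr := .c 0 (.l 29) (.c 1 (.l 92) (.c 2 (.l 29) .e))
noncomputable def r76 : Tr := .c 3 q69 (.c 4 q111 (.c 5 q112 .e))
noncomputable def q113 : Tr := .c 0 (.l 29) (.c 1 (.l 65) (.c 2 (.l 29) .e))
noncomputable def r77 : Tr := .c 1 q28 (.c 3 q69 (.c 5 q113 .e))
noncomputable def r78 : Tr := .c 1 q28 (.c 3 q69 .e)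
noncomputable def t35 : Tr := .c 0 r76 (.c 2 r77 (.c 4 r78 .e))
noncomputable def q114 : Tr := .c 0 (.l 29) (.c 1 (.l 93) .e)
noncomputable def q115 : Tr := .c 0 (.l 29) (.c 1 (.l 94) (.c 2 (.l 29) .e))
noncomputable def r79 : Tr := .c 3 q69 (.c 4 q114 (.c 5 q115 .e))
noncomputable def q116 : Tr := .c 1 (.l 76) .e
noncomputable def q117 : Tr := .c 0 (.l 35) (.c 1 (.l 76) .e)
noncomputable def q118 : Tr := .c 0 (.l 61) (.c 1 (.l 95) (.c 2 (.l 61) .e))
noncomputable def r80 : Tr := .c 2 q116 (.c 4 q117 (.c 5 q118 .e))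
noncomputable def r81 : Tr := .c 2 q116 (.c 4 q117 .e)
noncomputable def t36 : Tr := .c 0 r79 (.c 1 r80 (.c 3 r81 .e))
noncomputable def q119 : Tr := .c 1 (.l 75) .e
noncomputable def q120 : Tr := .c 0 (.l 62) (.c 1 (.l 75) .e)
noncomputable def q121 : Tr := .c 0 (.l 63) (.c 1 (.l 96) (.c 2 (.l 61) .e))
noncomputable def r82 : Tr := .c 2 q119 (.c 4 q120 (.c 5 q121 .e))
noncomputable def t37 : Tr := .c 0 r76 (.c 1 r82 (.c 2 r77 .e))
noncomputable def q122 : Tr := .c 0 (.l 82) (.c 1 (.l 0) .e)
noncomputable def q123 : Tr := .c 0 (.l 89) (.c 1 (.l 0) (.c 2 (.l 89) .e))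
noncomputable def r83 : Tr := .c 2 q54 (.c 4 q122 (.c 5 q123 .e))
noncomputable def r84 : Tr := .c 2 q54 (.c 4 q122 .e)
noncomputable def q124 : Tr := .c 2 (.l 90) .e
noncomputable def r85 : Tr := .c 1 q124 (.c 2 q54 .e)
noncomputable def t38 : Tr := .c 1 r83 (.c 3 r84 (.c 5 r85 .e))
noncomputable def q125 : Tr := .c 0 (.l 97) (.c 2 (.l 97) .e)
noncomputable def q126 : Tr := .c 0 (.l 98) (.c 1 (.l 99) .e)
noncomputable def q127 : Tr := .c 0 (.l 97) (.c 1 (.l 100) (.c 2 (.l 97) .e))
noncomputable def r86 : Tr := .c 3 q125 (.c 4 q126 (.c 5 q127 .e))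
noncomputable def t39 : Tr := .c 0 r86 (.c 1 r83 (.c 3 r84 .e))
noncomputable def q128 : Tr := .c 0 (.l 101) (.c 2 (.l 97) .e)
noncomputable def q129 : Tr := .c 0 (.l 102) (.c 1 (.l 103) .e)
noncomputable def q130 : Tr := .c 0 (.l 101) (.c 1 (.l 104) (.c 2 (.l 97) .e))
noncomputable def r87 : Tr := .c 3 q128 (.c 4 q129 (.c 5 q130 .e))
noncomputable def q131 : Tr := .c 0 (.l 105) (.c 1 (.l 0) .e)
noncomputable def q132 : Tr := .c 0 (.l 106) (.c 1 (.l 107) (.c 2 (.l 89) .e))
noncomputable def r88 : Tr := .c 2 q54 (.c 4 q131 (.c 5 q132 .e))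
noncomputable def q133 : Tr := .c 2 (.l 83) .e
noncomputable def q134 : Tr := .c 0 (.l 85) (.c 2 (.l 83) .e)
noncomputable def q135 : Tr := .c 0 (.l 85) (.c 1 (.l 6) (.c 2 (.l 83) .e))
noncomputable def r89 : Tr := .c 1 q133 (.c 3 q134 (.c 5 q135 .e))
noncomputable def t40 : Tr := .c 0 r87 (.c 1 r88 (.c 2 r89 .e))
noncomputable def q136 : Tr := .c 0 (.l 29) (.c 1 (.l 64) (.c 2 (.l 29) .e))
noncomputable def r90 : Tr := .c 1 q28 (.c 3 q69 (.c 5 q136 .e))
noncomputable def q137 : Tr := .c 1 (.l 66) .e
noncomputable def r91 : Tr := .c 1 q28 (.c 2 q137 .e)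
noncomputable def t41 : Tr := .c 2 r90 (.c 4 r78 (.c 5 r91 .e))
noncomputable def q138 : Tr := .c 0 (.l 29) (.c 1 (.l 91) (.c 2 (.l 29) .e))
noncomputable def r92 : Tr := .c 3 q69 (.c 4 q111 (.c 5 q138 .e))
noncomputable def t42 : Tr := .c 0 r92 (.c 2 r90 (.c 4 r78 .e))
noncomputable def q139 : Tr := .c 0 (.l 62) (.c 1 (.l 75) (.c 2 (.l 35) .e))
noncomputable def r93 : Tr := .c 2 q119 (.c 4 q120 (.c 5 q139 .e))
noncomputable def t43 : Tr := .c 0 r92 (.c 1 r93 (.c 2 r90 .e))

/-- the diagram -/
noncomputable def T : Tr := (.c 0 (.c 3 (.c 0 t0 (.c 2 t1 (.c 4 t2 .e))) (.c 4 (.c 0 t3 (.c 1 t4 (.c 3 t5 .e))) (.c 5 (.c 0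
t0 (.c 1 t6 (.c 2 t1 .e))) .e))) (.c 1 (.c 2 (.c 1 t7 (.c 3 t8 (.c 5 t9 .e))) (.c 4 (.c 0 t10
(.c 1 t7 (.c 3 t8 .e))) (.c 5 (.c 0 t11 (.c 1 t12 (.c 2 t13 .e))) .e))) (.c 2 (.c 1 (.c 2 t14
(.c 4 t15 (.c 5 t16 .e))) (.c 3 (.c 0 t17 (.c 2 t14 (.c 4 t18 .e))) (.c 5 (.c 0 t17 (.c 1 t19
(.c 2 t14 .e))) .e))) (.c 3 (.c 0 (.c 3 t20 (.c 4 t21 (.c 5 t22 .e))) (.c 2 (.c 1 t23 (.c 3 t20
(.c 5 t24 .e))) (.c 4 (.c 0 t25 (.c 1 t23 (.c 3 t20 .e))) .e))) (.c 4 (.c 0 (.c 3 t26 (.c 4 t27
(.c 5 t28 .e))) (.c 1 (.c 2 t29 (.c 4 t30 (.c 5 t31 .e))) (.c 3 (.c 0 t32 (.c 2 t33 (.c 4 t34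
.e))) .e))) (.c 5 (.c 0 (.c 3 t35 (.c 4 t36 (.c 5 t37 .e))) (.c 1 (.c 2 t38 (.c 4 t39 (.c 5 t40
.e))) (.c 2 (.c 1 t41 (.c 3 t42 (.c 5 t43 .e))) .e))) .e))))))

theorem k0 : chkQ0 D J R 108 T = true := by decide +kernel
theorem c0 : csP D J T 0 = true := by decide +kernel
theorem c1 : csP D J T 1 = true := by decide +kernel
theorem c2 : csP D J T 2 = true := by decide +kernel
theorem c3 : csP D J T 3 = true := by decide +kernel
theorem c4 : csP D J T 4 = true := by decide +kernel
theorem c5 : csP D J T 5 = true := by decide +kernel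
theorem c6 : csP D J T 6 = true := by decide +kernel
theorem c7 : csP D J T 7 = true := by decide +kernel
theorem c8 : csP D J T 8 = true := by decide +kernel
theorem c9 : csP D J T 9 = true := by decide +kernel
theorem c10 : csP D J T 10 = true := by decide +kernel

theorem cs : ∀ p < D.N, csP D J T p = true := by
  intro p hp
  have hp : p < 11 := hp
  interval_cases p
  · exact c0
  · exact c1
  · exact c2
  · exact c3
  · exact c4
  · exact c5
  · exact c6
  · exact c7
  · exact c8
  · exact c9
  · exact c10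

/-- the box table -/
theorem tab : BoxTab D := boxTab_of (by decide) (by decide) k0 cs

end C22a

/-! ### 01 02 13 24 35 45 (7|56: 56 never) -/

namespace C22b

/-- the data -/
def D : Dat where
  A := 6
  N := 11
  nb := [56, 52, 42, 21, 11, 7]
  op := [63, 63, 63, 63, 63, 63]
  nbT := [1080, 564, 1322, 661, 331, 199, 1584, 1320, 660, 1354, 709]
  opT := [1023, 1535, 767, 1407, 1727, 1855, 1999, 2007, 2027, 2037, 2042]
  PL := [[0], [1], [2], [3], [4], [5], [0, 1], [0, 2], [1, 3], [2, 4], [3, 5]]
  L := [3, 5, 10, 20, 40, 48]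
  P := [3, 5, 10, 20, 40, 48, 7, 11, 21, 42, 52]
  r := 0
  tie := [0, 0, 0, 0, 0, 0, 0, 0, 0, 0, 0]

/-- changes of the value at a tie -/
def J : List (List ℕ) := [[]]

/-- reachable values -/
def R : List (List ℕ) := [[1], [2], [4], [8], [0x10], [0x20], [0x40], [0x80], [0x100], [0x200], [0x400], [0x800],
[0x1000], [0x2000], [0x4000], [0x8000], [0x10000], [0x20000], [0x40000], [0x80000], [0x100000],
[0x200000], [0x400000], [0x800000], [0x1000000], [0x2000000], [0x4000000], [0x8000000],
[0x10000000], [0x20000000], [0x40000000], [0x80000000], [0x100000000], [0x200000000],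
[0x400000000], [0x800000000], [0x1000000000], [0x2000000000], [0x4000000000], [0x8000000000],
[0x10000000000], [0x20000000000], [0x40000000000], [0x80000000000], [0x100000000000],
[0x200000000000], [0x400000000000], [0x800000000000], [0x1000000000000], [0x2000000000000],
[0x4000000000000], [0x8000000000000], [0x10000000000000], [0x20000000000000],
[0x40000000000000], [0x80000000000000], [0x100000000000000], [0x200000000000000],
[0x400000000000000], [0x800000000000000], [0x1000000000000000], [0x2000000000000000],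
[0x4000000000000000], [0x8000000000000000], [0x10000000000000000], [0x20000000000000000],
[0x40000000000000000], [0x80000000000000000], [0x100000000000000000], [0x200000000000000000],
[0x400000000000000000], [0x800000000000000000], [0x1000000000000000000],
[0x2000000000000000000], [0x4000000000000000000], [0x8000000000000000000],
[0x10000000000000000000], [0x20000000000000000000], [0x40000000000000000000],
[0x80000000000000000000], [0x100000000000000000000], [0x200000000000000000000],
[0x400000000000000000000], [0x800000000000000000000], [0x1000000000000000000000],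
[0x2000000000000000000000], [0x4000000000000000000000], [0x8000000000000000000000],
[0x10000000000000000000000], [0x20000000000000000000000], [0x40000000000000000000000],
[0x80000000000000000000000], [0x100000000000000000000000], [0x200000000000000000000000],
[0x400000000000000000000000], [0x800000000000000000000000], [0x1000000000000000000000000],
[0x2000000000000000000000000], [0x4000000000000000000000000], [0x8000000000000000000000000],
[0x10000000000000000000000000], [0x20000000000000000000000000], [0x40000000000000000000000000],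
[0x80000000000000000000000000], [0x100000000000000000000000000],
[0x200000000000000000000000000], [0x400000000000000000000000000],
[0x800000000000000000000000000]]

noncomputable def q0 : Tr := .c 3 (.l 0) (.c 4 (.l 1) (.c 5 (.l 0) .e))
noncomputable def q1 : Tr := .c 3 (.l 0) (.c 5 (.l 0) .e)
noncomputable def q2 : Tr := .c 3 (.l 0) .e
noncomputable def r0 : Tr := .c 0 q0 (.c 2 q1 (.c 4 q2 .e))
noncomputable def q3 : Tr := .c 3 (.l 2) (.c 4 (.l 3) (.c 5 (.l 4) .e))
noncomputable def q4 : Tr := .c 4 (.l 3) (.c 5 (.l 4) .e)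
noncomputable def q5 : Tr := .c 4 (.l 3) .e
noncomputable def r1 : Tr := .c 0 q3 (.c 1 q4 (.c 3 q5 .e))
noncomputable def q6 : Tr := .c 3 (.l 0) (.c 4 (.l 5) (.c 5 (.l 0) .e))
noncomputable def q7 : Tr := .c 4 (.l 5) (.c 5 (.l 0) .e)
noncomputable def r2 : Tr := .c 0 q6 (.c 1 q7 (.c 2 q1 .e))
noncomputable def t0 : Tr := .c 3 r0 (.c 4 r1 (.c 5 r2 .e))
noncomputable def r3 : Tr := .c 2 q1 (.c 4 q2 .e)
noncomputable def t1 : Tr := .c 1 r3 (.c 3 r0 (.c 5 r2 .e))
noncomputable def q8 : Tr := .c 4 (.l 6) .e
noncomputable def r4 : Tr := .c 3 q8 (.c 4 q2 .e)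
noncomputable def t2 : Tr := .c 0 r4 (.c 1 r3 (.c 3 r0 .e))
noncomputable def q9 : Tr := .c 3 (.l 7) (.c 4 (.l 8) (.c 5 (.l 9) .e))
noncomputable def q10 : Tr := .c 3 (.l 7) (.c 5 (.l 9) .e)
noncomputable def q11 : Tr := .c 3 (.l 7) .e
noncomputable def r5 : Tr := .c 0 q9 (.c 2 q10 (.c 4 q11 .e))
noncomputable def q12 : Tr := .c 3 (.l 10) (.c 4 (.l 11) (.c 5 (.l 12) .e))
noncomputable def q13 : Tr := .c 4 (.l 13) (.c 5 (.l 14) .e)
noncomputable def q14 : Tr := .c 4 (.l 13) .e
noncomputable def r6 : Tr := .c 0 q12 (.c 1 q13 (.c 3 q14 .e))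
noncomputable def q15 : Tr := .c 3 (.l 15) (.c 4 (.l 16) (.c 5 (.l 17) .e))
noncomputable def q16 : Tr := .c 4 (.l 18) (.c 5 (.l 19) .e)
noncomputable def q17 : Tr := .c 3 (.l 15) (.c 5 (.l 17) .e)
noncomputable def r7 : Tr := .c 0 q15 (.c 1 q16 (.c 2 q17 .e))
noncomputable def t3 : Tr := .c 3 r5 (.c 4 r6 (.c 5 r7 .e))
noncomputable def q18 : Tr := .c 4 (.l 13) (.c 5 (.l 20) .e)
noncomputable def r8 : Tr := .c 1 q18 (.c 3 q14 .e)
noncomputable def q19 : Tr := .c 3 (.l 10) (.c 4 (.l 13) (.c 5 (.l 10) .e))
noncomputable def r9 : Tr := .c 0 q19 (.c 1 q18 (.c 3 q14 .e))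
noncomputable def q20 : Tr := .c 3 (.l 15) (.c 4 (.l 21) (.c 5 (.l 15) .e))
noncomputable def q21 : Tr := .c 4 (.l 22) (.c 5 (.l 23) .e)
noncomputable def q22 : Tr := .c 3 (.l 15) (.c 5 (.l 15) .e)
noncomputable def r10 : Tr := .c 0 q20 (.c 1 q21 (.c 2 q22 .e))
noncomputable def t4 : Tr := .c 2 r8 (.c 4 r9 (.c 5 r10 .e))
noncomputable def q23 : Tr := .c 3 (.l 24) .e
noncomputable def r11 : Tr := .c 3 q14 (.c 4 q23 .e)
noncomputable def t5 : Tr := .c 0 r11 (.c 2 r8 (.c 4 r9 .e))
noncomputable def q24 : Tr := .c 3 (.l 0) (.c 4 (.l 25) (.c 5 (.l 0) .e))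
noncomputable def r12 : Tr := .c 0 q24 (.c 2 q1 (.c 4 q2 .e))
noncomputable def q25 : Tr := .c 3 (.l 26) (.c 4 (.l 27) (.c 5 (.l 28) .e))
noncomputable def r13 : Tr := .c 0 q25 (.c 1 q4 (.c 3 q5 .e))
noncomputable def q26 : Tr := .c 3 (.l 0) (.c 4 (.l 29) (.c 5 (.l 0) .e))
noncomputable def r14 : Tr := .c 0 q26 (.c 1 q7 (.c 2 q1 .e))
noncomputable def t6 : Tr := .c 3 r12 (.c 4 r13 (.c 5 r14 .e))
noncomputable def q27 : Tr := .c 4 (.l 30) (.c 5 (.l 2) .e)
noncomputable def q28 : Tr := .c 4 (.l 30) .e
noncomputable def r15 : Tr := .c 1 q27 (.c 3 q28 .e)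
noncomputable def q29 : Tr := .c 3 (.l 26) (.c 4 (.l 31) (.c 5 (.l 26) .e))
noncomputable def r16 : Tr := .c 0 q29 (.c 1 q27 (.c 3 q28 .e))
noncomputable def q30 : Tr := .c 3 (.l 0) (.c 4 (.l 32) (.c 5 (.l 0) .e))
noncomputable def q31 : Tr := .c 4 (.l 33) (.c 5 (.l 0) .e)
noncomputable def r17 : Tr := .c 0 q30 (.c 1 q31 (.c 2 q1 .e))
noncomputable def t7 : Tr := .c 2 r15 (.c 4 r16 (.c 5 r17 .e))
noncomputable def t8 : Tr := .c 1 r3 (.c 3 r12 (.c 5 r14 .e))
noncomputable def q32 : Tr := .c 2 (.l 13) (.c 4 (.l 13) (.c 5 (.l 10) .e))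
noncomputable def q33 : Tr := .c 2 (.l 13) (.c 4 (.l 13) .e)
noncomputable def q34 : Tr := .c 2 (.l 13) .e
noncomputable def r18 : Tr := .c 1 q32 (.c 3 q33 (.c 5 q34 .e))
noncomputable def q35 : Tr := .c 4 (.l 13) (.c 5 (.l 34) .e)
noncomputable def q36 : Tr := .c 2 (.l 13) (.c 4 (.l 13) (.c 5 (.l 34) .e))
noncomputable def r19 : Tr := .c 0 q35 (.c 1 q36 (.c 3 q33 .e))
noncomputable def q37 : Tr := .c 4 (.l 35) (.c 5 (.l 7) .e)
noncomputable def q38 : Tr := .c 2 (.l 8) (.c 4 (.l 35) (.c 5 (.l 7) .e))
noncomputable def q39 : Tr := .c 5 (.l 7) .e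
noncomputable def r20 : Tr := .c 0 q37 (.c 1 q38 (.c 2 q39 .e))
noncomputable def t9 : Tr := .c 2 r18 (.c 4 r19 (.c 5 r20 .e))
noncomputable def r21 : Tr := .c 3 q33 (.c 5 q34 .e)
noncomputable def t10 : Tr := .c 0 r21 (.c 2 r18 (.c 4 r19 .e))
noncomputable def q40 : Tr := .c 5 (.l 24) .e
noncomputable def r22 : Tr := .c 2 q40 (.c 5 q34 .e)
noncomputable def t11 : Tr := .c 0 r21 (.c 1 r22 (.c 2 r18 .e))
noncomputable def q41 : Tr := .c 4 (.l 8) (.c 5 (.l 9) .e)
noncomputable def q42 : Tr := .c 5 (.l 9) .e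
noncomputable def r23 : Tr := .c 0 q41 (.c 2 q42 .e)
noncomputable def q43 : Tr := .c 4 (.l 13) (.c 5 (.l 36) .e)
noncomputable def q44 : Tr := .c 2 (.l 13) (.c 4 (.l 13) (.c 5 (.l 37) .e))
noncomputable def r24 : Tr := .c 0 q43 (.c 1 q44 (.c 3 q33 .e))
noncomputable def q45 : Tr := .c 2 (.l 38) (.c 4 (.l 38) (.c 5 (.l 39) .e))
noncomputable def r25 : Tr := .c 0 q41 (.c 1 q45 (.c 2 q42 .e))
noncomputable def t12 : Tr := .c 3 r23 (.c 4 r24 (.c 5 r25 .e))
noncomputable def q46 : Tr := .c 2 (.l 13) (.c 4 (.l 13) (.c 5 (.l 20) .e))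
noncomputable def r26 : Tr := .c 1 q46 (.c 3 q33 (.c 5 q34 .e))
noncomputable def q47 : Tr := .c 2 (.l 13) (.c 4 (.l 13) (.c 5 (.l 40) .e))
noncomputable def r27 : Tr := .c 0 q35 (.c 1 q47 (.c 3 q33 .e))
noncomputable def q48 : Tr := .c 2 (.l 38) (.c 4 (.l 41) (.c 5 (.l 42) .e))
noncomputable def r28 : Tr := .c 0 q37 (.c 1 q48 (.c 2 q39 .e))
noncomputable def t13 : Tr := .c 2 r26 (.c 4 r27 (.c 5 r28 .e))
noncomputable def t14 : Tr := .c 0 r21 (.c 2 r26 (.c 4 r27 .e))
noncomputable def q49 : Tr := .c 4 (.l 25) (.c 5 (.l 0) .e)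
noncomputable def q50 : Tr := .c 5 (.l 0) .e
noncomputable def r29 : Tr := .c 0 q49 (.c 2 q50 .e)
noncomputable def q51 : Tr := .c 4 (.l 43) (.c 5 (.l 44) .e)
noncomputable def q52 : Tr := .c 2 (.l 45) (.c 4 (.l 45) (.c 5 (.l 46) .e))
noncomputable def q53 : Tr := .c 2 (.l 45) (.c 4 (.l 45) .e)
noncomputable def r30 : Tr := .c 0 q51 (.c 1 q52 (.c 3 q53 .e))
noncomputable def q54 : Tr := .c 2 (.l 1) (.c 4 (.l 1) (.c 5 (.l 0) .e))
noncomputable def r31 : Tr := .c 0 q49 (.c 1 q54 (.c 2 q50 .e))
noncomputable def t15 : Tr := .c 3 r29 (.c 4 r30 (.c 5 r31 .e))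
noncomputable def q55 : Tr := .c 2 (.l 3) (.c 4 (.l 30) (.c 5 (.l 2) .e))
noncomputable def q56 : Tr := .c 2 (.l 3) (.c 4 (.l 30) .e)
noncomputable def q57 : Tr := .c 2 (.l 3) .e
noncomputable def r32 : Tr := .c 1 q55 (.c 3 q56 (.c 5 q57 .e))
noncomputable def q58 : Tr := .c 4 (.l 47) (.c 5 (.l 48) .e)
noncomputable def q59 : Tr := .c 2 (.l 45) (.c 4 (.l 49) (.c 5 (.l 50) .e))
noncomputable def q60 : Tr := .c 2 (.l 45) (.c 4 (.l 49) .e)
noncomputable def r33 : Tr := .c 0 q58 (.c 1 q59 (.c 3 q60 .e))
noncomputable def q61 : Tr := .c 4 (.l 51) (.c 5 (.l 0) .e)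
noncomputable def q62 : Tr := .c 2 (.l 1) (.c 4 (.l 52) (.c 5 (.l 53) .e))
noncomputable def r34 : Tr := .c 0 q61 (.c 1 q62 (.c 2 q50 .e))
noncomputable def t16 : Tr := .c 2 r32 (.c 4 r33 (.c 5 r34 .e))
noncomputable def q63 : Tr := .c 2 (.l 6) .e
noncomputable def r35 : Tr := .c 2 q50 (.c 5 q63 .e)
noncomputable def t17 : Tr := .c 1 r35 (.c 3 r29 (.c 5 r31 .e))
noncomputable def q64 : Tr := .c 1 (.l 0) (.c 3 (.l 0) (.c 5 (.l 0) .e))
noncomputable def q65 : Tr := .c 1 (.l 0) (.c 3 (.l 0) .e)
noncomputable def q66 : Tr := .c 1 (.l 54) .e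
noncomputable def r36 : Tr := .c 2 q64 (.c 4 q65 (.c 5 q66 .e))
noncomputable def r37 : Tr := .c 0 q1 (.c 2 q64 (.c 4 q65 .e))
noncomputable def r38 : Tr := .c 0 q1 (.c 1 q50 (.c 2 q64 .e))
noncomputable def t18 : Tr := .c 1 r36 (.c 3 r37 (.c 5 r38 .e))
noncomputable def q67 : Tr := .c 1 (.l 55) .e
noncomputable def r39 : Tr := .c 4 q65 (.c 5 q67 .e)
noncomputable def r40 : Tr := .c 2 q64 (.c 4 q65 (.c 5 q67 .e))
noncomputable def t19 : Tr := .c 0 r39 (.c 1 r40 (.c 3 r37 .e))
noncomputable def q68 : Tr := .c 1 (.l 56) (.c 3 (.l 56) .e)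
noncomputable def q69 : Tr := .c 1 (.l 57) .e
noncomputable def r41 : Tr := .c 4 q68 (.c 5 q69 .e)
noncomputable def q70 : Tr := .c 1 (.l 58) (.c 3 (.l 58) (.c 5 (.l 58) .e))
noncomputable def r42 : Tr := .c 2 q70 (.c 4 q68 (.c 5 q69 .e))
noncomputable def q71 : Tr := .c 5 (.l 59) .e
noncomputable def r43 : Tr := .c 1 q71 (.c 5 q69 .e)
noncomputable def t20 : Tr := .c 0 r41 (.c 1 r42 (.c 2 r43 .e))
noncomputable def q72 : Tr := .c 3 (.l 2) (.c 5 (.l 4) .e)
noncomputable def q73 : Tr := .c 5 (.l 4) .e
noncomputable def r44 : Tr := .c 0 q72 (.c 1 q73 .e)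
noncomputable def t21 : Tr := .c 3 r37 (.c 4 r44 (.c 5 r38 .e))
noncomputable def q74 : Tr := .c 3 (.l 26) (.c 5 (.l 28) .e)
noncomputable def r45 : Tr := .c 0 q74 (.c 1 q73 .e)
noncomputable def t22 : Tr := .c 3 r37 (.c 4 r45 (.c 5 r38 .e))
noncomputable def q75 : Tr := .c 5 (.l 2) .e
noncomputable def q76 : Tr := .c 1 (.l 60) .e
noncomputable def r46 : Tr := .c 1 q75 (.c 5 q76 .e)
noncomputable def q77 : Tr := .c 3 (.l 26) (.c 5 (.l 26) .e)
noncomputable def r47 : Tr := .c 0 q77 (.c 1 q75 .e)
noncomputable def t23 : Tr := .c 2 r46 (.c 4 r47 (.c 5 r38 .e))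
noncomputable def q78 : Tr := .c 0 (.l 13) (.c 2 (.l 13) (.c 4 (.l 13) .e))
noncomputable def q79 : Tr := .c 0 (.l 61) .e
noncomputable def q80 : Tr := .c 0 (.l 13) (.c 2 (.l 13) .e)
noncomputable def r48 : Tr := .c 3 q78 (.c 4 q79 (.c 5 q80 .e))
noncomputable def r49 : Tr := .c 1 q33 (.c 3 q78 (.c 5 q80 .e))
noncomputable def r50 : Tr := .c 0 q14 (.c 1 q33 (.c 3 q78 .e))
noncomputable def t24 : Tr := .c 0 r48 (.c 2 r49 (.c 4 r50 .e))
noncomputable def q81 : Tr := .c 0 (.l 62) (.c 2 (.l 62) (.c 4 (.l 62) .e))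
noncomputable def q82 : Tr := .c 0 (.l 63) .e
noncomputable def q83 : Tr := .c 0 (.l 64) (.c 2 (.l 64) .e)
noncomputable def r51 : Tr := .c 3 q81 (.c 4 q82 (.c 5 q83 .e))
noncomputable def r52 : Tr := .c 4 q82 (.c 5 q83 .e)
noncomputable def q84 : Tr := .c 4 (.l 65) .e
noncomputable def r53 : Tr := .c 0 q84 (.c 4 q82 .e)
noncomputable def t25 : Tr := .c 0 r51 (.c 1 r52 (.c 3 r53 .e))
noncomputable def q85 : Tr := .c 0 (.l 66) .e
noncomputable def r54 : Tr := .c 3 q78 (.c 4 q85 (.c 5 q80 .e))
noncomputable def r55 : Tr := .c 4 q85 (.c 5 q80 .e)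
noncomputable def t26 : Tr := .c 0 r54 (.c 1 r55 (.c 2 r49 .e))
noncomputable def q86 : Tr := .c 4 (.l 35) .e
noncomputable def q87 : Tr := .c 2 (.l 8) (.c 4 (.l 35) .e)
noncomputable def r56 : Tr := .c 0 q86 (.c 1 q87 .e)
noncomputable def t27 : Tr := .c 2 r49 (.c 4 r50 (.c 5 r56 .e))
noncomputable def q88 : Tr := .c 4 (.l 8) .e
noncomputable def q89 : Tr := .c 0 (.l 67) .e
noncomputable def r57 : Tr := .c 0 q88 (.c 4 q89 .e)
noncomputable def q90 : Tr := .c 2 (.l 38) (.c 4 (.l 38) .e)
noncomputable def r58 : Tr := .c 0 q88 (.c 1 q90 .e)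
noncomputable def t28 : Tr := .c 3 r57 (.c 4 r50 (.c 5 r58 .e))
noncomputable def q91 : Tr := .c 2 (.l 38) (.c 4 (.l 41) .e)
noncomputable def r59 : Tr := .c 0 q86 (.c 1 q91 .e)
noncomputable def t29 : Tr := .c 2 r49 (.c 4 r50 (.c 5 r59 .e))
noncomputable def q92 : Tr := .c 0 (.l 57) .e
noncomputable def q93 : Tr := .c 0 (.l 58) (.c 1 (.l 58) (.c 3 (.l 58) .e))
noncomputable def q94 : Tr := .c 0 (.l 68) (.c 1 (.l 68) .e)
noncomputable def r60 : Tr := .c 3 q92 (.c 4 q93 (.c 5 q94 .e))
noncomputable def r61 : Tr := .c 3 q92 (.c 5 q94 .e)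
noncomputable def q95 : Tr := .c 3 (.l 59) .e
noncomputable def r62 : Tr := .c 0 q95 (.c 3 q92 .e)
noncomputable def t30 : Tr := .c 0 r60 (.c 2 r61 (.c 4 r62 .e))
noncomputable def q96 : Tr := .c 0 (.l 54) .e
noncomputable def q97 : Tr := .c 0 (.l 69) (.c 1 (.l 0) (.c 3 (.l 0) .e))
noncomputable def q98 : Tr := .c 0 (.l 70) (.c 1 (.l 71) .e)
noncomputable def r63 : Tr := .c 3 q96 (.c 4 q97 (.c 5 q98 .e))
noncomputable def q99 : Tr := .c 0 (.l 0) (.c 1 (.l 0) (.c 3 (.l 0) .e))
noncomputable def q100 : Tr := .c 0 (.l 72) (.c 1 (.l 73) .e)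
noncomputable def r64 : Tr := .c 2 q65 (.c 4 q99 (.c 5 q100 .e))
noncomputable def r65 : Tr := .c 0 q2 (.c 2 q65 (.c 4 q99 .e))
noncomputable def t31 : Tr := .c 0 r63 (.c 1 r64 (.c 3 r65 .e))
noncomputable def q101 : Tr := .c 0 (.l 74) .e
noncomputable def q102 : Tr := .c 0 (.l 75) (.c 1 (.l 58) (.c 3 (.l 58) .e))
noncomputable def q103 : Tr := .c 0 (.l 76) (.c 1 (.l 68) .e)
noncomputable def r66 : Tr := .c 3 q101 (.c 4 q102 (.c 5 q103 .e))
noncomputable def q104 : Tr := .c 1 (.l 77) (.c 3 (.l 77) .e)
noncomputable def q105 : Tr := .c 0 (.l 78) (.c 1 (.l 77) (.c 3 (.l 77) .e))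
noncomputable def q106 : Tr := .c 0 (.l 79) (.c 1 (.l 80) .e)
noncomputable def r67 : Tr := .c 2 q104 (.c 4 q105 (.c 5 q106 .e))
noncomputable def r68 : Tr := .c 3 q101 (.c 5 q103 .e)
noncomputable def t32 : Tr := .c 0 r66 (.c 1 r67 (.c 2 r68 .e))
noncomputable def q107 : Tr := .c 0 (.l 81) (.c 1 (.l 81) .e)
noncomputable def r69 : Tr := .c 2 q65 (.c 4 q99 (.c 5 q107 .e))
noncomputable def r70 : Tr := .c 0 q2 (.c 2 q65 .e)
noncomputable def t33 : Tr := .c 1 r69 (.c 3 r65 (.c 5 r70 .e))
noncomputable def q108 : Tr := .c 0 (.l 54) (.c 1 (.l 55) .e)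
noncomputable def r71 : Tr := .c 3 q96 (.c 4 q99 (.c 5 q108 .e))
noncomputable def q109 : Tr := .c 0 (.l 81) (.c 1 (.l 82) .e)
noncomputable def r72 : Tr := .c 2 q65 (.c 4 q99 (.c 5 q109 .e))
noncomputable def t34 : Tr := .c 0 r71 (.c 1 r72 (.c 3 r65 .e))
noncomputable def q110 : Tr := .c 0 (.l 83) (.c 1 (.l 56) (.c 3 (.l 56) .e))
noncomputable def q111 : Tr := .c 0 (.l 74) (.c 1 (.l 57) .e)
noncomputable def r73 : Tr := .c 3 q101 (.c 4 q110 (.c 5 q111 .e))
noncomputable def q112 : Tr := .c 0 (.l 84) (.c 1 (.l 85) (.c 3 (.l 85) .e))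
noncomputable def q113 : Tr := .c 0 (.l 86) (.c 1 (.l 87) .e)
noncomputable def r74 : Tr := .c 2 q104 (.c 4 q112 (.c 5 q113 .e))
noncomputable def r75 : Tr := .c 3 q101 (.c 5 q111 .e)
noncomputable def t35 : Tr := .c 0 r73 (.c 1 r74 (.c 2 r75 .e))
noncomputable def q114 : Tr := .c 3 (.l 2) .e
noncomputable def q115 : Tr := .c 0 (.l 60) .e
noncomputable def r76 : Tr := .c 0 q114 (.c 3 q115 .e)
noncomputable def t36 : Tr := .c 3 r65 (.c 4 r76 (.c 5 r70 .e))
noncomputable def q116 : Tr := .c 0 (.l 88) (.c 1 (.l 88) .e)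
noncomputable def q117 : Tr := .c 0 (.l 13) (.c 1 (.l 13) (.c 2 (.l 13) .e))
noncomputable def r77 : Tr := .c 3 q80 (.c 4 q116 (.c 5 q117 .e))
noncomputable def r78 : Tr := .c 1 q34 (.c 3 q80 (.c 5 q117 .e))
noncomputable def r79 : Tr := .c 1 q34 (.c 3 q80 .e)
noncomputable def t37 : Tr := .c 0 r77 (.c 2 r78 (.c 4 r79 .e))
noncomputable def q118 : Tr := .c 0 (.l 89) (.c 2 (.l 89) .e)
noncomputable def q119 : Tr := .c 0 (.l 90) (.c 1 (.l 91) .e)
noncomputable def q120 : Tr := .c 0 (.l 92) (.c 1 (.l 93) (.c 2 (.l 92) .e))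
noncomputable def r80 : Tr := .c 3 q118 (.c 4 q119 (.c 5 q120 .e))
noncomputable def q121 : Tr := .c 1 (.l 94) .e
noncomputable def q122 : Tr := .c 0 (.l 63) (.c 1 (.l 94) .e)
noncomputable def q123 : Tr := .c 0 (.l 64) (.c 1 (.l 95) (.c 2 (.l 64) .e))
noncomputable def r81 : Tr := .c 2 q121 (.c 4 q122 (.c 5 q123 .e))
noncomputable def r82 : Tr := .c 2 q121 (.c 4 q122 .e)
noncomputable def t38 : Tr := .c 0 r80 (.c 1 r81 (.c 3 r82 .e))
noncomputable def q124 : Tr := .c 0 (.l 96) (.c 1 (.l 88) .e)
noncomputable def r83 : Tr := .c 3 q80 (.c 4 q124 (.c 5 q117 .e))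
noncomputable def q125 : Tr := .c 1 (.l 61) .e
noncomputable def q126 : Tr := .c 0 (.l 66) (.c 1 (.l 61) .e)
noncomputable def r84 : Tr := .c 2 q125 (.c 4 q126 (.c 5 q117 .e))
noncomputable def t39 : Tr := .c 0 r83 (.c 1 r84 (.c 2 r78 .e))
noncomputable def q127 : Tr := .c 1 (.l 63) .e
noncomputable def q128 : Tr := .c 0 (.l 97) (.c 1 (.l 97) .e)
noncomputable def q129 : Tr := .c 0 (.l 62) (.c 1 (.l 62) (.c 2 (.l 62) .e))
noncomputable def r85 : Tr := .c 2 q127 (.c 4 q128 (.c 5 q129 .e))
noncomputable def r86 : Tr := .c 2 q127 (.c 4 q128 .e)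
noncomputable def q130 : Tr := .c 2 (.l 65) .e
noncomputable def r87 : Tr := .c 1 q130 (.c 2 q127 .e)
noncomputable def t40 : Tr := .c 1 r85 (.c 3 r86 (.c 5 r87 .e))
noncomputable def q131 : Tr := .c 0 (.l 98) (.c 1 (.l 99) .e)
noncomputable def q132 : Tr := .c 0 (.l 89) (.c 1 (.l 100) (.c 2 (.l 89) .e))
noncomputable def r88 : Tr := .c 3 q118 (.c 4 q131 (.c 5 q132 .e))
noncomputable def q133 : Tr := .c 0 (.l 97) (.c 1 (.l 101) .e)
noncomputable def q134 : Tr := .c 0 (.l 62) (.c 1 (.l 102) (.c 2 (.l 62) .e))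
noncomputable def r89 : Tr := .c 2 q121 (.c 4 q133 (.c 5 q134 .e))
noncomputable def r90 : Tr := .c 2 q121 (.c 4 q133 .e)
noncomputable def t41 : Tr := .c 0 r88 (.c 1 r89 (.c 3 r90 .e))
noncomputable def q135 : Tr := .c 0 (.l 103) (.c 1 (.l 104) .e)
noncomputable def r91 : Tr := .c 3 q80 (.c 4 q135 (.c 5 q117 .e))
noncomputable def q136 : Tr := .c 0 (.l 105) (.c 1 (.l 106) .e)
noncomputable def q137 : Tr := .c 0 (.l 13) (.c 1 (.l 107) (.c 2 (.l 13) .e))
noncomputable def r92 : Tr := .c 2 q125 (.c 4 q136 (.c 5 q137 .e))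
noncomputable def t42 : Tr := .c 0 r91 (.c 1 r92 (.c 2 r78 .e))
noncomputable def q138 : Tr := .c 2 (.l 8) .e
noncomputable def q139 : Tr := .c 1 (.l 67) .e
noncomputable def r93 : Tr := .c 1 q138 (.c 2 q139 .e)
noncomputable def t43 : Tr := .c 2 r78 (.c 4 r79 (.c 5 r93 .e))

/-- the diagram -/
noncomputable def T : Tr := (.c 0 (.c 3 (.c 0 t0 (.c 2 t1 (.c 4 t2 .e))) (.c 4 (.c 0 t3 (.c 1 t4 (.c 3 t5 .e))) (.c 5 (.c 0
t6 (.c 1 t7 (.c 2 t8 .e))) .e))) (.c 1 (.c 2 (.c 1 t9 (.c 3 t10 (.c 5 t11 .e))) (.c 4 (.c 0 t12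
(.c 1 t13 (.c 3 t14 .e))) (.c 5 (.c 0 t15 (.c 1 t16 (.c 2 t17 .e))) .e))) (.c 2 (.c 1 (.c 2 t18
(.c 4 t19 (.c 5 t20 .e))) (.c 3 (.c 0 t21 (.c 2 t18 (.c 4 t19 .e))) (.c 5 (.c 0 t22 (.c 1 t23
(.c 2 t18 .e))) .e))) (.c 3 (.c 0 (.c 3 t24 (.c 4 t25 (.c 5 t26 .e))) (.c 2 (.c 1 t27 (.c 3 t24
(.c 5 t26 .e))) (.c 4 (.c 0 t28 (.c 1 t29 (.c 3 t24 .e))) .e))) (.c 4 (.c 0 (.c 3 t30 (.c 4 t31
(.c 5 t32 .e))) (.c 1 (.c 2 t33 (.c 4 t34 (.c 5 t35 .e))) (.c 3 (.c 0 t36 (.c 2 t33 (.c 4 t34
.e))) .e))) (.c 5 (.c 0 (.c 3 t37 (.c 4 t38 (.c 5 t39 .e))) (.c 1 (.c 2 t40 (.c 4 t41 (.c 5 t42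
.e))) (.c 2 (.c 1 t43 (.c 3 t37 (.c 5 t39 .e))) .e))) .e))))))

theorem k0 : chkQ0 D J R 108 T = true := by decide +kernel
theorem c0 : csP D J T 0 = true := by decide +kernel
theorem c1 : csP D J T 1 = true := by decide +kernel
theorem c2 : csP D J T 2 = true := by decide +kernel
theorem c3 : csP D J T 3 = true := by decide +kernel
theorem c4 : csP D J T 4 = true := by decide +kernel
theorem c5 : csP D J T 5 = true := by decide +kernel
theorem c6 : csP D J T 6 = true := by decide +kernel
theorem c7 : csP D J T 7 = true := by decide +kernel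
theorem c8 : csP D J T 8 = true := by decide +kernel
theorem c9 : csP D J T 9 = true := by decide +kernel
theorem c10 : csP D J T 10 = true := by decide +kernel

theorem cs : ∀ p < D.N, csP D J T p = true := by
  intro p hp
  have hp : p < 11 := hp
  interval_cases p
  · exact c0
  · exact c1
  · exact c2
  · exact c3
  · exact c4
  · exact c5
  · exact c6
  · exact c7
  · exact c8
  · exact c9
  · exact c10

/-- the box table -/
theorem tab : BoxTab D := boxTab_of (by decide) (by decide) k0 cs

end C22b

/-! ### 01 02 13 24 35 45 (7|56: tie) -/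

namespace C22t

/-- the data -/
def D : Dat where
  A := 6
  N := 12
  nb := [56, 52, 42, 21, 11, 7]
  op := [63, 63, 63, 63, 63, 63]
  nbT := [3128, 2612, 1322, 661, 331, 199, 3632, 3368, 2708, 1354, 709, 451]
  opT := [959, 1471, 703, 1343, 1727, 1855, 2048, 1943, 1963, 1973, 1978, 64]
  PL := [[0], [1], [2], [3], [4], [5], [0, 1], [0, 2], [1, 3], [2, 4], [3, 5], [4, 5]]
  L := [3, 5, 10, 20, 40, 48]
  P := [3, 5, 10, 20, 40, 48, 7, 11, 21, 42, 52, 56]
  r := 1
  tie := [0, 0, 0, 0, 0, 0, 1, 0, 0, 0, 0, 0]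

/-- changes of the value at a tie -/
def J : List (List ℕ) := [[], [0x6828000a726807300000002b32f500002c000000261b000540b697,
0x28000000000000000026110000000083,
0x500002c000000000a0000000015, 8,
0x500002c000000000a0000000015, 0x140000000006400000a0160,
0x28000000000680000140260,
0x28000000000000000026110000000083,
0x14000000018100002800320,
0x100200002800000001800000540a741,
0x100200000000000000000000540a601,
0x800,
0x68280000000000000000000200c000000000000000000000001001,
0x100200000000000000000000540a601,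
0x4000, 0x100200000000000000000000540a601, 0x10000,
0x2800000400c08e0020, 0x5000000800c1160040,
0x480000004001a1a0020, 0x900000008001c1c0040,
0x200000, 0x100200000000000000000000540a601,
0x280000100303820100,
0x1002000000000500000000305c4a601, 0x4800000100c06880100,
0x1002000000009000000000c0750a601,
0xc00060412054b8180000, 0x120000000c00858180000,
0xc0006040005428000000, 0x1200c001d0060000,
0x9012002c8060000, 0x1212000b41800000,
0x90c000781800000, 0xc000604c005e2e000000,
0x120000012000d16000000, 0xc0006040005428000000,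
0x2000000000, 0xc0006040005428000000,
0x8000000000, 0x28000000000000000026110000000083,
0x500002c000000000a0000000015,
0x12000000019c00000a0020, 0x500002c000000018e0000140055,
0x28000000001200000026150002800183,
0x21000000000009600088000060, 0x42000000000010e00050000060,
0x8400000000003cc0050000000,
0x4200000000005ac0088000000,
0x28000008400000000036910900000083,
0x2800000420000000002f110600000083,
0x2100000000001c200600000300,
0x4200000000001a400900000300,
0x28000000000000000026110000000083,
0x15807000133a00002500009cf45c0000001ac00f38565c0005428000000,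
0xc000000000000000338004c0000000000000,
0x40080000001ac0000610b40000280000000,
0x2400020601300000140000000,
0xc000000000000000338004c0000000000000,
0x24000080181900000280000000,
0x48000100181a00000140000000, 0xc0006040005428000000,
0xc0006040005428000000,
0x8000000000000000, 0x40080000001ac0000010140000000000000,
0x20000000000000000,
0x25000090b0000000000000000040040000000000000,
0x10204381800000000820000,
0x20408581800000001040000, 0x5000e80300000000820000,
0xa001700300000001040000,
0xc00000000000005037a004c0000002080000,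
0xc0000000000000a03bc004c0000004100000,
0xc000000000000000338004c0000000000000,
0x1038c880000000002080000, 0x2058d100000000004100000,
0xc000000000000000338004c0000000000000,
0xc000000000024001338006c0000810000000,
0xc0006040005428000000, 0x240001cc006840005428000000,
0x480001ac001000000810000000,
0xc011604080000140000000000, 0x50c022e081000000a0000000015,
0x500002c000000000a0000000015,
0x607200a00000140000000000, 0x50060bc014000000a0000000015,
0x301d000a00000000000000120,
0x302e001400000000000000240, 0x60034204080000000000000120,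
0x60038408100000000000000240,
0x40080000001ac0000010140000000000000,
0x40080000001ac0000010140000000000000,
0x100000000000000000000000,
0x40080000005ec3000010145000000000000,
0xa603020000202800000000000,
0x40080000001ac0000010140000000000000,
0x40080000023acc000010148200000000000,
0x4340c020000210400000000000,
0x2c200680000805000000000000, 0x4c400700001002800000000000,
0x10000000000000000000000000,
0x65030080000808200000000000, 0x6a030100001010400000000000,
0x80000000000000000000000000,
0x500002c000000000a0000000015, 0x200000000000000000000000000,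
0x500002c000000000a0000000015,
0x800000000000000000000000000,
0x220073000000000021000000000000000000000000001,
0x100200000000000000000000540a601,
0x68280000090000090000000205c000000000000000000000001001,
0x68280000000000000000000200c000000000000000000000001001,
0x900000000680000900000000094000000000000000000000000000,
0x220073000000000021000000000000000000000000001,
0x880000000049000000140000000c4000000000000000000000000000,
0x2100000000104800000140000000d0000000000000000000000000000,
0xa7048000000000000300000000000000000000000000001,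
0xa7048000000000000300000000000000000000000000001,
0x400000000000000000000000000000,
0x800000000000000000000000000000,
0x100200000000000000000000540a601,
0x68280000000000000000000200c000000000000000000000001001,
0x4000000000000000000000000000000,
0x28000000000000000026110000000083,
0x10000000000000000000000000000000,
0x28000000000000000026110000000083,
0x1807000100200000000000004040000000000000000040000000000000,
0x40080000001ac0000010140000000000000,
0x14000000033800000000000000500000000000000000040000000000000,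
0x200000000000000000000000000000000,
0x14000000033800000000000000500000000000000000040000000000000,
0x5244000000004080009800000000000000000000000000000000,
0x5490000000008400011800000000000000000000000000000000,
0x2000000000000000000000000000000000,
0x1807000100200000000000004040000000000000000040000000000000,
0x140000340000001200000018800000000000000000000000000000000,
0x1400004800000025000090b9000000000000000040040000000000000,
0x25000090b0000000000000000040040000000000000,
0x40080000001ac0000010140000000000000,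
0x25000090b0000000000000000040040000000000000,
0x100000000000000000000000000000000000,
0x200000000000000000000000000000000000,
0xc000000000000000338004c0000000000000,
0xc000000000000000338004c0000000000000,
0x25000090b0000000000000000040040000000000000,
0x2000000000000000000000000000000000000,
0x200400000a001940000000c0000000000000000000000000000,
0x25000090b0000000000000000040040000000000000,
0x400800004400c140000000c0000000000000000000000000000,
0x20000000000000000000000000000000000000,
0x40000000000000000000000000000000000000,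
0x4000180204584000800000000000000000000000000000000,
0x48000000201984000000014000000000000000000000000000,
0x200000000000000000000000000000000000000,
0x10000180408c90001000000000000000000000000000000000,
0xa0000000410d10000000014000000000000000000000000000,
0x48000221877100000000021000000000000000000000000001,
0x220073000000000021000000000000000000000000001,
0x400001980d080000800000000000000000000000000000000,
0x1000001e01c400001000000000000000000000000000000000,
0xa000022607b800000000021000000000000000000000000001,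
0x220073000000000021000000000000000000000000001,
0x220073000000000021000000000000000000000000001,
0x80000000000000000000000000000000000000000,
0x25000090b0000000000000000040040000000000000,
0x100000c01600184008000000000000000000000000000000000,
0xc02700c190b0000000000000000040040000000000000,
0x200414005805004000000000000000000000000000000000000,
0x10000a003a05000008000000000000000000000000000000000,
0xa0075180090b0000000000000000040040000000000000,
0x400814006818010000000000000000000000000000000000000,
0x410000a715800c000000000300000000000000000000000000001,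
0x2400001829800c000000000000000000000000000000000000000,
0x220073000000000021000000000000000000000000001,
0xa7048000000000000300000000000000000000000000001,
0x24000000590000480000000090000000000000000000000000000,
0x41000000988000480000000044000000000000000000000000000,
0x900000018230073000000000031000000000000000000000000001,
0x101000000008c80600000000000090000000000000000000000000000,
0x44000000002d00600000000000044000000000000000000000000000,
0xa7048000000000000300000000000000000000000000001,
0x440000000af84b000000000000300000000000000000000000000001,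
0x880000000b704c800000000000340000000000000000000000000001,
0x10100000001a613000000000000000000000000000000000000000000,
0x21000000001c214800000000000080000000000000000000000000000,
0xa7048000000000000300000000000000000000000000001,
0x40000000000000000000000000000000000000000000000,
0xa7048000000000000300000000000000000000000000001,
0x100000000000000000000000000000000000000000000000,
0x1807000100200000000000004040000000000000000040000000000000,
0x1800030cc00000800004000000000000000000000000000000000000,
0x14018000433c00004000010000500000000000000000040000000000000,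
0x14000000033800000000000000500000000000000000040000000000000,
0x14000000033800000000000000500000000000000000040000000000000,
0x6011c400000004080000800000000000000000000000000000000,
0x18016c400000001100000000000000000000000000000000000000,
0x14000060037800000008400001500000000000000000040000000000000,
0x140001800bb800000010800000500000000000000000040000000000000,
0xc002c8000000001100008800000000000000000000000000000000,
0xc004e0000000010800011000000000000000000000000000000000,
0x180700010c60000120000000c040000000000000000040000000000000,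
0x280000640400000800004008800000000000000000000000000000000,
0x280000680800004000010011000000000000000000000000000000000,
0x68280000000000000000000200c000000000000000000000001001,
0xc0445000000108000000001800000000000000000000000000000000,
0x68280000000000000000000200c000000000000000000000001001,
0x300825000000090000000001800000000000000000000000000000000,
0x8000000000000000000000000000000000000000000000000000,
0x10000000000000000000000000000000000000000000000000000,
0x11164014000090000000000000000000000000000000000000000000,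
0xc0e1014000108000000000000000000000000000000000000000000,
0xc7c282800000000000000000200c000000000000000000000001001,
0x119a0028000200000000000000010000000000000000000000000000,
0x68280000000000000000000200c000000000000000000000001001,
0xc0e838c000000000000000000200c000000000000000000000001001,
0x300d040c0000200000000000000010000000000000000000000000000,
0x1917120100208400000000004040000000000000000040000000000000,
0x1807000100200000000000004040000000000000000040000000000000,
0x184f0c0100202800000000004040000000000000000040000000000000,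
0x9c0c0000c04000000000000000040000000000000000000000000000,
0x219120000c10000000000000000080000000000000000000000000000,
0x20000000000000000000000000000000000000000000000000000000,
0x1c4401000002800000000018000000000000000000000000000000000,
0x2c8401600004000000000000000040000000000000000000000000000,
0x341804000008400000000018000000000000000000000000000000000,
0x390804600010000000000000000080000000000000000000000000000,
0x400000000000000000000000000000000000000000000000000000000,
0x1807000100200000000000004040000000000000000040000000000000,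
0x1807000100200000000000004040000000000000000040000000000000,
0x2000000000000000000000000000000000000000000000000000000000,
0x14000000033800000000000000500000000000000000040000000000000,
0x8000000000000000000000000000000000000000000000000000000000,
0x14000000033800000000000000500000000000000000040000000000000,
0x20000000000000000000000000000000000000000000000000000000000]]

/-- reachable values -/
def R : List (List ℕ) := [[1, 0x6828000a726807300000002b32f500002c000000261b000540b697], [2,
0x28000000000000000026110000000083], [4, 0x500002c000000000a0000000015], [8, 8], [0x10,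
0x500002c000000000a0000000015], [0x20, 0x140000000006400000a0160], [0x40,
0x28000000000680000140260], [0x80, 0x28000000000000000026110000000083], [0x100,
0x14000000018100002800320], [0x200, 0x100200002800000001800000540a741], [0x400,
0x100200000000000000000000540a601], [0x800, 0x800], [0x1000,
0x68280000000000000000000200c000000000000000000000001001], [0x2000,
0x100200000000000000000000540a601], [0x4000, 0x4000], [0x8000,
0x100200000000000000000000540a601], [0x10000, 0x10000], [0x20000, 0x2800000400c08e0020],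
[0x40000, 0x5000000800c1160040], [0x80000, 0x480000004001a1a0020], [0x100000,
0x900000008001c1c0040], [0x200000, 0x200000], [0x400000, 0x100200000000000000000000540a601],
[0x800000, 0x280000100303820100], [0x1000000, 0x1002000000000500000000305c4a601], [0x2000000,
0x4800000100c06880100], [0x4000000, 0x1002000000009000000000c0750a601], [0x8000000,
0xc00060412054b8180000], [0x10000000, 0x120000000c00858180000], [0x20000000,
0xc0006040005428000000], [0x40000000, 0x1200c001d0060000], [0x80000000, 0x9012002c8060000],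
[0x100000000, 0x1212000b41800000], [0x200000000, 0x90c000781800000], [0x400000000,
0xc000604c005e2e000000], [0x800000000, 0x120000012000d16000000], [0x1000000000,
0xc0006040005428000000], [0x2000000000, 0x2000000000], [0x4000000000, 0xc0006040005428000000],
[0x8000000000, 0x8000000000], [0x10000000000, 0x28000000000000000026110000000083],
[0x20000000000, 0x500002c000000000a0000000015], [0x40000000000, 0x12000000019c00000a0020],
[0x80000000000, 0x500002c000000018e0000140055], [0x100000000000,
0x28000000001200000026150002800183], [0x200000000000, 0x21000000000009600088000060],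
[0x400000000000, 0x42000000000010e00050000060], [0x800000000000, 0x8400000000003cc0050000000],
[0x1000000000000, 0x4200000000005ac0088000000], [0x2000000000000,
0x28000008400000000036910900000083], [0x4000000000000, 0x2800000420000000002f110600000083],
[0x8000000000000, 0x2100000000001c200600000300], [0x10000000000000,
0x4200000000001a400900000300], [0x20000000000000, 0x28000000000000000026110000000083],
[0x40000000000000, 0x15807000133a00002500009cf45c0000001ac00f38565c0005428000000],
[0x80000000000000, 0xc000000000000000338004c0000000000000], [0x100000000000000,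
0x40080000001ac0000610b40000280000000], [0x200000000000000, 0x2400020601300000140000000],
[0x400000000000000, 0xc000000000000000338004c0000000000000], [0x800000000000000,
0x24000080181900000280000000], [0x1000000000000000, 0x48000100181a00000140000000],
[0x2000000000000000, 0xc0006040005428000000], [0x4000000000000000, 0xc0006040005428000000],
[0x8000000000000000, 0x8000000000000000], [0x10000000000000000,
0x40080000001ac0000010140000000000000], [0x20000000000000000, 0x20000000000000000],
[0x40000000000000000, 0x25000090b0000000000000000040040000000000000], [0x80000000000000000,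
0x10204381800000000820000], [0x100000000000000000, 0x20408581800000001040000],
[0x200000000000000000, 0x5000e80300000000820000], [0x400000000000000000,
0xa001700300000001040000], [0x800000000000000000, 0xc00000000000005037a004c0000002080000],
[0x1000000000000000000, 0xc0000000000000a03bc004c0000004100000], [0x2000000000000000000,
0xc000000000000000338004c0000000000000], [0x4000000000000000000, 0x1038c880000000002080000],
[0x8000000000000000000, 0x2058d100000000004100000], [0x10000000000000000000,
0xc000000000000000338004c0000000000000], [0x20000000000000000000,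
0xc000000000024001338006c0000810000000], [0x40000000000000000000, 0xc0006040005428000000],
[0x80000000000000000000, 0x240001cc006840005428000000], [0x100000000000000000000,
0x480001ac001000000810000000], [0x200000000000000000000, 0xc011604080000140000000000],
[0x400000000000000000000, 0x50c022e081000000a0000000015], [0x800000000000000000000,
0x500002c000000000a0000000015], [0x1000000000000000000000, 0x607200a00000140000000000],
[0x2000000000000000000000, 0x50060bc014000000a0000000015], [0x4000000000000000000000,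
0x301d000a00000000000000120], [0x8000000000000000000000, 0x302e001400000000000000240],
[0x10000000000000000000000, 0x60034204080000000000000120], [0x20000000000000000000000,
0x60038408100000000000000240], [0x40000000000000000000000,
0x40080000001ac0000010140000000000000], [0x80000000000000000000000,
0x40080000001ac0000010140000000000000], [0x100000000000000000000000,
0x100000000000000000000000], [0x200000000000000000000000,
0x40080000005ec3000010145000000000000], [0x400000000000000000000000,
0xa603020000202800000000000], [0x800000000000000000000000,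
0x40080000001ac0000010140000000000000], [0x1000000000000000000000000,
0x40080000023acc000010148200000000000], [0x2000000000000000000000000,
0x4340c020000210400000000000], [0x4000000000000000000000000, 0x2c200680000805000000000000],
[0x8000000000000000000000000, 0x4c400700001002800000000000], [0x10000000000000000000000000,
0x10000000000000000000000000], [0x20000000000000000000000000, 0x65030080000808200000000000],
[0x40000000000000000000000000, 0x6a030100001010400000000000], [0x80000000000000000000000000,
0x80000000000000000000000000], [0x100000000000000000000000000, 0x500002c000000000a0000000015],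
[0x200000000000000000000000000, 0x200000000000000000000000000], [0x400000000000000000000000000,
0x500002c000000000a0000000015], [0x800000000000000000000000000, 0x800000000000000000000000000],
[0x1000000000000000000000000000, 0x220073000000000021000000000000000000000000001],
[0x2000000000000000000000000000, 0x100200000000000000000000540a601],
[0x4000000000000000000000000000, 0x68280000090000090000000205c000000000000000000000001001],
[0x8000000000000000000000000000, 0x68280000000000000000000200c000000000000000000000001001],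
[0x10000000000000000000000000000, 0x900000000680000900000000094000000000000000000000000000],
[0x20000000000000000000000000000, 0x220073000000000021000000000000000000000000001],
[0x40000000000000000000000000000, 0x880000000049000000140000000c4000000000000000000000000000],
[0x80000000000000000000000000000, 0x2100000000104800000140000000d0000000000000000000000000000],
[0x100000000000000000000000000000, 0xa7048000000000000300000000000000000000000000001],
[0x200000000000000000000000000000, 0xa7048000000000000300000000000000000000000000001],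
[0x400000000000000000000000000000, 0x400000000000000000000000000000],
[0x800000000000000000000000000000, 0x800000000000000000000000000000],
[0x1000000000000000000000000000000, 0x100200000000000000000000540a601],
[0x2000000000000000000000000000000, 0x68280000000000000000000200c000000000000000000000001001],
[0x4000000000000000000000000000000, 0x4000000000000000000000000000000],
[0x8000000000000000000000000000000, 0x28000000000000000026110000000083],
[0x10000000000000000000000000000000, 0x10000000000000000000000000000000],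
[0x20000000000000000000000000000000, 0x28000000000000000026110000000083],
[0x40000000000000000000000000000000,
0x1807000100200000000000004040000000000000000040000000000000],
[0x80000000000000000000000000000000, 0x40080000001ac0000010140000000000000],
[0x100000000000000000000000000000000,
0x14000000033800000000000000500000000000000000040000000000000],
[0x200000000000000000000000000000000, 0x200000000000000000000000000000000],
[0x400000000000000000000000000000000,
0x14000000033800000000000000500000000000000000040000000000000],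
[0x800000000000000000000000000000000, 0x5244000000004080009800000000000000000000000000000000],
[0x1000000000000000000000000000000000, 0x5490000000008400011800000000000000000000000000000000],
[0x2000000000000000000000000000000000, 0x2000000000000000000000000000000000],
[0x4000000000000000000000000000000000,
0x1807000100200000000000004040000000000000000040000000000000],
[0x8000000000000000000000000000000000,
0x140000340000001200000018800000000000000000000000000000000],
[0x10000000000000000000000000000000000,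
0x1400004800000025000090b9000000000000000040040000000000000],
[0x20000000000000000000000000000000000, 0x25000090b0000000000000000040040000000000000],
[0x40000000000000000000000000000000000, 0x40080000001ac0000010140000000000000],
[0x80000000000000000000000000000000000, 0x25000090b0000000000000000040040000000000000],
[0x100000000000000000000000000000000000, 0x100000000000000000000000000000000000],
[0x200000000000000000000000000000000000, 0x200000000000000000000000000000000000],
[0x400000000000000000000000000000000000, 0xc000000000000000338004c0000000000000],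
[0x800000000000000000000000000000000000, 0xc000000000000000338004c0000000000000],
[0x1000000000000000000000000000000000000, 0x25000090b0000000000000000040040000000000000],
[0x2000000000000000000000000000000000000, 0x2000000000000000000000000000000000000],
[0x4000000000000000000000000000000000000,
0x200400000a001940000000c0000000000000000000000000000],
[0x8000000000000000000000000000000000000, 0x25000090b0000000000000000040040000000000000],
[0x10000000000000000000000000000000000000,
0x400800004400c140000000c0000000000000000000000000000],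
[0x20000000000000000000000000000000000000, 0x20000000000000000000000000000000000000],
[0x40000000000000000000000000000000000000, 0x40000000000000000000000000000000000000],
[0x80000000000000000000000000000000000000,
0x4000180204584000800000000000000000000000000000000],
[0x100000000000000000000000000000000000000,
0x48000000201984000000014000000000000000000000000000],
[0x200000000000000000000000000000000000000, 0x200000000000000000000000000000000000000],
[0x400000000000000000000000000000000000000,
0x10000180408c90001000000000000000000000000000000000],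
[0x800000000000000000000000000000000000000,
0xa0000000410d10000000014000000000000000000000000000],
[0x1000000000000000000000000000000000000000,
0x48000221877100000000021000000000000000000000000001],
[0x2000000000000000000000000000000000000000, 0x220073000000000021000000000000000000000000001],
[0x4000000000000000000000000000000000000000,
0x400001980d080000800000000000000000000000000000000],
[0x8000000000000000000000000000000000000000,
0x1000001e01c400001000000000000000000000000000000000],
[0x10000000000000000000000000000000000000000,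
0xa000022607b800000000021000000000000000000000000001],
[0x20000000000000000000000000000000000000000, 0x220073000000000021000000000000000000000000001],
[0x40000000000000000000000000000000000000000, 0x220073000000000021000000000000000000000000001],
[0x80000000000000000000000000000000000000000, 0x80000000000000000000000000000000000000000],
[0x100000000000000000000000000000000000000000, 0x25000090b0000000000000000040040000000000000],
[0x200000000000000000000000000000000000000000,
0x100000c01600184008000000000000000000000000000000000],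
[0x400000000000000000000000000000000000000000,
0xc02700c190b0000000000000000040040000000000000],
[0x800000000000000000000000000000000000000000,
0x200414005805004000000000000000000000000000000000000],
[0x1000000000000000000000000000000000000000000,
0x10000a003a05000008000000000000000000000000000000000],
[0x2000000000000000000000000000000000000000000,
0xa0075180090b0000000000000000040040000000000000],
[0x4000000000000000000000000000000000000000000,
0x400814006818010000000000000000000000000000000000000],
[0x8000000000000000000000000000000000000000000,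
0x410000a715800c000000000300000000000000000000000000001],
[0x10000000000000000000000000000000000000000000,
0x2400001829800c000000000000000000000000000000000000000],
[0x20000000000000000000000000000000000000000000,
0x220073000000000021000000000000000000000000001],
[0x40000000000000000000000000000000000000000000,
0xa7048000000000000300000000000000000000000000001],
[0x80000000000000000000000000000000000000000000,
0x24000000590000480000000090000000000000000000000000000],
[0x100000000000000000000000000000000000000000000,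
0x41000000988000480000000044000000000000000000000000000],
[0x200000000000000000000000000000000000000000000,
0x900000018230073000000000031000000000000000000000000001],
[0x400000000000000000000000000000000000000000000,
0x101000000008c80600000000000090000000000000000000000000000],
[0x800000000000000000000000000000000000000000000,
0x44000000002d00600000000000044000000000000000000000000000],
[0x1000000000000000000000000000000000000000000000,
0xa7048000000000000300000000000000000000000000001],
[0x2000000000000000000000000000000000000000000000,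
0x440000000af84b000000000000300000000000000000000000000001],
[0x4000000000000000000000000000000000000000000000,
0x880000000b704c800000000000340000000000000000000000000001],
[0x8000000000000000000000000000000000000000000000,
0x10100000001a613000000000000000000000000000000000000000000],
[0x10000000000000000000000000000000000000000000000,
0x21000000001c214800000000000080000000000000000000000000000],
[0x20000000000000000000000000000000000000000000000,
0xa7048000000000000300000000000000000000000000001],
[0x40000000000000000000000000000000000000000000000,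
0x40000000000000000000000000000000000000000000000],
[0x80000000000000000000000000000000000000000000000,
0xa7048000000000000300000000000000000000000000001],
[0x100000000000000000000000000000000000000000000000,
0x100000000000000000000000000000000000000000000000],
[0x200000000000000000000000000000000000000000000000,
0x1807000100200000000000004040000000000000000040000000000000],
[0x400000000000000000000000000000000000000000000000,
0x1800030cc00000800004000000000000000000000000000000000000],
[0x800000000000000000000000000000000000000000000000,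
0x14018000433c00004000010000500000000000000000040000000000000],
[0x1000000000000000000000000000000000000000000000000,
0x14000000033800000000000000500000000000000000040000000000000],
[0x2000000000000000000000000000000000000000000000000,
0x14000000033800000000000000500000000000000000040000000000000],
[0x4000000000000000000000000000000000000000000000000,
0x6011c400000004080000800000000000000000000000000000000],
[0x8000000000000000000000000000000000000000000000000,
0x18016c400000001100000000000000000000000000000000000000],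
[0x10000000000000000000000000000000000000000000000000,
0x14000060037800000008400001500000000000000000040000000000000],
[0x20000000000000000000000000000000000000000000000000,
0x140001800bb800000010800000500000000000000000040000000000000],
[0x40000000000000000000000000000000000000000000000000,
0xc002c8000000001100008800000000000000000000000000000000],
[0x80000000000000000000000000000000000000000000000000,
0xc004e0000000010800011000000000000000000000000000000000],
[0x100000000000000000000000000000000000000000000000000,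
0x180700010c60000120000000c040000000000000000040000000000000],
[0x200000000000000000000000000000000000000000000000000,
0x280000640400000800004008800000000000000000000000000000000],
[0x400000000000000000000000000000000000000000000000000,
0x280000680800004000010011000000000000000000000000000000000],
[0x800000000000000000000000000000000000000000000000000,
0x68280000000000000000000200c000000000000000000000001001],
[0x1000000000000000000000000000000000000000000000000000,
0xc0445000000108000000001800000000000000000000000000000000],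
[0x2000000000000000000000000000000000000000000000000000,
0x68280000000000000000000200c000000000000000000000001001],
[0x4000000000000000000000000000000000000000000000000000,
0x300825000000090000000001800000000000000000000000000000000],
[0x8000000000000000000000000000000000000000000000000000,
0x8000000000000000000000000000000000000000000000000000],
[0x10000000000000000000000000000000000000000000000000000,
0x10000000000000000000000000000000000000000000000000000],
[0x20000000000000000000000000000000000000000000000000000,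
0x11164014000090000000000000000000000000000000000000000000],
[0x40000000000000000000000000000000000000000000000000000,
0xc0e1014000108000000000000000000000000000000000000000000],
[0x80000000000000000000000000000000000000000000000000000,
0xc7c282800000000000000000200c000000000000000000000001001],
[0x100000000000000000000000000000000000000000000000000000,
0x119a0028000200000000000000010000000000000000000000000000],
[0x200000000000000000000000000000000000000000000000000000,
0x68280000000000000000000200c000000000000000000000001001],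
[0x400000000000000000000000000000000000000000000000000000,
0xc0e838c000000000000000000200c000000000000000000000001001],
[0x800000000000000000000000000000000000000000000000000000,
0x300d040c0000200000000000000010000000000000000000000000000],
[0x1000000000000000000000000000000000000000000000000000000,
0x1917120100208400000000004040000000000000000040000000000000],
[0x2000000000000000000000000000000000000000000000000000000,
0x1807000100200000000000004040000000000000000040000000000000],
[0x4000000000000000000000000000000000000000000000000000000,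
0x184f0c0100202800000000004040000000000000000040000000000000],
[0x8000000000000000000000000000000000000000000000000000000,
0x9c0c0000c04000000000000000040000000000000000000000000000],
[0x10000000000000000000000000000000000000000000000000000000,
0x219120000c10000000000000000080000000000000000000000000000],
[0x20000000000000000000000000000000000000000000000000000000,
0x20000000000000000000000000000000000000000000000000000000],
[0x40000000000000000000000000000000000000000000000000000000,
0x1c4401000002800000000018000000000000000000000000000000000],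
[0x80000000000000000000000000000000000000000000000000000000,
0x2c8401600004000000000000000040000000000000000000000000000],
[0x100000000000000000000000000000000000000000000000000000000,
0x341804000008400000000018000000000000000000000000000000000],
[0x200000000000000000000000000000000000000000000000000000000,
0x390804600010000000000000000080000000000000000000000000000],
[0x400000000000000000000000000000000000000000000000000000000,
0x400000000000000000000000000000000000000000000000000000000],
[0x800000000000000000000000000000000000000000000000000000000,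
0x1807000100200000000000004040000000000000000040000000000000],
[0x1000000000000000000000000000000000000000000000000000000000,
0x1807000100200000000000004040000000000000000040000000000000],
[0x2000000000000000000000000000000000000000000000000000000000,
0x2000000000000000000000000000000000000000000000000000000000],
[0x4000000000000000000000000000000000000000000000000000000000,
0x14000000033800000000000000500000000000000000040000000000000],
[0x8000000000000000000000000000000000000000000000000000000000,
0x8000000000000000000000000000000000000000000000000000000000],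
[0x10000000000000000000000000000000000000000000000000000000000,
0x14000000033800000000000000500000000000000000040000000000000],
[0x20000000000000000000000000000000000000000000000000000000000,
0x20000000000000000000000000000000000000000000000000000000000]]

noncomputable def q0 : Tr := .c 3 (.l 0) (.c 4 (.l 1) (.c 5 (.l 0) .e))
noncomputable def q1 : Tr := .c 3 (.l 0) (.c 5 (.l 0) .e)
noncomputable def q2 : Tr := .c 3 (.l 0) .e
noncomputable def r0 : Tr := .c 0 q0 (.c 2 q1 (.c 4 q2 .e))
noncomputable def q3 : Tr := .c 3 (.l 2) (.c 4 (.l 3) (.c 5 (.l 4) .e))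
noncomputable def q4 : Tr := .c 4 (.l 5) (.c 5 (.l 6) .e)
noncomputable def q5 : Tr := .c 4 (.l 5) .e
noncomputable def r1 : Tr := .c 0 q3 (.c 1 q4 (.c 3 q5 .e))
noncomputable def q6 : Tr := .c 3 (.l 0) (.c 4 (.l 7) (.c 5 (.l 0) .e))
noncomputable def q7 : Tr := .c 4 (.l 8) (.c 5 (.l 9) .e)
noncomputable def r2 : Tr := .c 0 q6 (.c 1 q7 (.c 2 q1 .e))
noncomputable def t0 : Tr := .c 3 r0 (.c 4 r1 (.c 5 r2 .e))
noncomputable def r3 : Tr := .c 2 q1 (.c 4 q2 .e)
noncomputable def q8 : Tr := .c 4 (.l 8) (.c 5 (.l 10) .e)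
noncomputable def r4 : Tr := .c 0 q6 (.c 1 q8 (.c 2 q1 .e))
noncomputable def t1 : Tr := .c 1 r3 (.c 3 r0 (.c 5 r4 .e))
noncomputable def q9 : Tr := .c 4 (.l 11) .e
noncomputable def q10 : Tr := .c 3 (.l 12) .e
noncomputable def r5 : Tr := .c 3 q9 (.c 4 q10 .e)
noncomputable def t2 : Tr := .c 0 r5 (.c 1 r3 (.c 3 r0 .e))
noncomputable def q11 : Tr := .c 3 (.l 13) (.c 4 (.l 14) (.c 5 (.l 15) .e))
noncomputable def q12 : Tr := .c 3 (.l 13) (.c 5 (.l 15) .e)
noncomputable def q13 : Tr := .c 3 (.l 13) .e
noncomputable def r6 : Tr := .c 0 q11 (.c 2 q12 (.c 4 q13 .e))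
noncomputable def q14 : Tr := .c 3 (.l 16) (.c 4 (.l 17) (.c 5 (.l 18) .e))
noncomputable def q15 : Tr := .c 4 (.l 19) (.c 5 (.l 20) .e)
noncomputable def q16 : Tr := .c 4 (.l 21) .e
noncomputable def r7 : Tr := .c 0 q14 (.c 1 q15 (.c 3 q16 .e))
noncomputable def q17 : Tr := .c 3 (.l 22) (.c 4 (.l 23) (.c 5 (.l 24) .e))
noncomputable def q18 : Tr := .c 4 (.l 25) (.c 5 (.l 26) .e)
noncomputable def q19 : Tr := .c 3 (.l 22) (.c 5 (.l 24) .e)
noncomputable def r8 : Tr := .c 0 q17 (.c 1 q18 (.c 2 q19 .e))
noncomputable def t3 : Tr := .c 3 r6 (.c 4 r7 (.c 5 r8 .e))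
noncomputable def q20 : Tr := .c 4 (.l 27) (.c 5 (.l 28) .e)
noncomputable def q21 : Tr := .c 4 (.l 29) .e
noncomputable def r9 : Tr := .c 1 q20 (.c 3 q21 .e)
noncomputable def q22 : Tr := .c 3 (.l 30) (.c 4 (.l 31) (.c 5 (.l 30) .e))
noncomputable def r10 : Tr := .c 0 q22 (.c 1 q20 (.c 3 q21 .e))
noncomputable def q23 : Tr := .c 3 (.l 32) (.c 4 (.l 33) (.c 5 (.l 32) .e))
noncomputable def q24 : Tr := .c 4 (.l 34) (.c 5 (.l 35) .e)
noncomputable def q25 : Tr := .c 3 (.l 32) (.c 5 (.l 32) .e)
noncomputable def r11 : Tr := .c 0 q23 (.c 1 q24 (.c 2 q25 .e))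
noncomputable def t4 : Tr := .c 2 r9 (.c 4 r10 (.c 5 r11 .e))
noncomputable def q26 : Tr := .c 4 (.l 36) .e
noncomputable def q27 : Tr := .c 3 (.l 37) .e
noncomputable def r12 : Tr := .c 3 q26 (.c 4 q27 .e)
noncomputable def q28 : Tr := .c 4 (.l 38) (.c 5 (.l 28) .e)
noncomputable def r13 : Tr := .c 1 q28 (.c 3 q26 .e)
noncomputable def q29 : Tr := .c 3 (.l 30) (.c 4 (.l 39) (.c 5 (.l 30) .e))
noncomputable def r14 : Tr := .c 0 q29 (.c 1 q28 (.c 3 q26 .e))
noncomputable def t5 : Tr := .c 0 r12 (.c 2 r13 (.c 4 r14 .e))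
noncomputable def q30 : Tr := .c 3 (.l 0) (.c 4 (.l 40) (.c 5 (.l 0) .e))
noncomputable def r15 : Tr := .c 0 q30 (.c 2 q1 (.c 4 q2 .e))
noncomputable def q31 : Tr := .c 3 (.l 41) (.c 4 (.l 42) (.c 5 (.l 43) .e))
noncomputable def r16 : Tr := .c 0 q31 (.c 1 q4 (.c 3 q5 .e))
noncomputable def q32 : Tr := .c 3 (.l 0) (.c 4 (.l 44) (.c 5 (.l 0) .e))
noncomputable def r17 : Tr := .c 0 q32 (.c 1 q7 (.c 2 q1 .e))
noncomputable def t6 : Tr := .c 3 r15 (.c 4 r16 (.c 5 r17 .e))
noncomputable def q33 : Tr := .c 4 (.l 45) (.c 5 (.l 46) .e)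
noncomputable def q34 : Tr := .c 4 (.l 45) .e
noncomputable def r18 : Tr := .c 1 q33 (.c 3 q34 .e)
noncomputable def q35 : Tr := .c 3 (.l 47) (.c 4 (.l 48) (.c 5 (.l 47) .e))
noncomputable def r19 : Tr := .c 0 q35 (.c 1 q33 (.c 3 q34 .e))
noncomputable def q36 : Tr := .c 3 (.l 49) (.c 4 (.l 50) (.c 5 (.l 49) .e))
noncomputable def q37 : Tr := .c 4 (.l 51) (.c 5 (.l 52) .e)
noncomputable def q38 : Tr := .c 3 (.l 53) (.c 5 (.l 53) .e)
noncomputable def r20 : Tr := .c 0 q36 (.c 1 q37 (.c 2 q38 .e))
noncomputable def t7 : Tr := .c 2 r18 (.c 4 r19 (.c 5 r20 .e))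
noncomputable def r21 : Tr := .c 0 q32 (.c 1 q8 (.c 2 q1 .e))
noncomputable def t8 : Tr := .c 1 r3 (.c 3 r15 (.c 5 r21 .e))
noncomputable def q39 : Tr := .c 2 (.l 54) (.c 4 (.l 54) (.c 5 (.l 55) .e))
noncomputable def q40 : Tr := .c 2 (.l 54) (.c 4 (.l 54) .e)
noncomputable def q41 : Tr := .c 2 (.l 54) .e
noncomputable def r22 : Tr := .c 1 q39 (.c 3 q40 (.c 5 q41 .e))
noncomputable def q42 : Tr := .c 4 (.l 56) (.c 5 (.l 57) .e)
noncomputable def q43 : Tr := .c 2 (.l 54) (.c 4 (.l 54) (.c 5 (.l 58) .e))
noncomputable def r23 : Tr := .c 0 q42 (.c 1 q43 (.c 3 q40 .e))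
noncomputable def q44 : Tr := .c 4 (.l 59) (.c 5 (.l 60) .e)
noncomputable def q45 : Tr := .c 2 (.l 61) (.c 4 (.l 62) (.c 5 (.l 63) .e))
noncomputable def q46 : Tr := .c 5 (.l 60) .e
noncomputable def r24 : Tr := .c 0 q44 (.c 1 q45 (.c 2 q46 .e))
noncomputable def t9 : Tr := .c 2 r22 (.c 4 r23 (.c 5 r24 .e))
noncomputable def r25 : Tr := .c 3 q40 (.c 5 q41 .e)
noncomputable def q47 : Tr := .c 4 (.l 64) (.c 5 (.l 57) .e)
noncomputable def r26 : Tr := .c 0 q47 (.c 1 q43 (.c 3 q40 .e))
noncomputable def t10 : Tr := .c 0 r25 (.c 2 r22 (.c 4 r26 .e))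
noncomputable def q48 : Tr := .c 5 (.l 65) .e
noncomputable def q49 : Tr := .c 2 (.l 66) .e
noncomputable def r27 : Tr := .c 2 q48 (.c 5 q49 .e)
noncomputable def t11 : Tr := .c 0 r25 (.c 1 r27 (.c 2 r22 .e))
noncomputable def q50 : Tr := .c 4 (.l 67) (.c 5 (.l 68) .e)
noncomputable def q51 : Tr := .c 5 (.l 68) .e
noncomputable def r28 : Tr := .c 0 q50 (.c 2 q51 .e)
noncomputable def q52 : Tr := .c 4 (.l 69) (.c 5 (.l 70) .e)
noncomputable def q53 : Tr := .c 2 (.l 71) (.c 4 (.l 71) (.c 5 (.l 72) .e))
noncomputable def q54 : Tr := .c 2 (.l 73) (.c 4 (.l 73) .e)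
noncomputable def r29 : Tr := .c 0 q52 (.c 1 q53 (.c 3 q54 .e))
noncomputable def q55 : Tr := .c 2 (.l 74) (.c 4 (.l 74) (.c 5 (.l 75) .e))
noncomputable def r30 : Tr := .c 0 q50 (.c 1 q55 (.c 2 q51 .e))
noncomputable def t12 : Tr := .c 3 r28 (.c 4 r29 (.c 5 r30 .e))
noncomputable def q56 : Tr := .c 2 (.l 54) (.c 4 (.l 54) (.c 5 (.l 76) .e))
noncomputable def r31 : Tr := .c 1 q56 (.c 3 q40 (.c 5 q41 .e))
noncomputable def q57 : Tr := .c 2 (.l 54) (.c 4 (.l 54) (.c 5 (.l 77) .e))
noncomputable def r32 : Tr := .c 0 q42 (.c 1 q57 (.c 3 q40 .e))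
noncomputable def q58 : Tr := .c 2 (.l 78) (.c 4 (.l 79) (.c 5 (.l 80) .e))
noncomputable def r33 : Tr := .c 0 q44 (.c 1 q58 (.c 2 q46 .e))
noncomputable def t13 : Tr := .c 2 r31 (.c 4 r32 (.c 5 r33 .e))
noncomputable def r34 : Tr := .c 0 q47 (.c 1 q57 (.c 3 q40 .e))
noncomputable def t14 : Tr := .c 0 r25 (.c 2 r31 (.c 4 r34 .e))
noncomputable def q59 : Tr := .c 4 (.l 81) (.c 5 (.l 82) .e)
noncomputable def q60 : Tr := .c 5 (.l 83) .e
noncomputable def r35 : Tr := .c 0 q59 (.c 2 q60 .e)
noncomputable def q61 : Tr := .c 4 (.l 84) (.c 5 (.l 85) .e)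
noncomputable def q62 : Tr := .c 2 (.l 86) (.c 4 (.l 86) (.c 5 (.l 87) .e))
noncomputable def q63 : Tr := .c 2 (.l 86) (.c 4 (.l 86) .e)
noncomputable def r36 : Tr := .c 0 q61 (.c 1 q62 (.c 3 q63 .e))
noncomputable def q64 : Tr := .c 2 (.l 88) (.c 4 (.l 88) (.c 5 (.l 89) .e))
noncomputable def r37 : Tr := .c 0 q59 (.c 1 q64 (.c 2 q60 .e))
noncomputable def t15 : Tr := .c 3 r35 (.c 4 r36 (.c 5 r37 .e))
noncomputable def q65 : Tr := .c 2 (.l 90) (.c 4 (.l 91) (.c 5 (.l 92) .e))
noncomputable def q66 : Tr := .c 2 (.l 90) (.c 4 (.l 91) .e)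
noncomputable def q67 : Tr := .c 2 (.l 90) .e
noncomputable def r38 : Tr := .c 1 q65 (.c 3 q66 (.c 5 q67 .e))
noncomputable def q68 : Tr := .c 4 (.l 93) (.c 5 (.l 94) .e)
noncomputable def q69 : Tr := .c 2 (.l 95) (.c 4 (.l 96) (.c 5 (.l 97) .e))
noncomputable def q70 : Tr := .c 2 (.l 95) (.c 4 (.l 96) .e)
noncomputable def r39 : Tr := .c 0 q68 (.c 1 q69 (.c 3 q70 .e))
noncomputable def q71 : Tr := .c 4 (.l 98) (.c 5 (.l 99) .e)
noncomputable def q72 : Tr := .c 2 (.l 100) (.c 4 (.l 101) (.c 5 (.l 102) .e))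
noncomputable def q73 : Tr := .c 5 (.l 103) .e
noncomputable def r40 : Tr := .c 0 q71 (.c 1 q72 (.c 2 q73 .e))
noncomputable def t16 : Tr := .c 2 r38 (.c 4 r39 (.c 5 r40 .e))
noncomputable def q74 : Tr := .c 5 (.l 104) .e
noncomputable def q75 : Tr := .c 2 (.l 105) .e
noncomputable def r41 : Tr := .c 2 q74 (.c 5 q75 .e)
noncomputable def q76 : Tr := .c 4 (.l 81) (.c 5 (.l 106) .e)
noncomputable def r42 : Tr := .c 0 q76 (.c 2 q74 .e)
noncomputable def q77 : Tr := .c 2 (.l 88) (.c 4 (.l 88) (.c 5 (.l 107) .e))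
noncomputable def r43 : Tr := .c 0 q76 (.c 1 q77 (.c 2 q74 .e))
noncomputable def t17 : Tr := .c 1 r41 (.c 3 r42 (.c 5 r43 .e))
noncomputable def q78 : Tr := .c 1 (.l 0) (.c 3 (.l 0) (.c 5 (.l 0) .e))
noncomputable def q79 : Tr := .c 1 (.l 0) (.c 3 (.l 0) .e)
noncomputable def q80 : Tr := .c 1 (.l 108) .e
noncomputable def r44 : Tr := .c 2 q78 (.c 4 q79 (.c 5 q80 .e))
noncomputable def r45 : Tr := .c 0 q1 (.c 2 q78 (.c 4 q79 .e))
noncomputable def q81 : Tr := .c 5 (.l 109) .e
noncomputable def r46 : Tr := .c 0 q1 (.c 1 q81 (.c 2 q78 .e))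
noncomputable def t18 : Tr := .c 1 r44 (.c 3 r45 (.c 5 r46 .e))
noncomputable def q82 : Tr := .c 1 (.l 110) (.c 3 (.l 111) .e)
noncomputable def q83 : Tr := .c 1 (.l 112) .e
noncomputable def r47 : Tr := .c 4 q82 (.c 5 q83 .e)
noncomputable def q84 : Tr := .c 1 (.l 113) .e
noncomputable def r48 : Tr := .c 2 q78 (.c 4 q79 (.c 5 q84 .e))
noncomputable def t19 : Tr := .c 0 r47 (.c 1 r48 (.c 3 r45 .e))
noncomputable def q85 : Tr := .c 1 (.l 114) (.c 3 (.l 114) .e)
noncomputable def q86 : Tr := .c 1 (.l 115) .e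
noncomputable def r49 : Tr := .c 4 q85 (.c 5 q86 .e)
noncomputable def q87 : Tr := .c 1 (.l 116) (.c 3 (.l 116) (.c 5 (.l 116) .e))
noncomputable def q88 : Tr := .c 1 (.l 117) (.c 3 (.l 117) .e)
noncomputable def q89 : Tr := .c 1 (.l 118) .e
noncomputable def r50 : Tr := .c 2 q87 (.c 4 q88 (.c 5 q89 .e))
noncomputable def q90 : Tr := .c 5 (.l 119) .e
noncomputable def r51 : Tr := .c 1 q90 (.c 5 q86 .e)
noncomputable def t20 : Tr := .c 0 r49 (.c 1 r50 (.c 2 r51 .e))
noncomputable def q91 : Tr := .c 3 (.l 2) (.c 5 (.l 4) .e)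
noncomputable def q92 : Tr := .c 5 (.l 6) .e
noncomputable def r52 : Tr := .c 0 q91 (.c 1 q92 .e)
noncomputable def q93 : Tr := .c 5 (.l 120) .e
noncomputable def r53 : Tr := .c 0 q1 (.c 1 q93 (.c 2 q78 .e))
noncomputable def t21 : Tr := .c 3 r45 (.c 4 r52 (.c 5 r53 .e))
noncomputable def q94 : Tr := .c 1 (.l 121) (.c 3 (.l 12) .e)
noncomputable def r54 : Tr := .c 4 q94 (.c 5 q83 .e)
noncomputable def t22 : Tr := .c 0 r54 (.c 1 r48 (.c 3 r45 .e))
noncomputable def q95 : Tr := .c 3 (.l 41) (.c 5 (.l 43) .e)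
noncomputable def r55 : Tr := .c 0 q95 (.c 1 q92 .e)
noncomputable def t23 : Tr := .c 3 r45 (.c 4 r55 (.c 5 r53 .e))
noncomputable def q96 : Tr := .c 5 (.l 46) .e
noncomputable def q97 : Tr := .c 1 (.l 122) .e
noncomputable def r56 : Tr := .c 1 q96 (.c 5 q97 .e)
noncomputable def q98 : Tr := .c 3 (.l 47) (.c 5 (.l 47) .e)
noncomputable def r57 : Tr := .c 0 q98 (.c 1 q96 .e)
noncomputable def q99 : Tr := .c 3 (.l 123) (.c 5 (.l 123) .e)
noncomputable def q100 : Tr := .c 5 (.l 124) .e
noncomputable def q101 : Tr := .c 1 (.l 125) (.c 3 (.l 125) (.c 5 (.l 125) .e))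
noncomputable def r58 : Tr := .c 0 q99 (.c 1 q100 (.c 2 q101 .e))
noncomputable def t24 : Tr := .c 2 r56 (.c 4 r57 (.c 5 r58 .e))
noncomputable def q102 : Tr := .c 0 (.l 54) (.c 2 (.l 54) (.c 4 (.l 54) .e))
noncomputable def q103 : Tr := .c 0 (.l 126) .e
noncomputable def q104 : Tr := .c 0 (.l 54) (.c 2 (.l 54) .e)
noncomputable def r59 : Tr := .c 3 q102 (.c 4 q103 (.c 5 q104 .e))
noncomputable def r60 : Tr := .c 1 q40 (.c 3 q102 (.c 5 q104 .e))
noncomputable def q105 : Tr := .c 4 (.l 127) .e
noncomputable def r61 : Tr := .c 0 q105 (.c 1 q40 (.c 3 q102 .e))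
noncomputable def t25 : Tr := .c 0 r59 (.c 2 r60 (.c 4 r61 .e))
noncomputable def q106 : Tr := .c 0 (.l 128) (.c 2 (.l 128) (.c 4 (.l 128) .e))
noncomputable def q107 : Tr := .c 0 (.l 129) .e
noncomputable def q108 : Tr := .c 0 (.l 130) (.c 2 (.l 130) .e)
noncomputable def r62 : Tr := .c 3 q106 (.c 4 q107 (.c 5 q108 .e))
noncomputable def q109 : Tr := .c 0 (.l 131) .e
noncomputable def q110 : Tr := .c 0 (.l 132) (.c 2 (.l 132) .e)
noncomputable def r63 : Tr := .c 4 q109 (.c 5 q110 .e)
noncomputable def q111 : Tr := .c 4 (.l 133) .e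
noncomputable def r64 : Tr := .c 0 q111 (.c 4 q109 .e)
noncomputable def t26 : Tr := .c 0 r62 (.c 1 r63 (.c 3 r64 .e))
noncomputable def q112 : Tr := .c 0 (.l 134) .e
noncomputable def r65 : Tr := .c 3 q102 (.c 4 q112 (.c 5 q104 .e))
noncomputable def q113 : Tr := .c 0 (.l 135) .e
noncomputable def q114 : Tr := .c 0 (.l 136) (.c 2 (.l 137) .e)
noncomputable def r66 : Tr := .c 4 q113 (.c 5 q114 .e)
noncomputable def t27 : Tr := .c 0 r65 (.c 1 r66 (.c 2 r60 .e))
noncomputable def q115 : Tr := .c 4 (.l 138) .e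
noncomputable def r67 : Tr := .c 0 q115 (.c 1 q40 (.c 3 q102 .e))
noncomputable def q116 : Tr := .c 4 (.l 59) .e
noncomputable def q117 : Tr := .c 2 (.l 61) (.c 4 (.l 62) .e)
noncomputable def r68 : Tr := .c 0 q116 (.c 1 q117 .e)
noncomputable def t28 : Tr := .c 2 r60 (.c 4 r67 (.c 5 r68 .e))
noncomputable def q118 : Tr := .c 0 (.l 139) (.c 2 (.l 66) .e)
noncomputable def r69 : Tr := .c 4 q113 (.c 5 q118 .e)
noncomputable def t29 : Tr := .c 0 r65 (.c 1 r69 (.c 2 r60 .e))
noncomputable def q119 : Tr := .c 4 (.l 67) .e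
noncomputable def q120 : Tr := .c 0 (.l 140) .e
noncomputable def r70 : Tr := .c 0 q119 (.c 4 q120 .e)
noncomputable def q121 : Tr := .c 4 (.l 141) .e
noncomputable def q122 : Tr := .c 2 (.l 142) (.c 4 (.l 142) .e)
noncomputable def q123 : Tr := .c 0 (.l 143) (.c 2 (.l 143) (.c 4 (.l 143) .e))
noncomputable def r71 : Tr := .c 0 q121 (.c 1 q122 (.c 3 q123 .e))
noncomputable def q124 : Tr := .c 2 (.l 74) (.c 4 (.l 74) .e)
noncomputable def r72 : Tr := .c 0 q119 (.c 1 q124 .e)
noncomputable def t30 : Tr := .c 3 r70 (.c 4 r71 (.c 5 r72 .e))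
noncomputable def q125 : Tr := .c 2 (.l 78) (.c 4 (.l 79) .e)
noncomputable def r73 : Tr := .c 0 q116 (.c 1 q125 .e)
noncomputable def t31 : Tr := .c 2 r60 (.c 4 r67 (.c 5 r73 .e))
noncomputable def q126 : Tr := .c 0 (.l 144) .e
noncomputable def q127 : Tr := .c 0 (.l 145) (.c 1 (.l 146) (.c 3 (.l 146) .e))
noncomputable def q128 : Tr := .c 0 (.l 147) (.c 1 (.l 148) .e)
noncomputable def r74 : Tr := .c 3 q126 (.c 4 q127 (.c 5 q128 .e))
noncomputable def r75 : Tr := .c 3 q126 (.c 5 q128 .e)
noncomputable def q129 : Tr := .c 3 (.l 149) .e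
noncomputable def r76 : Tr := .c 0 q129 (.c 3 q126 .e)
noncomputable def t32 : Tr := .c 0 r74 (.c 2 r75 (.c 4 r76 .e))
noncomputable def q130 : Tr := .c 0 (.l 150) .e
noncomputable def q131 : Tr := .c 0 (.l 151) (.c 1 (.l 152) (.c 3 (.l 153) .e))
noncomputable def q132 : Tr := .c 0 (.l 154) (.c 1 (.l 155) .e)
noncomputable def r77 : Tr := .c 3 q130 (.c 4 q131 (.c 5 q132 .e))
noncomputable def q133 : Tr := .c 1 (.l 156) (.c 3 (.l 157) .e)
noncomputable def q134 : Tr := .c 0 (.l 158) (.c 1 (.l 156) (.c 3 (.l 157) .e))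
noncomputable def q135 : Tr := .c 0 (.l 159) (.c 1 (.l 160) .e)
noncomputable def r78 : Tr := .c 2 q133 (.c 4 q134 (.c 5 q135 .e))
noncomputable def q136 : Tr := .c 3 (.l 161) .e
noncomputable def q137 : Tr := .c 1 (.l 162) (.c 3 (.l 161) .e)
noncomputable def q138 : Tr := .c 0 (.l 163) (.c 1 (.l 162) (.c 3 (.l 161) .e))
noncomputable def r79 : Tr := .c 0 q136 (.c 2 q137 (.c 4 q138 .e))
noncomputable def t33 : Tr := .c 0 r77 (.c 1 r78 (.c 3 r79 .e))
noncomputable def q139 : Tr := .c 0 (.l 164) .e
noncomputable def q140 : Tr := .c 0 (.l 165) (.c 1 (.l 146) (.c 3 (.l 146) .e))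
noncomputable def q141 : Tr := .c 0 (.l 166) (.c 1 (.l 148) .e)
noncomputable def r80 : Tr := .c 3 q139 (.c 4 q140 (.c 5 q141 .e))
noncomputable def q142 : Tr := .c 1 (.l 167) (.c 3 (.l 167) .e)
noncomputable def q143 : Tr := .c 0 (.l 168) (.c 1 (.l 167) (.c 3 (.l 167) .e))
noncomputable def q144 : Tr := .c 0 (.l 169) (.c 1 (.l 170) .e)
noncomputable def r81 : Tr := .c 2 q142 (.c 4 q143 (.c 5 q144 .e))
noncomputable def r82 : Tr := .c 3 q139 (.c 5 q141 .e)
noncomputable def t34 : Tr := .c 0 r80 (.c 1 r81 (.c 2 r82 .e))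
noncomputable def q145 : Tr := .c 0 (.l 171) (.c 1 (.l 0) (.c 3 (.l 0) .e))
noncomputable def q146 : Tr := .c 0 (.l 172) (.c 1 (.l 173) .e)
noncomputable def r83 : Tr := .c 2 q79 (.c 4 q145 (.c 5 q146 .e))
noncomputable def q147 : Tr := .c 0 (.l 174) (.c 1 (.l 0) (.c 3 (.l 0) .e))
noncomputable def r84 : Tr := .c 0 q2 (.c 2 q79 (.c 4 q147 .e))
noncomputable def r85 : Tr := .c 0 q2 (.c 2 q79 .e)
noncomputable def t35 : Tr := .c 1 r83 (.c 3 r84 (.c 5 r85 .e))
noncomputable def q148 : Tr := .c 0 (.l 175) .e
noncomputable def q149 : Tr := .c 0 (.l 176) (.c 1 (.l 110) (.c 3 (.l 111) .e))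
noncomputable def q150 : Tr := .c 0 (.l 175) (.c 1 (.l 112) .e)
noncomputable def r86 : Tr := .c 3 q148 (.c 4 q149 (.c 5 q150 .e))
noncomputable def q151 : Tr := .c 0 (.l 172) (.c 1 (.l 177) .e)
noncomputable def r87 : Tr := .c 2 q79 (.c 4 q145 (.c 5 q151 .e))
noncomputable def t36 : Tr := .c 0 r86 (.c 1 r87 (.c 3 r84 .e))
noncomputable def q152 : Tr := .c 0 (.l 178) .e
noncomputable def q153 : Tr := .c 0 (.l 179) (.c 1 (.l 114) (.c 3 (.l 114) .e))
noncomputable def q154 : Tr := .c 0 (.l 178) (.c 1 (.l 115) .e)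
noncomputable def r88 : Tr := .c 3 q152 (.c 4 q153 (.c 5 q154 .e))
noncomputable def q155 : Tr := .c 1 (.l 180) (.c 3 (.l 180) .e)
noncomputable def q156 : Tr := .c 0 (.l 181) (.c 1 (.l 182) (.c 3 (.l 182) .e))
noncomputable def q157 : Tr := .c 0 (.l 183) (.c 1 (.l 184) .e)
noncomputable def r89 : Tr := .c 2 q155 (.c 4 q156 (.c 5 q157 .e))
noncomputable def r90 : Tr := .c 3 q152 (.c 5 q154 .e)
noncomputable def t37 : Tr := .c 0 r88 (.c 1 r89 (.c 2 r90 .e))
noncomputable def q158 : Tr := .c 0 (.l 185) (.c 1 (.l 0) (.c 3 (.l 0) .e))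
noncomputable def r91 : Tr := .c 0 q2 (.c 2 q79 (.c 4 q158 .e))
noncomputable def q159 : Tr := .c 3 (.l 2) .e
noncomputable def q160 : Tr := .c 0 (.l 186) .e
noncomputable def r92 : Tr := .c 0 q159 (.c 3 q160 .e)
noncomputable def t38 : Tr := .c 3 r91 (.c 4 r92 (.c 5 r85 .e))
noncomputable def q161 : Tr := .c 0 (.l 187) (.c 1 (.l 0) (.c 3 (.l 0) .e))
noncomputable def r93 : Tr := .c 2 q79 (.c 4 q161 (.c 5 q146 .e))
noncomputable def t39 : Tr := .c 1 r93 (.c 3 r91 (.c 5 r85 .e))
noncomputable def q162 : Tr := .c 0 (.l 188) (.c 1 (.l 121) (.c 3 (.l 12) .e))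
noncomputable def r94 : Tr := .c 3 q148 (.c 4 q162 (.c 5 q150 .e))
noncomputable def r95 : Tr := .c 2 q79 (.c 4 q161 (.c 5 q151 .e))
noncomputable def t40 : Tr := .c 0 r94 (.c 1 r95 (.c 3 r91 .e))
noncomputable def q163 : Tr := .c 0 (.l 189) (.c 1 (.l 190) .e)
noncomputable def q164 : Tr := .c 0 (.l 54) (.c 1 (.l 191) (.c 2 (.l 54) .e))
noncomputable def r96 : Tr := .c 3 q104 (.c 4 q163 (.c 5 q164 .e))
noncomputable def q165 : Tr := .c 0 (.l 54) (.c 1 (.l 192) (.c 2 (.l 54) .e))
noncomputable def r97 : Tr := .c 1 q41 (.c 3 q104 (.c 5 q165 .e))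
noncomputable def r98 : Tr := .c 1 q41 (.c 3 q104 .e)
noncomputable def t41 : Tr := .c 0 r96 (.c 2 r97 (.c 4 r98 .e))
noncomputable def q166 : Tr := .c 0 (.l 193) (.c 2 (.l 193) .e)
noncomputable def q167 : Tr := .c 0 (.l 194) (.c 1 (.l 195) .e)
noncomputable def q168 : Tr := .c 0 (.l 196) (.c 1 (.l 197) (.c 2 (.l 196) .e))
noncomputable def r99 : Tr := .c 3 q166 (.c 4 q167 (.c 5 q168 .e))
noncomputable def q169 : Tr := .c 1 (.l 198) .e
noncomputable def q170 : Tr := .c 0 (.l 131) (.c 1 (.l 198) .e)
noncomputable def q171 : Tr := .c 0 (.l 132) (.c 1 (.l 199) (.c 2 (.l 132) .e))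
noncomputable def r100 : Tr := .c 2 q169 (.c 4 q170 (.c 5 q171 .e))
noncomputable def r101 : Tr := .c 2 q169 (.c 4 q170 .e)
noncomputable def t42 : Tr := .c 0 r99 (.c 1 r100 (.c 3 r101 .e))
noncomputable def q172 : Tr := .c 0 (.l 200) (.c 1 (.l 190) .e)
noncomputable def r102 : Tr := .c 3 q104 (.c 4 q172 (.c 5 q164 .e))
noncomputable def q173 : Tr := .c 1 (.l 201) .e
noncomputable def q174 : Tr := .c 0 (.l 135) (.c 1 (.l 201) .e)
noncomputable def q175 : Tr := .c 0 (.l 136) (.c 1 (.l 202) (.c 2 (.l 137) .e))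
noncomputable def r103 : Tr := .c 2 q173 (.c 4 q174 (.c 5 q175 .e))
noncomputable def t43 : Tr := .c 0 r102 (.c 1 r103 (.c 2 r97 .e))
noncomputable def q176 : Tr := .c 1 (.l 203) .e
noncomputable def q177 : Tr := .c 0 (.l 204) (.c 1 (.l 205) .e)
noncomputable def q178 : Tr := .c 0 (.l 206) (.c 1 (.l 207) (.c 2 (.l 206) .e))
noncomputable def r104 : Tr := .c 2 q176 (.c 4 q177 (.c 5 q178 .e))
noncomputable def r105 : Tr := .c 2 q176 (.c 4 q177 .e)
noncomputable def q179 : Tr := .c 2 (.l 208) .e
noncomputable def r106 : Tr := .c 1 q179 (.c 2 q176 .e)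
noncomputable def t44 : Tr := .c 1 r104 (.c 3 r105 (.c 5 r106 .e))
noncomputable def q180 : Tr := .c 0 (.l 209) (.c 2 (.l 209) .e)
noncomputable def q181 : Tr := .c 0 (.l 210) (.c 1 (.l 211) .e)
noncomputable def q182 : Tr := .c 0 (.l 209) (.c 1 (.l 212) (.c 2 (.l 209) .e))
noncomputable def r107 : Tr := .c 3 q180 (.c 4 q181 (.c 5 q182 .e))
noncomputable def q183 : Tr := .c 1 (.l 213) .e
noncomputable def q184 : Tr := .c 0 (.l 204) (.c 1 (.l 214) .e)
noncomputable def q185 : Tr := .c 0 (.l 206) (.c 1 (.l 215) (.c 2 (.l 206) .e))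
noncomputable def r108 : Tr := .c 2 q183 (.c 4 q184 (.c 5 q185 .e))
noncomputable def r109 : Tr := .c 2 q183 (.c 4 q184 .e)
noncomputable def t45 : Tr := .c 0 r107 (.c 1 r108 (.c 3 r109 .e))
noncomputable def q186 : Tr := .c 0 (.l 216) (.c 2 (.l 217) .e)
noncomputable def q187 : Tr := .c 0 (.l 218) (.c 1 (.l 219) .e)
noncomputable def q188 : Tr := .c 0 (.l 216) (.c 1 (.l 220) (.c 2 (.l 217) .e))
noncomputable def r110 : Tr := .c 3 q186 (.c 4 q187 (.c 5 q188 .e))
noncomputable def q189 : Tr := .c 1 (.l 221) .e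
noncomputable def q190 : Tr := .c 0 (.l 222) (.c 1 (.l 223) .e)
noncomputable def q191 : Tr := .c 0 (.l 224) (.c 1 (.l 225) (.c 2 (.l 226) .e))
noncomputable def r111 : Tr := .c 2 q189 (.c 4 q190 (.c 5 q191 .e))
noncomputable def q192 : Tr := .c 2 (.l 227) .e
noncomputable def q193 : Tr := .c 0 (.l 228) (.c 2 (.l 227) .e)
noncomputable def q194 : Tr := .c 0 (.l 228) (.c 1 (.l 229) (.c 2 (.l 227) .e))
noncomputable def r112 : Tr := .c 1 q192 (.c 3 q193 (.c 5 q194 .e))
noncomputable def t46 : Tr := .c 0 r110 (.c 1 r111 (.c 2 r112 .e))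
noncomputable def q195 : Tr := .c 0 (.l 54) (.c 1 (.l 230) (.c 2 (.l 54) .e))
noncomputable def r113 : Tr := .c 1 q41 (.c 3 q104 (.c 5 q195 .e))
noncomputable def q196 : Tr := .c 2 (.l 61) .e
noncomputable def q197 : Tr := .c 1 (.l 231) .e
noncomputable def r114 : Tr := .c 1 q196 (.c 2 q197 .e)
noncomputable def t47 : Tr := .c 2 r113 (.c 4 r98 (.c 5 r114 .e))
noncomputable def q198 : Tr := .c 0 (.l 54) (.c 1 (.l 232) (.c 2 (.l 54) .e))
noncomputable def r115 : Tr := .c 3 q104 (.c 4 q163 (.c 5 q198 .e))
noncomputable def t48 : Tr := .c 0 r115 (.c 2 r113 (.c 4 r98 .e))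
noncomputable def r116 : Tr := .c 3 q104 (.c 4 q172 (.c 5 q198 .e))
noncomputable def q199 : Tr := .c 0 (.l 139) (.c 1 (.l 233) (.c 2 (.l 66) .e))
noncomputable def r117 : Tr := .c 2 q173 (.c 4 q174 (.c 5 q199 .e))
noncomputable def t49 : Tr := .c 0 r116 (.c 1 r117 (.c 2 r113 .e))

/-- the diagram -/
noncomputable def T : Tr := (.c 0 (.c 3 (.c 0 t0 (.c 2 t1 (.c 4 t2 .e))) (.c 4 (.c 0 t3 (.c 1 t4 (.c 3 t5 .e))) (.c 5 (.c 0
t6 (.c 1 t7 (.c 2 t8 .e))) .e))) (.c 1 (.c 2 (.c 1 t9 (.c 3 t10 (.c 5 t11 .e))) (.c 4 (.c 0 t12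
(.c 1 t13 (.c 3 t14 .e))) (.c 5 (.c 0 t15 (.c 1 t16 (.c 2 t17 .e))) .e))) (.c 2 (.c 1 (.c 2 t18
(.c 4 t19 (.c 5 t20 .e))) (.c 3 (.c 0 t21 (.c 2 t18 (.c 4 t22 .e))) (.c 5 (.c 0 t23 (.c 1 t24
(.c 2 t18 .e))) .e))) (.c 3 (.c 0 (.c 3 t25 (.c 4 t26 (.c 5 t27 .e))) (.c 2 (.c 1 t28 (.c 3 t25
(.c 5 t29 .e))) (.c 4 (.c 0 t30 (.c 1 t31 (.c 3 t25 .e))) .e))) (.c 4 (.c 0 (.c 3 t32 (.c 4 t33
(.c 5 t34 .e))) (.c 1 (.c 2 t35 (.c 4 t36 (.c 5 t37 .e))) (.c 3 (.c 0 t38 (.c 2 t39 (.c 4 t40
.e))) .e))) (.c 5 (.c 0 (.c 3 t41 (.c 4 t42 (.c 5 t43 .e))) (.c 1 (.c 2 t44 (.c 4 t45 (.c 5 t46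
.e))) (.c 2 (.c 1 t47 (.c 3 t48 (.c 5 t49 .e))) .e))) .e))))))

theorem k0 : chkQ0 D J R 234 T = true := by decide +kernel
theorem c0 : csP D J T 0 = true := by decide +kernel
theorem c1 : csP D J T 1 = true := by decide +kernel
theorem c2 : csP D J T 2 = true := by decide +kernel
theorem c3 : csP D J T 3 = true := by decide +kernel
theorem c4 : csP D J T 4 = true := by decide +kernel
theorem c5 : csP D J T 5 = true := by decide +kernel
theorem c6 : csP D J T 6 = true := by decide +kernel
theorem c7 : csP D J T 7 = true := by decide +kernel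
theorem c8 : csP D J T 8 = true := by decide +kernel
theorem c9 : csP D J T 9 = true := by decide +kernel
theorem c10 : csP D J T 10 = true := by decide +kernel
theorem c11 : csP D J T 11 = true := by decide +kernel

theorem cs : ∀ p < D.N, csP D J T p = true := by
  intro p hp
  have hp : p < 12 := hp
  interval_cases p
  · exact c0
  · exact c1
  · exact c2
  · exact c3
  · exact c4
  · exact c5
  · exact c6
  · exact c7
  · exact c8
  · exact c9
  · exact c10
  · exact c11

/-- the box table -/
theorem tab : BoxTab D := boxTab_of (by decide) (by decide) k0 cs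

end C22t

end Vale.Agent.P032.Words.Trie
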