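import Vale.Agent.P032.Words.H670.Split

/-!
# Hexagons around a centre with six colours: box tables
-/

namespace Vale.Agent.P032.Words.Trie

/-! ### 01 02 03 12 14 35 45 (7|56: 7 never) -/

namespace C28a

/-- the data -/
def D : Dat where
  A := 7
  N := 14
  nb := [96, 112, 88, 100, 38, 27, 15]
  op := [31, 63, 63, 95, 95, 102, 120]
  nbT := [8288, 12400, 6232, 9316, 1574, 2331, 655, 14400, 9760, 14672, 6424, 9892, 1670, 2955]
  opT := [8095, 4031, 10175, 7135, 14815, 14054, 15736, 16319, 16351, 16303, 16359, 16347, 16377, 16372]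
  PL := [[0], [1], [2], [3], [4], [5], [6], [0, 2], [0, 4], [1, 2], [2, 5], [3, 4], [4, 6], [5, 6]]
  L := [3, 5, 9, 6, 18, 40, 48]
  P := [3, 5, 9, 6, 18, 40, 48, 11, 19, 13, 41, 22, 50, 56]
  r := 0
  tie := [0, 0, 0, 0, 0, 0, 0, 0, 0, 0, 0, 0, 0, 0]

/-- changes of the value at a tie -/
def J : List (List ℕ) := [[]]

/-- reachable values -/
def R : List (List ℕ) := [[1], [2], [4], [8], [0x10], [0x20], [0x40], [0x80], [0x100], [0x200], [0x400], [0x800],
[0x1000], [0x2000], [0x4000], [0x8000], [0x10000], [0x20000], [0x40000], [0x80000], [0x100000],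
[0x200000], [0x400000], [0x800000], [0x1000000], [0x2000000], [0x4000000], [0x8000000],
[0x10000000], [0x20000000], [0x40000000], [0x80000000], [0x100000000], [0x200000000],
[0x400000000], [0x800000000], [0x1000000000], [0x2000000000], [0x4000000000], [0x8000000000],
[0x10000000000], [0x20000000000]]

noncomputable def q0 : Tr := .c 5 (.l 0) .e
noncomputable def r0 : Tr := .c 1 q0 .e
noncomputable def t0 : Tr := .c 4 r0 .e
noncomputable def q1 : Tr := .c 6 (.l 1) .e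
noncomputable def r1 : Tr := .c 3 q1 .e
noncomputable def t1 : Tr := .c 2 r1 .e
noncomputable def q2 : Tr := .c 4 (.l 2) (.c 5 (.l 3) .e)
noncomputable def q3 : Tr := .c 4 (.l 2) .e
noncomputable def r2 : Tr := .c 1 q2 (.c 2 q3 .e)
noncomputable def q4 : Tr := .c 5 (.l 4) .e
noncomputable def q5 : Tr := .c 4 (.l 5) (.c 5 (.l 6) .e)
noncomputable def r3 : Tr := .c 0 q4 (.c 1 q5 (.c 3 q4 (.c 4 q4 .e)))
noncomputable def t2 : Tr := .c 4 r2 (.c 5 r3 .e)
noncomputable def r4 : Tr := .c 2 q3 .e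
noncomputable def t3 : Tr := .c 3 r4 (.c 4 r2 .e)
noncomputable def q6 : Tr := .c 5 (.l 7) .e
noncomputable def r5 : Tr := .c 4 q6 .e
noncomputable def q7 : Tr := .c 6 (.l 3) .e
noncomputable def r6 : Tr := .c 2 q7 .e
noncomputable def q8 : Tr := .c 5 (.l 3) (.c 6 (.l 3) .e)
noncomputable def r7 : Tr := .c 1 q8 (.c 2 q7 .e)
noncomputable def t4 : Tr := .c 1 r5 (.c 3 r6 (.c 4 r7 .e))
noncomputable def q9 : Tr := .c 4 (.l 8) .e
noncomputable def r8 : Tr := .c 1 q9 .e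
noncomputable def t5 : Tr := .c 5 r8 .e
noncomputable def q10 : Tr := .c 4 (.l 9) (.c 5 (.l 10) .e)
noncomputable def q11 : Tr := .c 4 (.l 9) .e
noncomputable def r9 : Tr := .c 1 q10 (.c 2 q11 (.c 5 q11 .e))
noncomputable def q12 : Tr := .c 4 (.l 11) (.c 5 (.l 12) .e)
noncomputable def r10 : Tr := .c 1 q12 .e
noncomputable def t6 : Tr := .c 4 r9 (.c 5 r10 .e)
noncomputable def q13 : Tr := .c 4 (.l 8) (.c 6 (.l 8) .e)
noncomputable def r11 : Tr := .c 1 q13 .e
noncomputable def t7 : Tr := .c 5 r11 .e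
noncomputable def q14 : Tr := .c 4 (.l 13) .e
noncomputable def r12 : Tr := .c 5 q14 .e
noncomputable def t8 : Tr := .c 1 r12 (.c 5 r11 .e)
noncomputable def r13 : Tr := .c 5 q11 .e
noncomputable def r14 : Tr := .c 3 q4 (.c 4 q4 .e)
noncomputable def t9 : Tr := .c 4 r13 (.c 5 r14 .e)
noncomputable def t10 : Tr := .c 3 r13 (.c 4 r13 .e)
noncomputable def t11 : Tr := .c 2 r1 (.c 5 r1 .e)
noncomputable def q15 : Tr := .c 3 (.l 2) (.c 4 (.l 2) .e)
noncomputable def q16 : Tr := .c 3 (.l 9) .e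
noncomputable def r15 : Tr := .c 2 q15 (.c 6 q16 .e)
noncomputable def r16 : Tr := .c 1 q3 (.c 2 q15 .e)
noncomputable def t12 : Tr := .c 3 r15 (.c 4 r16 .e)
noncomputable def r17 : Tr := .c 1 q7 (.c 2 q7 .e)
noncomputable def t13 : Tr := .c 3 r6 (.c 4 r17 .e)
noncomputable def q17 : Tr := .c 3 (.l 14) .e
noncomputable def r18 : Tr := .c 6 q17 .e
noncomputable def q18 : Tr := .c 6 (.l 7) .e
noncomputable def r19 : Tr := .c 3 q18 (.c 6 q17 .e)
noncomputable def q19 : Tr := .c 3 (.l 3) (.c 4 (.l 3) (.c 6 (.l 3) .e))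
noncomputable def q20 : Tr := .c 3 (.l 15) .e
noncomputable def r20 : Tr := .c 2 q19 (.c 6 q20 .e)
noncomputable def t14 : Tr := .c 0 r18 (.c 1 r18 (.c 2 r19 (.c 3 r20 .e)))
noncomputable def q21 : Tr := .c 4 (.l 5) .e
noncomputable def r21 : Tr := .c 1 q21 .e
noncomputable def t15 : Tr := .c 4 r16 (.c 5 r21 .e)
noncomputable def q22 : Tr := .c 3 (.l 9) (.c 4 (.l 9) .e)
noncomputable def r22 : Tr := .c 5 q22 .e
noncomputable def t16 : Tr := .c 4 r22 .e
noncomputable def r23 : Tr := .c 5 q22 (.c 6 q16 .e)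
noncomputable def t17 : Tr := .c 3 r23 (.c 4 r22 .e)
noncomputable def q23 : Tr := .c 3 (.l 13) .e
noncomputable def r24 : Tr := .c 3 q1 (.c 6 q23 .e)
noncomputable def t18 : Tr := .c 2 r24 (.c 5 r1 .e)
noncomputable def q24 : Tr := .c 2 (.l 16) (.c 6 (.l 17) .e)
noncomputable def q25 : Tr := .c 2 (.l 16) .e
noncomputable def r25 : Tr := .c 3 q24 (.c 4 q25 .e)
noncomputable def q26 : Tr := .c 6 (.l 18) .e
noncomputable def q27 : Tr := .c 2 (.l 19) (.c 6 (.l 20) .e)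
noncomputable def r26 : Tr := .c 0 q26 (.c 1 q26 (.c 2 q26 (.c 3 q27 .e)))
noncomputable def t19 : Tr := .c 2 r25 (.c 6 r26 .e)
noncomputable def r27 : Tr := .c 4 q25 .e
noncomputable def t20 : Tr := .c 1 r27 (.c 2 r25 .e)
noncomputable def q28 : Tr := .c 5 (.l 17) .e
noncomputable def r28 : Tr := .c 4 q28 .e
noncomputable def q29 : Tr := .c 5 (.l 17) (.c 6 (.l 17) .e)
noncomputable def r29 : Tr := .c 3 q29 (.c 4 q28 .e)
noncomputable def q30 : Tr := .c 6 (.l 21) .e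
noncomputable def r30 : Tr := .c 2 q30 .e
noncomputable def t21 : Tr := .c 1 r28 (.c 2 r29 (.c 3 r30 .e))
noncomputable def t22 : Tr := .c 4 r0 (.c 6 r0 .e)
noncomputable def q31 : Tr := .c 2 (.l 22) .e
noncomputable def r31 : Tr := .c 6 q31 .e
noncomputable def r32 : Tr := .c 1 q26 (.c 2 q26 .e)
noncomputable def t23 : Tr := .c 2 r31 (.c 6 r32 .e)
noncomputable def t24 : Tr := .c 1 r31 (.c 2 r31 .e)
noncomputable def q32 : Tr := .c 2 (.l 23) .e
noncomputable def r33 : Tr := .c 3 q32 .e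
noncomputable def t25 : Tr := .c 6 r33 .e
noncomputable def q33 : Tr := .c 2 (.l 23) (.c 5 (.l 23) .e)
noncomputable def r34 : Tr := .c 3 q33 .e
noncomputable def t26 : Tr := .c 6 r34 .e
noncomputable def q34 : Tr := .c 2 (.l 24) .e
noncomputable def r35 : Tr := .c 6 q34 .e
noncomputable def t27 : Tr := .c 3 r35 (.c 6 r34 .e)
noncomputable def q35 : Tr := .c 2 (.l 22) (.c 6 (.l 25) .e)
noncomputable def r36 : Tr := .c 3 q35 (.c 4 q31 (.c 6 q31 .e))
noncomputable def q36 : Tr := .c 2 (.l 26) (.c 6 (.l 27) .e)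
noncomputable def r37 : Tr := .c 3 q36 .e
noncomputable def t28 : Tr := .c 2 r36 (.c 6 r37 .e)
noncomputable def q37 : Tr := .c 1 (.l 16) (.c 2 (.l 16) .e)
noncomputable def q38 : Tr := .c 1 (.l 22) .e
noncomputable def r38 : Tr := .c 4 q37 (.c 5 q38 .e)
noncomputable def r39 : Tr := .c 3 q25 (.c 4 q37 .e)
noncomputable def t29 : Tr := .c 1 r38 (.c 2 r39 .e)
noncomputable def q39 : Tr := .c 1 (.l 28) .e
noncomputable def r40 : Tr := .c 5 q39 .e
noncomputable def q40 : Tr := .c 1 (.l 17) (.c 2 (.l 17) (.c 5 (.l 17) .e))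
noncomputable def q41 : Tr := .c 1 (.l 29) .e
noncomputable def r41 : Tr := .c 4 q40 (.c 5 q41 .e)
noncomputable def q42 : Tr := .c 5 (.l 21) .e
noncomputable def r42 : Tr := .c 1 q42 (.c 5 q39 .e)
noncomputable def t30 : Tr := .c 0 r40 (.c 1 r41 (.c 3 r40 (.c 4 r42 .e)))
noncomputable def r43 : Tr := .c 3 q28 (.c 4 q28 .e)
noncomputable def t31 : Tr := .c 1 r28 (.c 2 r43 .e)
noncomputable def q43 : Tr := .c 2 (.l 19) .e
noncomputable def r44 : Tr := .c 3 q43 .e
noncomputable def t32 : Tr := .c 2 r39 (.c 6 r44 .e)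
noncomputable def q44 : Tr := .c 1 (.l 24) .e
noncomputable def r45 : Tr := .c 1 q0 (.c 5 q44 .e)
noncomputable def t33 : Tr := .c 4 r45 (.c 6 r0 .e)
noncomputable def q45 : Tr := .c 1 (.l 22) (.c 2 (.l 22) .e)
noncomputable def r46 : Tr := .c 6 q45 .e
noncomputable def t34 : Tr := .c 2 r46 .e
noncomputable def r47 : Tr := .c 5 q38 (.c 6 q45 .e)
noncomputable def t35 : Tr := .c 1 r47 (.c 2 r46 .e)
noncomputable def q46 : Tr := .c 1 (.l 30) .e
noncomputable def r48 : Tr := .c 4 q46 .e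
noncomputable def t36 : Tr := .c 1 r48 .e
noncomputable def q47 : Tr := .c 1 (.l 19) .e
noncomputable def q48 : Tr := .c 0 (.l 31) (.c 1 (.l 32) (.c 3 (.l 31) (.c 4 (.l 31) .e)))
noncomputable def r49 : Tr := .c 4 q47 (.c 5 q48 .e)
noncomputable def r50 : Tr := .c 4 q47 .e
noncomputable def q49 : Tr := .c 4 (.l 33) .e
noncomputable def r51 : Tr := .c 1 q49 (.c 4 q47 .e)
noncomputable def t37 : Tr := .c 1 r49 (.c 2 r50 (.c 5 r51 .e))
noncomputable def q50 : Tr := .c 1 (.l 34) .e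
noncomputable def q51 : Tr := .c 1 (.l 35) .e
noncomputable def r52 : Tr := .c 4 q50 (.c 5 q51 .e)
noncomputable def t38 : Tr := .c 1 r52 .e
noncomputable def q52 : Tr := .c 3 (.l 31) (.c 4 (.l 31) .e)
noncomputable def r53 : Tr := .c 5 q52 .e
noncomputable def t39 : Tr := .c 1 r53 .e
noncomputable def q53 : Tr := .c 3 (.l 5) (.c 4 (.l 5) .e)
noncomputable def r54 : Tr := .c 1 q21 (.c 2 q53 .e)
noncomputable def t40 : Tr := .c 6 r54 .e
noncomputable def r55 : Tr := .c 4 q46 (.c 6 q46 .e)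
noncomputable def t41 : Tr := .c 1 r55 .e
noncomputable def t42 : Tr := .c 1 r18 (.c 2 r18 .e)
noncomputable def q54 : Tr := .c 1 (.l 36) .e
noncomputable def r56 : Tr := .c 1 q21 (.c 4 q54 .e)
noncomputable def t43 : Tr := .c 5 r56 (.c 6 r54 .e)
noncomputable def q55 : Tr := .c 3 (.l 37) .e
noncomputable def r57 : Tr := .c 2 q55 .e
noncomputable def t44 : Tr := .c 3 r57 .e
noncomputable def q56 : Tr := .c 1 (.l 19) (.c 2 (.l 19) .e)
noncomputable def r58 : Tr := .c 3 q43 (.c 4 q56 .e)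
noncomputable def t45 : Tr := .c 5 r58 .e
noncomputable def t46 : Tr := .c 3 r40 (.c 4 r40 .e)
noncomputable def r59 : Tr := .c 2 q55 (.c 5 q55 .e)
noncomputable def t47 : Tr := .c 3 r59 .e
noncomputable def q57 : Tr := .c 3 (.l 33) .e
noncomputable def r60 : Tr := .c 2 q57 (.c 3 q43 .e)
noncomputable def t48 : Tr := .c 5 r58 (.c 6 r60 .e)
noncomputable def q58 : Tr := .c 3 (.l 5) .e
noncomputable def q59 : Tr := .c 0 (.l 38) (.c 1 (.l 38) (.c 2 (.l 38) (.c 3 (.l 39) .e)))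
noncomputable def r61 : Tr := .c 2 q58 (.c 6 q59 .e)
noncomputable def r62 : Tr := .c 2 q58 .e
noncomputable def q60 : Tr := .c 2 (.l 36) .e
noncomputable def r63 : Tr := .c 2 q58 (.c 3 q60 .e)
noncomputable def t49 : Tr := .c 3 r61 (.c 4 r62 (.c 6 r63 .e))
noncomputable def q61 : Tr := .c 1 (.l 38) (.c 2 (.l 38) .e)
noncomputable def r64 : Tr := .c 6 q61 .e
noncomputable def t50 : Tr := .c 3 r64 .e
noncomputable def q62 : Tr := .c 3 (.l 40) .e
noncomputable def q63 : Tr := .c 3 (.l 41) .e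
noncomputable def r65 : Tr := .c 2 q62 (.c 6 q63 .e)
noncomputable def t51 : Tr := .c 3 r65 .e

/-- the diagram -/
noncomputable def T : Tr := (.c 0 (.c 5 (.c 1 t0 .e) (.c 6 (.c 3 t1 .e) .e)) (.c 1 (.c 4 (.c 1 t2 (.c 2 t3 (.c 5 t4 .e)))
(.c 5 (.c 0 t5 (.c 1 t6 (.c 3 t7 (.c 4 t8 .e)))) (.c 6 (.c 1 t9 (.c 2 t10 (.c 3 t11 .e))) .e)))
(.c 2 (.c 3 (.c 2 t12 (.c 5 t13 (.c 6 t14 .e))) (.c 4 (.c 1 t15 (.c 2 t12 (.c 5 t13 .e))) (.c 6
(.c 1 t16 (.c 2 t17 (.c 3 t18 .e))) .e))) (.c 3 (.c 2 (.c 3 t19 (.c 4 t20 (.c 6 t21 .e))) (.c 5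
(.c 1 t22 (.c 3 t23 (.c 4 t24 .e))) (.c 6 (.c 0 t25 (.c 1 t26 (.c 2 t27 (.c 3 t28 .e)))) .e)))
(.c 4 (.c 1 (.c 4 t29 (.c 5 t30 (.c 6 t31 .e))) (.c 2 (.c 3 t32 (.c 4 t29 (.c 6 t31 .e))) (.c 5
(.c 1 t33 (.c 3 t34 (.c 4 t35 .e))) .e))) (.c 5 (.c 0 (.c 5 t36 .e) (.c 1 (.c 4 t37 (.c 5 t38
(.c 6 t39 .e))) (.c 3 (.c 2 t40 (.c 5 t41 (.c 6 t42 .e))) (.c 4 (.c 1 t43 (.c 2 t40 (.c 5 t41
.e))) .e)))) (.c 6 (.c 0 (.c 6 t44 .e) (.c 1 (.c 4 t45 (.c 5 t46 (.c 6 t47 .e))) (.c 2 (.c 3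
t48 (.c 4 t45 (.c 6 t47 .e))) (.c 3 (.c 2 t49 (.c 5 t50 (.c 6 t51 .e))) .e)))) .e)))))))

theorem k0 : chkQ0 D J R 42 T = true := by decide +kernel
theorem c0 : csP D J T 0 = true := by decide +kernel
theorem c1 : csP D J T 1 = true := by decide +kernel
theorem c2 : csP D J T 2 = true := by decide +kernel
theorem c3 : csP D J T 3 = true := by decide +kernel
theorem c4 : csP D J T 4 = true := by decide +kernel
theorem c5 : csP D J T 5 = true := by decide +kernel
theorem c6 : csP D J T 6 = true := by decide +kernel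
theorem c7 : csP D J T 7 = true := by decide +kernel
theorem c8 : csP D J T 8 = true := by decide +kernel
theorem c9 : csP D J T 9 = true := by decide +kernel
theorem c10 : csP D J T 10 = true := by decide +kernel
theorem c11 : csP D J T 11 = true := by decide +kernel
theorem c12 : csP D J T 12 = true := by decide +kernel
theorem c13 : csP D J T 13 = true := by decide +kernel

theorem cs : ∀ p < D.N, csP D J T p = true := by
  intro p hp
  have hp : p < 14 := hp
  interval_cases p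
  · exact c0
  · exact c1
  · exact c2
  · exact c3
  · exact c4
  · exact c5
  · exact c6
  · exact c7
  · exact c8
  · exact c9
  · exact c10
  · exact c11
  · exact c12
  · exact c13

/-- the box table -/
theorem tab : BoxTab D := boxTab_of (by decide) (by decide) k0 cs

end C28a

/-! ### 01 02 03 12 14 35 45 (7|56: 56 never) -/

namespace C28b

/-- the data -/
def D : Dat where
  A := 7
  N := 14
  nb := [96, 112, 88, 100, 38, 27, 15]
  op := [31, 63, 63, 95, 95, 102, 120]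
  nbT := [96, 8304, 12376, 2148, 3110, 4763, 1423, 10336, 12352, 3104, 12880, 12952, 3364, 3462]
  opT := [16287, 8127, 4031, 14303, 13279, 11622, 14968, 16287, 16319, 16351, 16303, 16359, 16347,
16377]
  PL := [[0], [1], [2], [3], [4], [5], [6], [0, 1, 3], [0, 2], [0, 4], [1, 2], [2, 5], [3, 4], [4, 6]]
  L := [3, 5, 9, 6, 18, 40, 48]
  P := [3, 5, 9, 6, 18, 40, 48, 7, 11, 19, 13, 41, 22, 50]
  r := 0
  tie := [0, 0, 0, 0, 0, 0, 0, 0, 0, 0, 0, 0, 0, 0]

/-- changes of the value at a tie -/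
def J : List (List ℕ) := [[]]

/-- reachable values -/
def R : List (List ℕ) := [[1], [2], [4], [8], [0x10], [0x20], [0x40], [0x80], [0x100], [0x200], [0x400], [0x800],
[0x1000], [0x2000], [0x4000], [0x8000], [0x10000], [0x20000], [0x40000], [0x80000], [0x100000],
[0x200000], [0x400000], [0x800000], [0x1000000], [0x2000000], [0x4000000], [0x8000000],
[0x10000000], [0x20000000]]

noncomputable def q0 : Tr := .c 5 (.l 0) .e
noncomputable def r0 : Tr := .c 1 q0 .e
noncomputable def t0 : Tr := .c 4 r0 .e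
noncomputable def q1 : Tr := .c 6 (.l 1) .e
noncomputable def r1 : Tr := .c 3 q1 .e
noncomputable def t1 : Tr := .c 2 r1 .e
noncomputable def q2 : Tr := .c 4 (.l 2) (.c 5 (.l 3) .e)
noncomputable def q3 : Tr := .c 4 (.l 2) .e
noncomputable def r2 : Tr := .c 1 q2 (.c 2 q3 .e)
noncomputable def q4 : Tr := .c 5 (.l 4) .e
noncomputable def q5 : Tr := .c 4 (.l 1) (.c 5 (.l 4) .e)
noncomputable def r3 : Tr := .c 0 q4 (.c 1 q5 (.c 3 q4 (.c 4 q4 .e)))
noncomputable def t2 : Tr := .c 4 r2 (.c 5 r3 .e)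
noncomputable def r4 : Tr := .c 2 q3 .e
noncomputable def t3 : Tr := .c 3 r4 (.c 4 r2 .e)
noncomputable def q6 : Tr := .c 5 (.l 5) .e
noncomputable def r5 : Tr := .c 4 q6 .e
noncomputable def q7 : Tr := .c 6 (.l 6) .e
noncomputable def r6 : Tr := .c 2 q7 .e
noncomputable def q8 : Tr := .c 5 (.l 3) (.c 6 (.l 6) .e)
noncomputable def r7 : Tr := .c 1 q8 (.c 2 q7 .e)
noncomputable def t4 : Tr := .c 1 r5 (.c 3 r6 (.c 4 r7 .e))
noncomputable def q9 : Tr := .c 4 (.l 7) .e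
noncomputable def r8 : Tr := .c 1 q9 .e
noncomputable def t5 : Tr := .c 5 r8 .e
noncomputable def q10 : Tr := .c 4 (.l 8) (.c 5 (.l 0) .e)
noncomputable def q11 : Tr := .c 4 (.l 8) .e
noncomputable def r9 : Tr := .c 1 q10 (.c 2 q11 (.c 5 q11 .e))
noncomputable def q12 : Tr := .c 4 (.l 7) (.c 5 (.l 9) .e)
noncomputable def r10 : Tr := .c 1 q12 .e
noncomputable def t6 : Tr := .c 4 r9 (.c 5 r10 .e)
noncomputable def q13 : Tr := .c 4 (.l 7) (.c 6 (.l 7) .e)
noncomputable def r11 : Tr := .c 1 q13 .e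
noncomputable def t7 : Tr := .c 5 r11 .e
noncomputable def q14 : Tr := .c 4 (.l 10) .e
noncomputable def r12 : Tr := .c 5 q14 .e
noncomputable def t8 : Tr := .c 1 r12 (.c 5 r11 .e)
noncomputable def q15 : Tr := .c 4 (.l 11) .e
noncomputable def r13 : Tr := .c 5 q15 .e
noncomputable def r14 : Tr := .c 3 q4 (.c 4 q4 .e)
noncomputable def t9 : Tr := .c 4 r13 (.c 5 r14 .e)
noncomputable def t10 : Tr := .c 3 r13 (.c 4 r13 .e)
noncomputable def t11 : Tr := .c 2 r1 (.c 5 r1 .e)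
noncomputable def q16 : Tr := .c 3 (.l 2) (.c 4 (.l 2) .e)
noncomputable def q17 : Tr := .c 3 (.l 12) .e
noncomputable def r15 : Tr := .c 2 q16 (.c 6 q17 .e)
noncomputable def r16 : Tr := .c 1 q3 (.c 2 q16 .e)
noncomputable def t12 : Tr := .c 3 r15 (.c 4 r16 .e)
noncomputable def r17 : Tr := .c 1 q7 (.c 2 q7 .e)
noncomputable def t13 : Tr := .c 3 r6 (.c 4 r17 .e)
noncomputable def q18 : Tr := .c 3 (.l 13) .e
noncomputable def r18 : Tr := .c 6 q18 .e
noncomputable def q19 : Tr := .c 6 (.l 14) .e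
noncomputable def r19 : Tr := .c 3 q19 (.c 6 q18 .e)
noncomputable def q20 : Tr := .c 3 (.l 15) (.c 4 (.l 15) (.c 6 (.l 15) .e))
noncomputable def r20 : Tr := .c 2 q20 (.c 6 q18 .e)
noncomputable def t14 : Tr := .c 0 r18 (.c 1 r18 (.c 2 r19 (.c 3 r20 .e)))
noncomputable def q21 : Tr := .c 4 (.l 1) .e
noncomputable def r21 : Tr := .c 1 q21 .e
noncomputable def t15 : Tr := .c 4 r16 (.c 5 r21 .e)
noncomputable def q22 : Tr := .c 3 (.l 11) (.c 4 (.l 11) .e)
noncomputable def r22 : Tr := .c 5 q22 .e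
noncomputable def t16 : Tr := .c 4 r22 .e
noncomputable def r23 : Tr := .c 5 q22 (.c 6 q17 .e)
noncomputable def t17 : Tr := .c 3 r23 (.c 4 r22 .e)
noncomputable def q23 : Tr := .c 3 (.l 16) .e
noncomputable def r24 : Tr := .c 3 q1 (.c 6 q23 .e)
noncomputable def t18 : Tr := .c 2 r24 (.c 5 r1 .e)
noncomputable def q24 : Tr := .c 2 (.l 17) (.c 6 (.l 7) .e)
noncomputable def q25 : Tr := .c 2 (.l 17) .e
noncomputable def r25 : Tr := .c 3 q24 (.c 4 q25 .e)
noncomputable def q26 : Tr := .c 6 (.l 8) .e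
noncomputable def q27 : Tr := .c 2 (.l 0) (.c 6 (.l 8) .e)
noncomputable def r26 : Tr := .c 0 q26 (.c 1 q26 (.c 2 q26 (.c 3 q27 .e)))
noncomputable def t19 : Tr := .c 2 r25 (.c 6 r26 .e)
noncomputable def r27 : Tr := .c 4 q25 .e
noncomputable def t20 : Tr := .c 1 r27 (.c 2 r25 .e)
noncomputable def q28 : Tr := .c 5 (.l 18) .e
noncomputable def r28 : Tr := .c 4 q28 .e
noncomputable def q29 : Tr := .c 5 (.l 18) (.c 6 (.l 7) .e)
noncomputable def r29 : Tr := .c 3 q29 (.c 4 q28 .e)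
noncomputable def q30 : Tr := .c 6 (.l 10) .e
noncomputable def r30 : Tr := .c 2 q30 .e
noncomputable def t21 : Tr := .c 1 r28 (.c 2 r29 (.c 3 r30 .e))
noncomputable def t22 : Tr := .c 4 r0 (.c 6 r0 .e)
noncomputable def q31 : Tr := .c 2 (.l 19) .e
noncomputable def r31 : Tr := .c 6 q31 .e
noncomputable def r32 : Tr := .c 1 q26 (.c 2 q26 .e)
noncomputable def t23 : Tr := .c 2 r31 (.c 6 r32 .e)
noncomputable def t24 : Tr := .c 1 r31 (.c 2 r31 .e)
noncomputable def q32 : Tr := .c 2 (.l 3) .e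
noncomputable def r33 : Tr := .c 3 q32 .e
noncomputable def t25 : Tr := .c 6 r33 .e
noncomputable def q33 : Tr := .c 2 (.l 3) (.c 5 (.l 3) .e)
noncomputable def r34 : Tr := .c 3 q33 .e
noncomputable def t26 : Tr := .c 6 r34 .e
noncomputable def q34 : Tr := .c 2 (.l 5) .e
noncomputable def r35 : Tr := .c 6 q34 .e
noncomputable def t27 : Tr := .c 3 r35 (.c 6 r34 .e)
noncomputable def q35 : Tr := .c 2 (.l 4) (.c 6 (.l 1) .e)
noncomputable def q36 : Tr := .c 2 (.l 4) .e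
noncomputable def r36 : Tr := .c 3 q35 (.c 4 q36 (.c 6 q36 .e))
noncomputable def q37 : Tr := .c 2 (.l 3) (.c 6 (.l 20) .e)
noncomputable def r37 : Tr := .c 3 q37 .e
noncomputable def t28 : Tr := .c 2 r36 (.c 6 r37 .e)
noncomputable def q38 : Tr := .c 1 (.l 17) (.c 2 (.l 17) .e)
noncomputable def q39 : Tr := .c 1 (.l 21) .e
noncomputable def r38 : Tr := .c 4 q38 (.c 5 q39 .e)
noncomputable def r39 : Tr := .c 3 q25 (.c 4 q38 .e)
noncomputable def t29 : Tr := .c 1 r38 (.c 2 r39 .e)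
noncomputable def q40 : Tr := .c 1 (.l 22) .e
noncomputable def r40 : Tr := .c 5 q40 .e
noncomputable def q41 : Tr := .c 1 (.l 23) (.c 2 (.l 23) (.c 5 (.l 23) .e))
noncomputable def r41 : Tr := .c 4 q41 (.c 5 q40 .e)
noncomputable def q42 : Tr := .c 5 (.l 24) .e
noncomputable def r42 : Tr := .c 1 q42 (.c 5 q40 .e)
noncomputable def t30 : Tr := .c 0 r40 (.c 1 r41 (.c 3 r40 (.c 4 r42 .e)))
noncomputable def r43 : Tr := .c 3 q28 (.c 4 q28 .e)
noncomputable def t31 : Tr := .c 1 r28 (.c 2 r43 .e)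
noncomputable def q43 : Tr := .c 2 (.l 0) .e
noncomputable def r44 : Tr := .c 3 q43 .e
noncomputable def t32 : Tr := .c 2 r39 (.c 6 r44 .e)
noncomputable def q44 : Tr := .c 1 (.l 25) .e
noncomputable def r45 : Tr := .c 1 q0 (.c 5 q44 .e)
noncomputable def t33 : Tr := .c 4 r45 (.c 6 r0 .e)
noncomputable def q45 : Tr := .c 1 (.l 19) (.c 2 (.l 19) .e)
noncomputable def r46 : Tr := .c 6 q45 .e
noncomputable def t34 : Tr := .c 2 r46 .e
noncomputable def r47 : Tr := .c 5 q39 (.c 6 q45 .e)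
noncomputable def t35 : Tr := .c 1 r47 (.c 2 r46 .e)
noncomputable def q46 : Tr := .c 1 (.l 12) .e
noncomputable def r48 : Tr := .c 4 q46 .e
noncomputable def t36 : Tr := .c 1 r48 .e
noncomputable def q47 : Tr := .c 1 (.l 13) .e
noncomputable def q48 : Tr := .c 0 (.l 15) (.c 1 (.l 15) (.c 3 (.l 15) (.c 4 (.l 15) .e)))
noncomputable def r49 : Tr := .c 4 q47 (.c 5 q48 .e)
noncomputable def r50 : Tr := .c 4 q47 .e
noncomputable def q49 : Tr := .c 4 (.l 14) .e
noncomputable def r51 : Tr := .c 1 q49 (.c 4 q47 .e)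
noncomputable def t37 : Tr := .c 1 r49 (.c 2 r50 (.c 5 r51 .e))
noncomputable def q50 : Tr := .c 1 (.l 26) .e
noncomputable def r52 : Tr := .c 4 q46 (.c 5 q50 .e)
noncomputable def t38 : Tr := .c 1 r52 .e
noncomputable def q51 : Tr := .c 3 (.l 15) (.c 4 (.l 15) .e)
noncomputable def r53 : Tr := .c 5 q51 .e
noncomputable def t39 : Tr := .c 1 r53 .e
noncomputable def q52 : Tr := .c 4 (.l 27) .e
noncomputable def q53 : Tr := .c 3 (.l 27) (.c 4 (.l 27) .e)
noncomputable def r54 : Tr := .c 1 q52 (.c 2 q53 .e)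
noncomputable def t40 : Tr := .c 6 r54 .e
noncomputable def r55 : Tr := .c 4 q46 (.c 6 q46 .e)
noncomputable def t41 : Tr := .c 1 r55 .e
noncomputable def t42 : Tr := .c 1 r18 (.c 2 r18 .e)
noncomputable def q54 : Tr := .c 1 (.l 16) .e
noncomputable def r56 : Tr := .c 1 q21 (.c 4 q54 .e)
noncomputable def t43 : Tr := .c 5 r56 (.c 6 r54 .e)
noncomputable def q55 : Tr := .c 3 (.l 21) .e
noncomputable def r57 : Tr := .c 2 q55 .e
noncomputable def t44 : Tr := .c 3 r57 .e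
noncomputable def q56 : Tr := .c 2 (.l 28) .e
noncomputable def q57 : Tr := .c 1 (.l 28) (.c 2 (.l 28) .e)
noncomputable def r58 : Tr := .c 3 q56 (.c 4 q57 .e)
noncomputable def t45 : Tr := .c 5 r58 .e
noncomputable def t46 : Tr := .c 3 r40 (.c 4 r40 .e)
noncomputable def r59 : Tr := .c 2 q55 (.c 5 q55 .e)
noncomputable def t47 : Tr := .c 3 r59 .e
noncomputable def q58 : Tr := .c 3 (.l 25) .e
noncomputable def r60 : Tr := .c 2 q58 (.c 3 q43 .e)
noncomputable def t48 : Tr := .c 5 r58 (.c 6 r60 .e)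
noncomputable def q59 : Tr := .c 3 (.l 22) .e
noncomputable def q60 : Tr := .c 0 (.l 23) (.c 1 (.l 23) (.c 2 (.l 23) (.c 3 (.l 23) .e)))
noncomputable def r61 : Tr := .c 2 q59 (.c 6 q60 .e)
noncomputable def r62 : Tr := .c 2 q59 .e
noncomputable def q61 : Tr := .c 2 (.l 24) .e
noncomputable def r63 : Tr := .c 2 q59 (.c 3 q61 .e)
noncomputable def t49 : Tr := .c 3 r61 (.c 4 r62 (.c 6 r63 .e))
noncomputable def q62 : Tr := .c 1 (.l 23) (.c 2 (.l 23) .e)
noncomputable def r64 : Tr := .c 6 q62 .e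
noncomputable def t50 : Tr := .c 3 r64 .e
noncomputable def q63 : Tr := .c 3 (.l 29) .e
noncomputable def r65 : Tr := .c 2 q55 (.c 6 q63 .e)
noncomputable def t51 : Tr := .c 3 r65 .e

/-- the diagram -/
noncomputable def T : Tr := (.c 0 (.c 5 (.c 1 t0 .e) (.c 6 (.c 3 t1 .e) .e)) (.c 1 (.c 4 (.c 1 t2 (.c 2 t3 (.c 5 t4 .e)))
(.c 5 (.c 0 t5 (.c 1 t6 (.c 3 t7 (.c 4 t8 .e)))) (.c 6 (.c 1 t9 (.c 2 t10 (.c 3 t11 .e))) .e)))
(.c 2 (.c 3 (.c 2 t12 (.c 5 t13 (.c 6 t14 .e))) (.c 4 (.c 1 t15 (.c 2 t12 (.c 5 t13 .e))) (.c 6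
(.c 1 t16 (.c 2 t17 (.c 3 t18 .e))) .e))) (.c 3 (.c 2 (.c 3 t19 (.c 4 t20 (.c 6 t21 .e))) (.c 5
(.c 1 t22 (.c 3 t23 (.c 4 t24 .e))) (.c 6 (.c 0 t25 (.c 1 t26 (.c 2 t27 (.c 3 t28 .e)))) .e)))
(.c 4 (.c 1 (.c 4 t29 (.c 5 t30 (.c 6 t31 .e))) (.c 2 (.c 3 t32 (.c 4 t29 (.c 6 t31 .e))) (.c 5
(.c 1 t33 (.c 3 t34 (.c 4 t35 .e))) .e))) (.c 5 (.c 0 (.c 5 t36 .e) (.c 1 (.c 4 t37 (.c 5 t38
(.c 6 t39 .e))) (.c 3 (.c 2 t40 (.c 5 t41 (.c 6 t42 .e))) (.c 4 (.c 1 t43 (.c 2 t40 (.c 5 t41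
.e))) .e)))) (.c 6 (.c 0 (.c 6 t44 .e) (.c 1 (.c 4 t45 (.c 5 t46 (.c 6 t47 .e))) (.c 2 (.c 3
t48 (.c 4 t45 (.c 6 t47 .e))) (.c 3 (.c 2 t49 (.c 5 t50 (.c 6 t51 .e))) .e)))) .e)))))))

theorem k0 : chkQ0 D J R 30 T = true := by decide +kernel
theorem c0 : csP D J T 0 = true := by decide +kernel
theorem c1 : csP D J T 1 = true := by decide +kernel
theorem c2 : csP D J T 2 = true := by decide +kernel
theorem c3 : csP D J T 3 = true := by decide +kernel
theorem c4 : csP D J T 4 = true := by decide +kernel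
theorem c5 : csP D J T 5 = true := by decide +kernel
theorem c6 : csP D J T 6 = true := by decide +kernel
theorem c7 : csP D J T 7 = true := by decide +kernel
theorem c8 : csP D J T 8 = true := by decide +kernel
theorem c9 : csP D J T 9 = true := by decide +kernel
theorem c10 : csP D J T 10 = true := by decide +kernel
theorem c11 : csP D J T 11 = true := by decide +kernel
theorem c12 : csP D J T 12 = true := by decide +kernel
theorem c13 : csP D J T 13 = true := by decide +kernel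

theorem cs : ∀ p < D.N, csP D J T p = true := by
  intro p hp
  have hp : p < 14 := hp
  interval_cases p
  · exact c0
  · exact c1
  · exact c2
  · exact c3
  · exact c4
  · exact c5
  · exact c6
  · exact c7
  · exact c8
  · exact c9
  · exact c10
  · exact c11
  · exact c12
  · exact c13

/-- the box table -/
theorem tab : BoxTab D := boxTab_of (by decide) (by decide) k0 cs

end C28b

/-! ### 01 02 03 12 14 35 45 (7|56: tie) -/

namespace C28t

/-- the data -/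
def D : Dat where
  A := 7
  N := 15
  nb := [96, 112, 88, 100, 38, 27, 15]
  op := [31, 63, 63, 95, 95, 102, 120]
  nbT := [16480, 24688, 12376, 18532, 3110, 4763, 1423, 26720, 28736, 19488, 29264, 12952, 19748, 3462,
6027]
  opT := [16159, 7999, 3903, 14175, 13151, 11622, 14968, 16384, 16191, 16223, 16175, 16231, 16219,
16249, 128]
  PL := [[0], [1], [2], [3], [4], [5], [6], [0, 1, 3], [0, 2], [0, 4], [1, 2], [2, 5], [3, 4], [4, 6],
[5, 6]]
  L := [3, 5, 9, 6, 18, 40, 48]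
  P := [3, 5, 9, 6, 18, 40, 48, 7, 11, 19, 13, 41, 22, 50, 56]
  r := 1
  tie := [0, 0, 0, 0, 0, 0, 0, 1, 0, 0, 0, 0, 0, 0, 0]

/-- changes of the value at a tie -/
def J : List (List ℕ) := [[], [0x41002001, 0x800000212, 4, 8, 0x40002012, 0x20, 0x40, 0x80, 0x100, 0x1002202, 0x400,
0x800,
0x1000, 0x2211, 0x4000, 0x8000, 0x10000, 0x800140000020000, 0x40000, 0x80000,
0x100000,
0x200000, 0x400000, 0x800000, 0x801000201, 0x2000000, 0x4000000, 0x8000000,
0x10000000,
0x20000000, 0x840000011, 0x80000000, 0x100000000, 0x200000000, 0x400000000,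
0x841000002,
0x1000000000, 0x89002000000000, 0x4000000000, 0x8000000000, 0x10000000000,
0x20000000000,
0x81040000020000, 0x80000000000, 0x9100000020000, 0x200000000000,
0x400000000000,
0x800000000000, 0x1142000000000, 0x2000000000000, 0x4000000000000,
0x808102000000000,
0x10000000000000, 0x20000000000000, 0x40000000000000, 0x880042000000000,
0x100000000000000,
0x200000000000000, 0x400000000000000, 0x888000000020000]]

/-- reachable values -/
def R : List (List ℕ) := [[1, 0x41002001], [2, 0x800000212], [4, 4], [8, 8], [0x10, 0x40002012], [0x20, 0x20], [0x40,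
0x40], [0x80, 0x80], [0x100, 0x100], [0x200, 0x1002202], [0x400, 0x400], [0x800, 0x800],
[0x1000, 0x1000], [0x2000, 0x2211], [0x4000, 0x4000], [0x8000, 0x8000], [0x10000, 0x10000],
[0x20000, 0x800140000020000], [0x40000, 0x40000], [0x80000, 0x80000], [0x100000, 0x100000],
[0x200000, 0x200000], [0x400000, 0x400000], [0x800000, 0x800000], [0x1000000, 0x801000201],
[0x2000000, 0x2000000], [0x4000000, 0x4000000], [0x8000000, 0x8000000], [0x10000000,
0x10000000], [0x20000000, 0x20000000], [0x40000000, 0x840000011], [0x80000000, 0x80000000],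
[0x100000000, 0x100000000], [0x200000000, 0x200000000], [0x400000000, 0x400000000],
[0x800000000, 0x841000002], [0x1000000000, 0x1000000000], [0x2000000000, 0x89002000000000],
[0x4000000000, 0x4000000000], [0x8000000000, 0x8000000000], [0x10000000000, 0x10000000000],
[0x20000000000, 0x20000000000], [0x40000000000, 0x81040000020000], [0x80000000000,
0x80000000000], [0x100000000000, 0x9100000020000], [0x200000000000, 0x200000000000],
[0x400000000000, 0x400000000000], [0x800000000000, 0x800000000000], [0x1000000000000,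
0x1142000000000], [0x2000000000000, 0x2000000000000], [0x4000000000000, 0x4000000000000],
[0x8000000000000, 0x808102000000000], [0x10000000000000, 0x10000000000000], [0x20000000000000,
0x20000000000000], [0x40000000000000, 0x40000000000000], [0x80000000000000, 0x880042000000000],
[0x100000000000000, 0x100000000000000], [0x200000000000000, 0x200000000000000],
[0x400000000000000, 0x400000000000000], [0x800000000000000, 0x888000000020000]]

noncomputable def q0 : Tr := .c 5 (.l 0) .e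
noncomputable def r0 : Tr := .c 1 q0 .e
noncomputable def t0 : Tr := .c 4 r0 .e
noncomputable def q1 : Tr := .c 6 (.l 1) .e
noncomputable def r1 : Tr := .c 3 q1 .e
noncomputable def t1 : Tr := .c 2 r1 .e
noncomputable def q2 : Tr := .c 4 (.l 2) (.c 5 (.l 3) .e)
noncomputable def q3 : Tr := .c 4 (.l 2) .e
noncomputable def r2 : Tr := .c 1 q2 (.c 2 q3 .e)
noncomputable def q4 : Tr := .c 5 (.l 4) .e
noncomputable def q5 : Tr := .c 4 (.l 5) (.c 5 (.l 6) .e)
noncomputable def r3 : Tr := .c 0 q4 (.c 1 q5 (.c 3 q4 (.c 4 q4 .e)))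
noncomputable def t2 : Tr := .c 4 r2 (.c 5 r3 .e)
noncomputable def r4 : Tr := .c 2 q3 .e
noncomputable def t3 : Tr := .c 3 r4 (.c 4 r2 .e)
noncomputable def q6 : Tr := .c 5 (.l 7) .e
noncomputable def r5 : Tr := .c 4 q6 .e
noncomputable def q7 : Tr := .c 6 (.l 8) .e
noncomputable def r6 : Tr := .c 2 q7 .e
noncomputable def q8 : Tr := .c 5 (.l 3) (.c 6 (.l 8) .e)
noncomputable def r7 : Tr := .c 1 q8 (.c 2 q7 .e)
noncomputable def t4 : Tr := .c 1 r5 (.c 3 r6 (.c 4 r7 .e))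
noncomputable def q9 : Tr := .c 4 (.l 9) .e
noncomputable def r8 : Tr := .c 1 q9 .e
noncomputable def t5 : Tr := .c 5 r8 .e
noncomputable def q10 : Tr := .c 4 (.l 10) (.c 5 (.l 11) .e)
noncomputable def q11 : Tr := .c 4 (.l 10) .e
noncomputable def r9 : Tr := .c 1 q10 (.c 2 q11 (.c 5 q11 .e))
noncomputable def q12 : Tr := .c 4 (.l 12) (.c 5 (.l 13) .e)
noncomputable def r10 : Tr := .c 1 q12 .e
noncomputable def t6 : Tr := .c 4 r9 (.c 5 r10 .e)
noncomputable def q13 : Tr := .c 4 (.l 9) (.c 6 (.l 9) .e)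
noncomputable def r11 : Tr := .c 1 q13 .e
noncomputable def t7 : Tr := .c 5 r11 .e
noncomputable def q14 : Tr := .c 4 (.l 14) .e
noncomputable def r12 : Tr := .c 5 q14 .e
noncomputable def t8 : Tr := .c 1 r12 (.c 5 r11 .e)
noncomputable def q15 : Tr := .c 4 (.l 15) .e
noncomputable def r13 : Tr := .c 5 q15 .e
noncomputable def r14 : Tr := .c 3 q4 (.c 4 q4 .e)
noncomputable def t9 : Tr := .c 4 r13 (.c 5 r14 .e)
noncomputable def t10 : Tr := .c 3 r13 (.c 4 r13 .e)
noncomputable def t11 : Tr := .c 2 r1 (.c 5 r1 .e)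
noncomputable def q16 : Tr := .c 3 (.l 2) (.c 4 (.l 2) .e)
noncomputable def q17 : Tr := .c 3 (.l 16) .e
noncomputable def r15 : Tr := .c 2 q16 (.c 6 q17 .e)
noncomputable def r16 : Tr := .c 1 q3 (.c 2 q16 .e)
noncomputable def t12 : Tr := .c 3 r15 (.c 4 r16 .e)
noncomputable def r17 : Tr := .c 1 q7 (.c 2 q7 .e)
noncomputable def t13 : Tr := .c 3 r6 (.c 4 r17 .e)
noncomputable def q18 : Tr := .c 3 (.l 17) .e
noncomputable def r18 : Tr := .c 6 q18 .e
noncomputable def q19 : Tr := .c 6 (.l 18) .e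
noncomputable def r19 : Tr := .c 3 q19 (.c 6 q18 .e)
noncomputable def q20 : Tr := .c 3 (.l 19) (.c 4 (.l 19) (.c 6 (.l 19) .e))
noncomputable def q21 : Tr := .c 3 (.l 20) .e
noncomputable def r20 : Tr := .c 2 q20 (.c 6 q21 .e)
noncomputable def t14 : Tr := .c 0 r18 (.c 1 r18 (.c 2 r19 (.c 3 r20 .e)))
noncomputable def q22 : Tr := .c 4 (.l 5) .e
noncomputable def r21 : Tr := .c 1 q22 .e
noncomputable def t15 : Tr := .c 4 r16 (.c 5 r21 .e)
noncomputable def q23 : Tr := .c 3 (.l 15) (.c 4 (.l 15) .e)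
noncomputable def r22 : Tr := .c 5 q23 .e
noncomputable def t16 : Tr := .c 4 r22 .e
noncomputable def r23 : Tr := .c 5 q23 (.c 6 q17 .e)
noncomputable def t17 : Tr := .c 3 r23 (.c 4 r22 .e)
noncomputable def q24 : Tr := .c 3 (.l 21) .e
noncomputable def r24 : Tr := .c 3 q1 (.c 6 q24 .e)
noncomputable def t18 : Tr := .c 2 r24 (.c 5 r1 .e)
noncomputable def q25 : Tr := .c 2 (.l 22) (.c 6 (.l 23) .e)
noncomputable def q26 : Tr := .c 2 (.l 22) .e
noncomputable def r25 : Tr := .c 3 q25 (.c 4 q26 .e)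
noncomputable def q27 : Tr := .c 6 (.l 24) .e
noncomputable def q28 : Tr := .c 2 (.l 25) (.c 6 (.l 26) .e)
noncomputable def r26 : Tr := .c 0 q27 (.c 1 q27 (.c 2 q27 (.c 3 q28 .e)))
noncomputable def t19 : Tr := .c 2 r25 (.c 6 r26 .e)
noncomputable def r27 : Tr := .c 4 q26 .e
noncomputable def t20 : Tr := .c 1 r27 (.c 2 r25 .e)
noncomputable def q29 : Tr := .c 5 (.l 27) .e
noncomputable def r28 : Tr := .c 4 q29 .e
noncomputable def q30 : Tr := .c 5 (.l 27) (.c 6 (.l 23) .e)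
noncomputable def r29 : Tr := .c 3 q30 (.c 4 q29 .e)
noncomputable def q31 : Tr := .c 6 (.l 28) .e
noncomputable def r30 : Tr := .c 2 q31 .e
noncomputable def t21 : Tr := .c 1 r28 (.c 2 r29 (.c 3 r30 .e))
noncomputable def t22 : Tr := .c 4 r0 (.c 6 r0 .e)
noncomputable def q32 : Tr := .c 2 (.l 29) .e
noncomputable def r31 : Tr := .c 6 q32 .e
noncomputable def r32 : Tr := .c 1 q27 (.c 2 q27 .e)
noncomputable def t23 : Tr := .c 2 r31 (.c 6 r32 .e)
noncomputable def t24 : Tr := .c 1 r31 (.c 2 r31 .e)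
noncomputable def q33 : Tr := .c 2 (.l 30) .e
noncomputable def r33 : Tr := .c 3 q33 .e
noncomputable def t25 : Tr := .c 6 r33 .e
noncomputable def q34 : Tr := .c 2 (.l 30) (.c 5 (.l 30) .e)
noncomputable def r34 : Tr := .c 3 q34 .e
noncomputable def t26 : Tr := .c 6 r34 .e
noncomputable def q35 : Tr := .c 2 (.l 31) .e
noncomputable def r35 : Tr := .c 6 q35 .e
noncomputable def t27 : Tr := .c 3 r35 (.c 6 r34 .e)
noncomputable def q36 : Tr := .c 2 (.l 32) (.c 6 (.l 33) .e)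
noncomputable def q37 : Tr := .c 2 (.l 32) .e
noncomputable def r36 : Tr := .c 3 q36 (.c 4 q37 (.c 6 q37 .e))
noncomputable def q38 : Tr := .c 2 (.l 34) (.c 6 (.l 35) .e)
noncomputable def r37 : Tr := .c 3 q38 .e
noncomputable def t28 : Tr := .c 2 r36 (.c 6 r37 .e)
noncomputable def q39 : Tr := .c 1 (.l 22) (.c 2 (.l 22) .e)
noncomputable def q40 : Tr := .c 1 (.l 36) .e
noncomputable def r38 : Tr := .c 4 q39 (.c 5 q40 .e)
noncomputable def r39 : Tr := .c 3 q26 (.c 4 q39 .e)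
noncomputable def t29 : Tr := .c 1 r38 (.c 2 r39 .e)
noncomputable def q41 : Tr := .c 1 (.l 37) .e
noncomputable def r40 : Tr := .c 5 q41 .e
noncomputable def q42 : Tr := .c 1 (.l 38) (.c 2 (.l 38) (.c 5 (.l 38) .e))
noncomputable def q43 : Tr := .c 1 (.l 39) .e
noncomputable def r41 : Tr := .c 4 q42 (.c 5 q43 .e)
noncomputable def q44 : Tr := .c 5 (.l 40) .e
noncomputable def r42 : Tr := .c 1 q44 (.c 5 q41 .e)
noncomputable def t30 : Tr := .c 0 r40 (.c 1 r41 (.c 3 r40 (.c 4 r42 .e)))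
noncomputable def r43 : Tr := .c 3 q29 (.c 4 q29 .e)
noncomputable def t31 : Tr := .c 1 r28 (.c 2 r43 .e)
noncomputable def q45 : Tr := .c 2 (.l 25) .e
noncomputable def r44 : Tr := .c 3 q45 .e
noncomputable def t32 : Tr := .c 2 r39 (.c 6 r44 .e)
noncomputable def q46 : Tr := .c 1 (.l 41) .e
noncomputable def r45 : Tr := .c 1 q0 (.c 5 q46 .e)
noncomputable def t33 : Tr := .c 4 r45 (.c 6 r0 .e)
noncomputable def q47 : Tr := .c 1 (.l 29) (.c 2 (.l 29) .e)
noncomputable def r46 : Tr := .c 6 q47 .e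
noncomputable def t34 : Tr := .c 2 r46 .e
noncomputable def r47 : Tr := .c 5 q40 (.c 6 q47 .e)
noncomputable def t35 : Tr := .c 1 r47 (.c 2 r46 .e)
noncomputable def q48 : Tr := .c 1 (.l 42) .e
noncomputable def r48 : Tr := .c 4 q48 .e
noncomputable def t36 : Tr := .c 1 r48 .e
noncomputable def q49 : Tr := .c 1 (.l 43) .e
noncomputable def q50 : Tr := .c 0 (.l 44) (.c 1 (.l 45) (.c 3 (.l 44) (.c 4 (.l 44) .e)))
noncomputable def r49 : Tr := .c 4 q49 (.c 5 q50 .e)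
noncomputable def r50 : Tr := .c 4 q49 .e
noncomputable def q51 : Tr := .c 4 (.l 46) .e
noncomputable def r51 : Tr := .c 1 q51 (.c 4 q49 .e)
noncomputable def t37 : Tr := .c 1 r49 (.c 2 r50 (.c 5 r51 .e))
noncomputable def q52 : Tr := .c 1 (.l 47) .e
noncomputable def q53 : Tr := .c 1 (.l 48) .e
noncomputable def r52 : Tr := .c 4 q52 (.c 5 q53 .e)
noncomputable def t38 : Tr := .c 1 r52 .e
noncomputable def q54 : Tr := .c 3 (.l 44) (.c 4 (.l 44) .e)
noncomputable def r53 : Tr := .c 5 q54 .e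
noncomputable def t39 : Tr := .c 1 r53 .e
noncomputable def q55 : Tr := .c 4 (.l 49) .e
noncomputable def q56 : Tr := .c 3 (.l 49) (.c 4 (.l 49) .e)
noncomputable def r54 : Tr := .c 1 q55 (.c 2 q56 .e)
noncomputable def t40 : Tr := .c 6 r54 .e
noncomputable def r55 : Tr := .c 4 q48 (.c 6 q48 .e)
noncomputable def t41 : Tr := .c 1 r55 .e
noncomputable def t42 : Tr := .c 1 r18 (.c 2 r18 .e)
noncomputable def q57 : Tr := .c 1 (.l 50) .e
noncomputable def r56 : Tr := .c 1 q22 (.c 4 q57 .e)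
noncomputable def t43 : Tr := .c 5 r56 (.c 6 r54 .e)
noncomputable def q58 : Tr := .c 3 (.l 51) .e
noncomputable def r57 : Tr := .c 2 q58 .e
noncomputable def t44 : Tr := .c 3 r57 .e
noncomputable def q59 : Tr := .c 2 (.l 52) .e
noncomputable def q60 : Tr := .c 1 (.l 52) (.c 2 (.l 52) .e)
noncomputable def r58 : Tr := .c 3 q59 (.c 4 q60 .e)
noncomputable def t45 : Tr := .c 5 r58 .e
noncomputable def t46 : Tr := .c 3 r40 (.c 4 r40 .e)
noncomputable def r59 : Tr := .c 2 q58 (.c 5 q58 .e)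
noncomputable def t47 : Tr := .c 3 r59 .e
noncomputable def q61 : Tr := .c 3 (.l 53) .e
noncomputable def r60 : Tr := .c 2 q61 (.c 3 q45 .e)
noncomputable def t48 : Tr := .c 5 r58 (.c 6 r60 .e)
noncomputable def q62 : Tr := .c 3 (.l 54) .e
noncomputable def q63 : Tr := .c 0 (.l 55) (.c 1 (.l 55) (.c 2 (.l 55) (.c 3 (.l 56) .e)))
noncomputable def r61 : Tr := .c 2 q62 (.c 6 q63 .e)
noncomputable def r62 : Tr := .c 2 q62 .e
noncomputable def q64 : Tr := .c 2 (.l 57) .e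
noncomputable def r63 : Tr := .c 2 q62 (.c 3 q64 .e)
noncomputable def t49 : Tr := .c 3 r61 (.c 4 r62 (.c 6 r63 .e))
noncomputable def q65 : Tr := .c 1 (.l 55) (.c 2 (.l 55) .e)
noncomputable def r64 : Tr := .c 6 q65 .e
noncomputable def t50 : Tr := .c 3 r64 .e
noncomputable def q66 : Tr := .c 3 (.l 58) .e
noncomputable def q67 : Tr := .c 3 (.l 59) .e
noncomputable def r65 : Tr := .c 2 q66 (.c 6 q67 .e)
noncomputable def t51 : Tr := .c 3 r65 .e

/-- the diagram -/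
noncomputable def T : Tr := (.c 0 (.c 5 (.c 1 t0 .e) (.c 6 (.c 3 t1 .e) .e)) (.c 1 (.c 4 (.c 1 t2 (.c 2 t3 (.c 5 t4 .e)))
(.c 5 (.c 0 t5 (.c 1 t6 (.c 3 t7 (.c 4 t8 .e)))) (.c 6 (.c 1 t9 (.c 2 t10 (.c 3 t11 .e))) .e)))
(.c 2 (.c 3 (.c 2 t12 (.c 5 t13 (.c 6 t14 .e))) (.c 4 (.c 1 t15 (.c 2 t12 (.c 5 t13 .e))) (.c 6
(.c 1 t16 (.c 2 t17 (.c 3 t18 .e))) .e))) (.c 3 (.c 2 (.c 3 t19 (.c 4 t20 (.c 6 t21 .e))) (.c 5
(.c 1 t22 (.c 3 t23 (.c 4 t24 .e))) (.c 6 (.c 0 t25 (.c 1 t26 (.c 2 t27 (.c 3 t28 .e)))) .e)))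
(.c 4 (.c 1 (.c 4 t29 (.c 5 t30 (.c 6 t31 .e))) (.c 2 (.c 3 t32 (.c 4 t29 (.c 6 t31 .e))) (.c 5
(.c 1 t33 (.c 3 t34 (.c 4 t35 .e))) .e))) (.c 5 (.c 0 (.c 5 t36 .e) (.c 1 (.c 4 t37 (.c 5 t38
(.c 6 t39 .e))) (.c 3 (.c 2 t40 (.c 5 t41 (.c 6 t42 .e))) (.c 4 (.c 1 t43 (.c 2 t40 (.c 5 t41
.e))) .e)))) (.c 6 (.c 0 (.c 6 t44 .e) (.c 1 (.c 4 t45 (.c 5 t46 (.c 6 t47 .e))) (.c 2 (.c 3
t48 (.c 4 t45 (.c 6 t47 .e))) (.c 3 (.c 2 t49 (.c 5 t50 (.c 6 t51 .e))) .e)))) .e)))))))

theorem k0 : chkQ0 D J R 60 T = true := by decide +kernel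
theorem c0 : csP D J T 0 = true := by decide +kernel
theorem c1 : csP D J T 1 = true := by decide +kernel
theorem c2 : csP D J T 2 = true := by decide +kernel
theorem c3 : csP D J T 3 = true := by decide +kernel
theorem c4 : csP D J T 4 = true := by decide +kernel
theorem c5 : csP D J T 5 = true := by decide +kernel
theorem c6 : csP D J T 6 = true := by decide +kernel
theorem c7 : csP D J T 7 = true := by decide +kernel
theorem c8 : csP D J T 8 = true := by decide +kernel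
theorem c9 : csP D J T 9 = true := by decide +kernel
theorem c10 : csP D J T 10 = true := by decide +kernel
theorem c11 : csP D J T 11 = true := by decide +kernel
theorem c12 : csP D J T 12 = true := by decide +kernel
theorem c13 : csP D J T 13 = true := by decide +kernel
theorem c14 : csP D J T 14 = true := by decide +kernel

theorem cs : ∀ p < D.N, csP D J T p = true := by
  intro p hp
  have hp : p < 15 := hp
  interval_cases p
  · exact c0
  · exact c1
  · exact c2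
  · exact c3
  · exact c4
  · exact c5
  · exact c6
  · exact c7
  · exact c8
  · exact c9
  · exact c10
  · exact c11
  · exact c12
  · exact c13
  · exact c14

/-- the box table -/
theorem tab : BoxTab D := boxTab_of (by decide) (by decide) k0 cs

end C28t

end Vale.Agent.P032.Words.Trie
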