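import Vale.Agent.P032.Words.H670.Split

/-!
# Hexagons around a centre with six colours: box tables
-/

namespace Vale.Agent.P032.Words.Trie

/-! ### 01 02 03 12 13 24 35 45 (7|56: 7 never) -/

namespace C32a

/-- the data -/
def D : Dat where
  A := 8
  N := 17
  nb := [224, 208, 168, 196, 162, 85, 43, 31]
  op := [127, 191, 223, 191, 223, 171, 213, 254]
  nbT := [98528, 82128, 41128, 67780, 33954, 18773, 9259, 4895, 107680, 123008, 88400, 46120, 101504,
84804, 42530, 23317, 14091]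
  opT := [32639, 49087, 90079, 63423, 97247, 112299, 121813, 126206, 130911, 130943, 130991, 131031,
130943, 131003, 131037, 131050, 131060]
  PL := [[0], [1], [2], [3], [4], [5], [6], [7], [0, 2, 4], [1, 2], [1, 5], [2, 6], [3, 4], [3, 5], [4,
6], [5, 7], [6, 7]]
  L := [3, 5, 9, 6, 10, 20, 40, 48]
  P := [3, 5, 9, 6, 10, 20, 40, 48, 11, 13, 21, 41, 14, 22, 42, 52, 56]
  r := 0
  tie := [0, 0, 0, 0, 0, 0, 0, 0, 0, 0, 0, 0, 0, 0, 0, 0, 0]

/-- changes of the value at a tie -/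
def J : List (List ℕ) := [[]]

/-- reachable values -/
def R : List (List ℕ) := [[1], [2], [4], [8], [0x10], [0x20], [0x40], [0x80], [0x100], [0x200], [0x400], [0x800],
[0x1000], [0x2000], [0x4000], [0x8000], [0x10000], [0x20000], [0x40000], [0x80000], [0x100000],
[0x200000], [0x400000], [0x800000], [0x1000000], [0x2000000], [0x4000000], [0x8000000],
[0x10000000], [0x20000000], [0x40000000], [0x80000000], [0x100000000], [0x200000000],
[0x400000000], [0x800000000], [0x1000000000], [0x2000000000], [0x4000000000], [0x8000000000],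
[0x10000000000], [0x20000000000], [0x40000000000], [0x80000000000], [0x100000000000],
[0x200000000000], [0x400000000000], [0x800000000000], [0x1000000000000], [0x2000000000000],
[0x4000000000000], [0x8000000000000], [0x10000000000000], [0x20000000000000]]

noncomputable def q0 : Tr := .c 5 (.l 0) (.c 6 (.l 0) .e)
noncomputable def r0 : Tr := .c 0 q0 .e
noncomputable def q1 : Tr := .c 6 (.l 0) .e
noncomputable def r1 : Tr := .c 0 q0 (.c 1 q1 (.c 3 q1 (.c 5 q1 .e)))
noncomputable def t0 : Tr := .c 5 r0 (.c 6 r1 .e)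
noncomputable def q2 : Tr := .c 6 (.l 0) (.c 7 (.l 0) .e)
noncomputable def r2 : Tr := .c 0 q2 .e
noncomputable def t1 : Tr := .c 5 r2 .e
noncomputable def q3 : Tr := .c 6 (.l 1) .e
noncomputable def r3 : Tr := .c 5 q3 .e
noncomputable def t2 : Tr := .c 0 r3 (.c 5 r2 .e)
noncomputable def q4 : Tr := .c 5 (.l 0) .e
noncomputable def r4 : Tr := .c 0 q0 (.c 2 q4 (.c 4 q4 (.c 6 q4 .e)))
noncomputable def q5 : Tr := .c 5 (.l 0) (.c 6 (.l 2) .e)
noncomputable def r5 : Tr := .c 0 q5 .e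
noncomputable def t3 : Tr := .c 5 r4 (.c 6 r5 .e)
noncomputable def q6 : Tr := .c 5 (.l 0) (.c 7 (.l 0) .e)
noncomputable def r6 : Tr := .c 0 q6 .e
noncomputable def t4 : Tr := .c 6 r6 .e
noncomputable def q7 : Tr := .c 5 (.l 3) .e
noncomputable def r7 : Tr := .c 6 q7 .e
noncomputable def t5 : Tr := .c 0 r7 (.c 6 r6 .e)
noncomputable def r8 : Tr := .c 2 q4 (.c 4 q4 (.c 6 q4 .e))
noncomputable def r9 : Tr := .c 1 q1 (.c 3 q1 (.c 5 q1 .e))
noncomputable def t6 : Tr := .c 5 r8 (.c 6 r9 .e)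
noncomputable def q8 : Tr := .c 7 (.l 4) .e
noncomputable def r10 : Tr := .c 1 q8 .e
noncomputable def q9 : Tr := .c 7 (.l 5) .e
noncomputable def r11 : Tr := .c 1 q8 (.c 3 q9 .e)
noncomputable def t7 : Tr := .c 4 r10 (.c 6 r11 .e)
noncomputable def q10 : Tr := .c 7 (.l 0) .e
noncomputable def r12 : Tr := .c 2 q10 .e
noncomputable def r13 : Tr := .c 2 q10 (.c 4 q10 .e)
noncomputable def t8 : Tr := .c 3 r12 (.c 5 r13 .e)
noncomputable def q11 : Tr := .c 7 (.l 6) .e
noncomputable def r14 : Tr := .c 3 q11 .e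
noncomputable def q12 : Tr := .c 7 (.l 7) .e
noncomputable def r15 : Tr := .c 1 q12 (.c 3 q11 .e)
noncomputable def t9 : Tr := .c 2 r14 (.c 6 r15 .e)
noncomputable def r16 : Tr := .c 4 q10 .e
noncomputable def t10 : Tr := .c 1 r16 (.c 5 r13 .e)
noncomputable def q13 : Tr := .c 4 (.l 8) (.c 7 (.l 9) .e)
noncomputable def q14 : Tr := .c 4 (.l 9) .e
noncomputable def r17 : Tr := .c 1 q13 (.c 7 q14 .e)
noncomputable def q15 : Tr := .c 7 (.l 10) .e
noncomputable def q16 : Tr := .c 4 (.l 9) (.c 7 (.l 10) .e)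
noncomputable def r18 : Tr := .c 0 q15 (.c 1 q16 (.c 2 q15 (.c 3 q15 (.c 4 q15 .e))))
noncomputable def t11 : Tr := .c 4 r17 (.c 7 r18 .e)
noncomputable def q17 : Tr := .c 7 (.l 9) .e
noncomputable def r19 : Tr := .c 3 q17 .e
noncomputable def r20 : Tr := .c 1 q17 .e
noncomputable def t12 : Tr := .c 2 r19 (.c 4 r20 .e)
noncomputable def r21 : Tr := .c 7 q14 .e
noncomputable def q18 : Tr := .c 7 (.l 11) .e
noncomputable def r22 : Tr := .c 4 q18 (.c 7 q14 .e)
noncomputable def q19 : Tr := .c 6 (.l 9) (.c 7 (.l 9) .e)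
noncomputable def r23 : Tr := .c 3 q19 (.c 7 q14 .e)
noncomputable def r24 : Tr := .c 2 q18 (.c 7 q14 .e)
noncomputable def q20 : Tr := .c 4 (.l 9) (.c 6 (.l 9) (.c 7 (.l 9) .e))
noncomputable def r25 : Tr := .c 1 q20 (.c 7 q14 .e)
noncomputable def t13 : Tr := .c 0 r21 (.c 1 r22 (.c 2 r23 (.c 3 r24 (.c 4 r25 .e))))
noncomputable def r26 : Tr := .c 0 q1 .e
noncomputable def t14 : Tr := .c 5 r26 (.c 7 r26 .e)
noncomputable def r27 : Tr := .c 0 q15 (.c 2 q15 (.c 4 q15 .e))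
noncomputable def t15 : Tr := .c 4 r21 (.c 7 r27 .e)
noncomputable def q21 : Tr := .c 7 (.l 12) .e
noncomputable def r28 : Tr := .c 0 q21 (.c 2 q21 (.c 4 q21 .e))
noncomputable def t16 : Tr := .c 2 r21 (.c 7 r28 .e)
noncomputable def q22 : Tr := .c 4 (.l 13) (.c 6 (.l 13) .e)
noncomputable def q23 : Tr := .c 6 (.l 14) .e
noncomputable def r29 : Tr := .c 1 q22 (.c 3 q23 .e)
noncomputable def t17 : Tr := .c 7 r29 .e
noncomputable def q24 : Tr := .c 4 (.l 9) (.c 7 (.l 4) .e)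
noncomputable def r30 : Tr := .c 1 q24 (.c 5 q14 (.c 7 q14 .e))
noncomputable def q25 : Tr := .c 4 (.l 13) (.c 7 (.l 15) .e)
noncomputable def q26 : Tr := .c 7 (.l 16) .e
noncomputable def r31 : Tr := .c 1 q25 (.c 2 q15 (.c 3 q26 (.c 4 q15 .e)))
noncomputable def t18 : Tr := .c 4 r30 (.c 7 r31 .e)
noncomputable def q27 : Tr := .c 4 (.l 17) .e
noncomputable def r32 : Tr := .c 2 q10 (.c 7 q27 .e)
noncomputable def q28 : Tr := .c 4 (.l 13) (.c 6 (.l 13) (.c 7 (.l 13) .e))
noncomputable def q29 : Tr := .c 6 (.l 14) (.c 7 (.l 14) .e)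
noncomputable def r33 : Tr := .c 1 q28 (.c 2 q10 (.c 3 q29 (.c 4 q10 .e)))
noncomputable def t19 : Tr := .c 3 r32 (.c 5 r13 (.c 7 r33 .e))
noncomputable def r34 : Tr := .c 3 q11 (.c 5 q14 (.c 7 q14 .e))
noncomputable def q30 : Tr := .c 4 (.l 13) (.c 7 (.l 18) .e)
noncomputable def q31 : Tr := .c 7 (.l 19) .e
noncomputable def r35 : Tr := .c 1 q30 (.c 2 q21 (.c 3 q31 (.c 4 q21 .e)))
noncomputable def t20 : Tr := .c 2 r34 (.c 7 r35 .e)
noncomputable def r36 : Tr := .c 4 q10 (.c 7 q27 .e)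
noncomputable def t21 : Tr := .c 1 r36 (.c 5 r13 (.c 7 r33 .e))
noncomputable def q32 : Tr := .c 3 (.l 20) (.c 7 (.l 0) .e)
noncomputable def q33 : Tr := .c 3 (.l 0) .e
noncomputable def r37 : Tr := .c 2 q32 (.c 7 q33 .e)
noncomputable def q34 : Tr := .c 3 (.l 0) (.c 7 (.l 0) .e)
noncomputable def r38 : Tr := .c 0 q10 (.c 1 q10 (.c 2 q34 (.c 3 q10 (.c 4 q10 .e))))
noncomputable def t22 : Tr := .c 3 r37 (.c 7 r38 .e)
noncomputable def t23 : Tr := .c 1 r16 (.c 3 r12 .e)
noncomputable def q35 : Tr := .c 3 (.l 21) .e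
noncomputable def r39 : Tr := .c 7 q35 .e
noncomputable def r40 : Tr := .c 4 q6 (.c 7 q35 .e)
noncomputable def q36 : Tr := .c 7 (.l 1) .e
noncomputable def r41 : Tr := .c 3 q36 (.c 7 q35 .e)
noncomputable def q37 : Tr := .c 3 (.l 0) (.c 5 (.l 0) (.c 7 (.l 0) .e))
noncomputable def r42 : Tr := .c 2 q37 (.c 7 q35 .e)
noncomputable def r43 : Tr := .c 1 q36 (.c 7 q35 .e)
noncomputable def t24 : Tr := .c 0 r39 (.c 1 r40 (.c 2 r41 (.c 3 r42 (.c 4 r43 .e))))
noncomputable def r44 : Tr := .c 0 q4 .e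
noncomputable def t25 : Tr := .c 6 r44 (.c 7 r44 .e)
noncomputable def r45 : Tr := .c 7 q33 .e
noncomputable def r46 : Tr := .c 0 q10 (.c 1 q10 (.c 3 q10 .e))
noncomputable def t26 : Tr := .c 3 r45 (.c 7 r46 .e)
noncomputable def t27 : Tr := .c 1 r45 (.c 7 r46 .e)
noncomputable def q38 : Tr := .c 3 (.l 0) (.c 5 (.l 0) .e)
noncomputable def r47 : Tr := .c 2 q38 (.c 4 q4 .e)
noncomputable def t28 : Tr := .c 7 r47 .e
noncomputable def q39 : Tr := .c 3 (.l 3) .e
noncomputable def r48 : Tr := .c 1 q8 (.c 7 q39 .e)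
noncomputable def r49 : Tr := .c 1 q8 (.c 2 q37 (.c 3 q9 (.c 4 q6 .e)))
noncomputable def t29 : Tr := .c 4 r48 (.c 6 r11 (.c 7 r49 .e))
noncomputable def r50 : Tr := .c 2 q34 (.c 6 q33 (.c 7 q33 .e))
noncomputable def r51 : Tr := .c 1 q10 (.c 2 q34 (.c 3 q10 (.c 4 q10 .e)))
noncomputable def t30 : Tr := .c 3 r50 (.c 7 r51 .e)
noncomputable def r52 : Tr := .c 3 q11 (.c 7 q39 .e)
noncomputable def r53 : Tr := .c 1 q12 (.c 2 q37 (.c 3 q11 (.c 4 q6 .e)))
noncomputable def t31 : Tr := .c 2 r52 (.c 6 r15 (.c 7 r53 .e))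
noncomputable def r54 : Tr := .c 4 q10 (.c 6 q33 (.c 7 q33 .e))
noncomputable def t32 : Tr := .c 1 r54 (.c 7 r51 .e)
noncomputable def q40 : Tr := .c 2 (.l 22) (.c 7 (.l 9) .e)
noncomputable def q41 : Tr := .c 2 (.l 9) .e
noncomputable def r55 : Tr := .c 3 q40 (.c 7 q41 .e)
noncomputable def q42 : Tr := .c 7 (.l 23) .e
noncomputable def q43 : Tr := .c 2 (.l 9) (.c 7 (.l 23) .e)
noncomputable def r56 : Tr := .c 0 q42 (.c 1 q42 (.c 2 q42 (.c 3 q43 (.c 4 q42 .e))))
noncomputable def t33 : Tr := .c 2 r55 (.c 7 r56 .e)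
noncomputable def r57 : Tr := .c 7 q41 .e
noncomputable def r58 : Tr := .c 4 q18 (.c 7 q41 .e)
noncomputable def q44 : Tr := .c 2 (.l 9) (.c 6 (.l 9) (.c 7 (.l 9) .e))
noncomputable def r59 : Tr := .c 3 q44 (.c 7 q41 .e)
noncomputable def r60 : Tr := .c 2 q18 (.c 7 q41 .e)
noncomputable def r61 : Tr := .c 1 q19 (.c 7 q41 .e)
noncomputable def t34 : Tr := .c 0 r57 (.c 1 r58 (.c 2 r59 (.c 3 r60 (.c 4 r61 .e))))
noncomputable def q45 : Tr := .c 7 (.l 24) .e
noncomputable def r62 : Tr := .c 0 q45 (.c 2 q45 (.c 4 q45 .e))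
noncomputable def t35 : Tr := .c 4 r57 (.c 7 r62 .e)
noncomputable def r63 : Tr := .c 0 q42 (.c 2 q42 (.c 4 q42 .e))
noncomputable def t36 : Tr := .c 2 r57 (.c 7 r63 .e)
noncomputable def q46 : Tr := .c 6 (.l 25) .e
noncomputable def q47 : Tr := .c 2 (.l 26) (.c 6 (.l 26) .e)
noncomputable def r64 : Tr := .c 1 q46 (.c 3 q47 .e)
noncomputable def t37 : Tr := .c 7 r64 .e
noncomputable def r65 : Tr := .c 1 q8 (.c 5 q41 (.c 7 q41 .e))
noncomputable def q48 : Tr := .c 7 (.l 27) .e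
noncomputable def q49 : Tr := .c 2 (.l 26) (.c 7 (.l 28) .e)
noncomputable def r66 : Tr := .c 1 q48 (.c 2 q45 (.c 3 q49 (.c 4 q45 .e)))
noncomputable def t38 : Tr := .c 4 r65 (.c 7 r66 .e)
noncomputable def q50 : Tr := .c 2 (.l 17) .e
noncomputable def r67 : Tr := .c 2 q10 (.c 7 q50 .e)
noncomputable def q51 : Tr := .c 6 (.l 25) (.c 7 (.l 25) .e)
noncomputable def q52 : Tr := .c 2 (.l 26) (.c 6 (.l 26) (.c 7 (.l 26) .e))
noncomputable def r68 : Tr := .c 1 q51 (.c 2 q10 (.c 3 q52 (.c 4 q10 .e)))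
noncomputable def t39 : Tr := .c 3 r67 (.c 5 r13 (.c 7 r68 .e))
noncomputable def q53 : Tr := .c 2 (.l 9) (.c 7 (.l 6) .e)
noncomputable def r69 : Tr := .c 3 q53 (.c 5 q41 (.c 7 q41 .e))
noncomputable def q54 : Tr := .c 7 (.l 29) .e
noncomputable def q55 : Tr := .c 2 (.l 26) (.c 7 (.l 30) .e)
noncomputable def r70 : Tr := .c 1 q54 (.c 2 q42 (.c 3 q55 (.c 4 q42 .e)))
noncomputable def t40 : Tr := .c 2 r69 (.c 7 r70 .e)
noncomputable def r71 : Tr := .c 4 q10 (.c 7 q50 .e)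
noncomputable def t41 : Tr := .c 1 r71 (.c 5 r13 (.c 7 r68 .e))
noncomputable def q56 : Tr := .c 1 (.l 31) (.c 7 (.l 0) .e)
noncomputable def q57 : Tr := .c 1 (.l 0) .e
noncomputable def r72 : Tr := .c 4 q56 (.c 7 q57 .e)
noncomputable def q58 : Tr := .c 1 (.l 0) (.c 7 (.l 0) .e)
noncomputable def r73 : Tr := .c 0 q10 (.c 1 q10 (.c 2 q10 (.c 3 q10 (.c 4 q58 .e))))
noncomputable def t42 : Tr := .c 1 r72 (.c 7 r73 .e)
noncomputable def q59 : Tr := .c 1 (.l 32) .e
noncomputable def r74 : Tr := .c 7 q59 .e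
noncomputable def q60 : Tr := .c 1 (.l 0) (.c 5 (.l 0) (.c 7 (.l 0) .e))
noncomputable def r75 : Tr := .c 4 q60 (.c 7 q59 .e)
noncomputable def r76 : Tr := .c 3 q36 (.c 7 q59 .e)
noncomputable def r77 : Tr := .c 2 q6 (.c 7 q59 .e)
noncomputable def r78 : Tr := .c 1 q36 (.c 7 q59 .e)
noncomputable def t43 : Tr := .c 0 r74 (.c 1 r75 (.c 2 r76 (.c 3 r77 (.c 4 r78 .e))))
noncomputable def r79 : Tr := .c 7 q57 .e
noncomputable def t44 : Tr := .c 3 r79 (.c 7 r46 .e)
noncomputable def t45 : Tr := .c 1 r79 (.c 7 r46 .e)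
noncomputable def q61 : Tr := .c 1 (.l 0) (.c 5 (.l 0) .e)
noncomputable def r80 : Tr := .c 2 q4 (.c 4 q61 .e)
noncomputable def t46 : Tr := .c 7 r80 .e
noncomputable def q62 : Tr := .c 1 (.l 3) .e
noncomputable def r81 : Tr := .c 1 q8 (.c 7 q62 .e)
noncomputable def r82 : Tr := .c 1 q8 (.c 2 q6 (.c 3 q9 (.c 4 q60 .e)))
noncomputable def t47 : Tr := .c 4 r81 (.c 6 r11 (.c 7 r82 .e))
noncomputable def r83 : Tr := .c 2 q10 (.c 6 q57 (.c 7 q57 .e))
noncomputable def r84 : Tr := .c 1 q10 (.c 2 q10 (.c 3 q10 (.c 4 q58 .e)))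
noncomputable def t48 : Tr := .c 3 r83 (.c 7 r84 .e)
noncomputable def r85 : Tr := .c 3 q11 (.c 7 q62 .e)
noncomputable def r86 : Tr := .c 1 q12 (.c 2 q6 (.c 3 q11 (.c 4 q60 .e)))
noncomputable def t49 : Tr := .c 2 r85 (.c 6 r15 (.c 7 r86 .e))
noncomputable def r87 : Tr := .c 4 q58 (.c 6 q57 (.c 7 q57 .e))
noncomputable def t50 : Tr := .c 1 r87 (.c 7 r84 .e)
noncomputable def q63 : Tr := .c 0 (.l 9) .e
noncomputable def r88 : Tr := .c 5 q63 (.c 6 q63 .e)
noncomputable def t51 : Tr := .c 0 r88 .e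
noncomputable def q64 : Tr := .c 0 (.l 9) (.c 2 (.l 9) (.c 4 (.l 9) (.c 6 (.l 9) .e)))
noncomputable def r89 : Tr := .c 5 q64 (.c 6 q63 .e)
noncomputable def r90 : Tr := .c 6 q63 .e
noncomputable def q65 : Tr := .c 6 (.l 11) .e
noncomputable def r91 : Tr := .c 0 q65 (.c 6 q63 .e)
noncomputable def t52 : Tr := .c 0 r89 (.c 1 r90 (.c 3 r90 (.c 5 r91 .e)))
noncomputable def q66 : Tr := .c 2 (.l 9) (.c 4 (.l 9) (.c 6 (.l 9) .e))
noncomputable def r92 : Tr := .c 5 q66 .e
noncomputable def t53 : Tr := .c 0 r92 .e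
noncomputable def r93 : Tr := .c 1 q14 (.c 3 q41 .e)
noncomputable def t54 : Tr := .c 7 r93 .e
noncomputable def r94 : Tr := .c 6 q63 (.c 7 q63 .e)
noncomputable def t55 : Tr := .c 0 r94 .e
noncomputable def q67 : Tr := .c 2 (.l 9) (.c 4 (.l 9) .e)
noncomputable def r95 : Tr := .c 7 q67 .e
noncomputable def t56 : Tr := .c 0 r95 (.c 1 r95 (.c 3 r95 .e))
noncomputable def q68 : Tr := .c 0 (.l 17) .e
noncomputable def r96 : Tr := .c 0 q1 (.c 6 q68 .e)
noncomputable def t57 : Tr := .c 5 r96 (.c 7 r26 .e)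
noncomputable def q69 : Tr := .c 0 (.l 9) (.c 1 (.l 9) (.c 3 (.l 9) (.c 5 (.l 9) .e)))
noncomputable def r97 : Tr := .c 5 q63 (.c 6 q69 .e)
noncomputable def r98 : Tr := .c 5 q63 .e
noncomputable def q70 : Tr := .c 5 (.l 33) .e
noncomputable def r99 : Tr := .c 0 q70 (.c 5 q63 .e)
noncomputable def t58 : Tr := .c 0 r97 (.c 2 r98 (.c 4 r98 (.c 6 r99 .e)))
noncomputable def q71 : Tr := .c 0 (.l 34) .e
noncomputable def r100 : Tr := .c 5 q63 (.c 6 q71 .e)
noncomputable def t59 : Tr := .c 0 r100 .e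
noncomputable def q72 : Tr := .c 1 (.l 9) (.c 3 (.l 9) (.c 5 (.l 9) .e))
noncomputable def r101 : Tr := .c 6 q72 .e
noncomputable def t60 : Tr := .c 0 r101 .e
noncomputable def r102 : Tr := .c 2 q33 (.c 4 q57 .e)
noncomputable def t61 : Tr := .c 7 r102 .e
noncomputable def r103 : Tr := .c 5 q63 (.c 7 q63 .e)
noncomputable def t62 : Tr := .c 0 r103 .e
noncomputable def q73 : Tr := .c 1 (.l 32) (.c 3 (.l 35) .e)
noncomputable def r104 : Tr := .c 7 q73 .e
noncomputable def t63 : Tr := .c 0 r104 (.c 2 r104 (.c 4 r104 .e))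
noncomputable def q74 : Tr := .c 1 (.l 36) (.c 3 (.l 21) .e)
noncomputable def r105 : Tr := .c 7 q74 .e
noncomputable def t64 : Tr := .c 0 r105 (.c 2 r105 (.c 4 r105 .e))
noncomputable def q75 : Tr := .c 0 (.l 37) .e
noncomputable def r106 : Tr := .c 0 q4 (.c 5 q75 .e)
noncomputable def t65 : Tr := .c 6 r106 (.c 7 r44 .e)
noncomputable def t66 : Tr := .c 2 r98 (.c 4 r98 (.c 6 r98 .e))
noncomputable def t67 : Tr := .c 1 r90 (.c 3 r90 (.c 5 r90 .e))
noncomputable def q76 : Tr := .c 1 (.l 38) .e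
noncomputable def q77 : Tr := .c 1 (.l 38) (.c 3 (.l 39) .e)
noncomputable def r107 : Tr := .c 4 q76 (.c 6 q77 .e)
noncomputable def r108 : Tr := .c 3 q41 (.c 5 q67 .e)
noncomputable def q78 : Tr := .c 3 (.l 40) .e
noncomputable def q79 : Tr := .c 1 (.l 41) (.c 3 (.l 40) .e)
noncomputable def r109 : Tr := .c 2 q78 (.c 6 q79 .e)
noncomputable def r110 : Tr := .c 1 q14 (.c 5 q67 .e)
noncomputable def t68 : Tr := .c 1 r107 (.c 2 r108 (.c 3 r109 (.c 4 r110 .e)))
noncomputable def q80 : Tr := .c 0 (.l 42) (.c 1 (.l 42) (.c 2 (.l 42) (.c 3 (.l 42) (.c 4 (.l 42)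
.e))))
noncomputable def r111 : Tr := .c 4 q57 (.c 7 q80 .e)
noncomputable def q81 : Tr := .c 4 (.l 37) .e
noncomputable def q82 : Tr := .c 2 (.l 37) .e
noncomputable def r112 : Tr := .c 1 q81 (.c 2 q33 (.c 3 q82 (.c 4 q57 .e)))
noncomputable def t69 : Tr := .c 1 r111 (.c 5 r102 (.c 7 r112 .e))
noncomputable def q83 : Tr := .c 0 (.l 42) (.c 2 (.l 42) (.c 4 (.l 42) .e))
noncomputable def r113 : Tr := .c 7 q83 .e
noncomputable def q84 : Tr := .c 0 (.l 43) (.c 2 (.l 43) (.c 4 (.l 43) .e))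
noncomputable def r114 : Tr := .c 7 q84 .e
noncomputable def t70 : Tr := .c 1 r113 (.c 3 r114 .e)
noncomputable def q85 : Tr := .c 1 (.l 44) (.c 2 (.l 42) (.c 3 (.l 45) (.c 4 (.l 42) .e)))
noncomputable def r115 : Tr := .c 4 q76 (.c 7 q85 .e)
noncomputable def q86 : Tr := .c 1 (.l 32) (.c 2 (.l 9) (.c 3 (.l 35) (.c 4 (.l 9) .e)))
noncomputable def r116 : Tr := .c 3 q41 (.c 5 q67 (.c 7 q86 .e))
noncomputable def q87 : Tr := .c 1 (.l 46) (.c 2 (.l 43) (.c 3 (.l 47) (.c 4 (.l 43) .e)))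
noncomputable def r117 : Tr := .c 2 q78 (.c 7 q87 .e)
noncomputable def r118 : Tr := .c 1 q14 (.c 5 q67 (.c 7 q86 .e))
noncomputable def t71 : Tr := .c 1 r115 (.c 2 r116 (.c 3 r117 (.c 4 r118 .e)))
noncomputable def q88 : Tr := .c 0 (.l 9) (.c 1 (.l 9) (.c 2 (.l 9) (.c 3 (.l 9) (.c 4 (.l 9)
.e))))
noncomputable def r119 : Tr := .c 3 q41 (.c 7 q88 .e)
noncomputable def q89 : Tr := .c 3 (.l 33) .e
noncomputable def q90 : Tr := .c 1 (.l 33) .e
noncomputable def r120 : Tr := .c 1 q14 (.c 2 q89 (.c 3 q41 (.c 4 q90 .e)))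
noncomputable def t72 : Tr := .c 2 r119 (.c 6 r93 (.c 7 r120 .e))
noncomputable def q91 : Tr := .c 0 (.l 9) (.c 1 (.l 9) (.c 3 (.l 9) .e))
noncomputable def r121 : Tr := .c 7 q91 .e
noncomputable def t73 : Tr := .c 2 r121 (.c 4 r121 .e)
noncomputable def q92 : Tr := .c 1 (.l 38) (.c 2 (.l 9) (.c 3 (.l 39) (.c 4 (.l 9) .e)))
noncomputable def r122 : Tr := .c 4 q76 (.c 6 q77 (.c 7 q92 .e))
noncomputable def q93 : Tr := .c 1 (.l 9) (.c 2 (.l 9) (.c 3 (.l 9) (.c 4 (.l 9) .e)))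
noncomputable def r123 : Tr := .c 3 q41 (.c 7 q93 .e)
noncomputable def q94 : Tr := .c 1 (.l 41) (.c 2 (.l 9) (.c 3 (.l 40) (.c 4 (.l 9) .e)))
noncomputable def r124 : Tr := .c 2 q78 (.c 6 q79 (.c 7 q94 .e))
noncomputable def r125 : Tr := .c 1 q14 (.c 7 q93 .e)
noncomputable def t74 : Tr := .c 1 r122 (.c 2 r123 (.c 3 r124 (.c 4 r125 .e)))
noncomputable def q95 : Tr := .c 0 (.l 48) (.c 1 (.l 48) (.c 2 (.l 48) (.c 3 (.l 48) (.c 4 (.l 48)
.e))))
noncomputable def r126 : Tr := .c 2 q33 (.c 7 q95 .e)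
noncomputable def t75 : Tr := .c 3 r126 (.c 5 r102 (.c 7 r112 .e))
noncomputable def q96 : Tr := .c 0 (.l 49) (.c 2 (.l 49) (.c 4 (.l 49) .e))
noncomputable def r127 : Tr := .c 7 q96 .e
noncomputable def q97 : Tr := .c 0 (.l 48) (.c 2 (.l 48) (.c 4 (.l 48) .e))
noncomputable def r128 : Tr := .c 7 q97 .e
noncomputable def t76 : Tr := .c 1 r127 (.c 3 r128 .e)
noncomputable def q98 : Tr := .c 1 (.l 50) (.c 2 (.l 49) (.c 3 (.l 51) (.c 4 (.l 49) .e)))
noncomputable def r129 : Tr := .c 4 q76 (.c 7 q98 .e)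
noncomputable def q99 : Tr := .c 1 (.l 36) (.c 2 (.l 9) (.c 3 (.l 21) (.c 4 (.l 9) .e)))
noncomputable def r130 : Tr := .c 3 q41 (.c 5 q67 (.c 7 q99 .e))
noncomputable def q100 : Tr := .c 1 (.l 52) (.c 2 (.l 48) (.c 3 (.l 53) (.c 4 (.l 48) .e)))
noncomputable def r131 : Tr := .c 2 q78 (.c 7 q100 .e)
noncomputable def r132 : Tr := .c 1 q14 (.c 5 q67 (.c 7 q99 .e))
noncomputable def t77 : Tr := .c 1 r129 (.c 2 r130 (.c 3 r131 (.c 4 r132 .e)))
noncomputable def r133 : Tr := .c 1 q14 (.c 7 q88 .e)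
noncomputable def t78 : Tr := .c 4 r133 (.c 6 r93 (.c 7 r120 .e))

/-- the diagram -/
noncomputable def T : Tr := (.c 0 (.c 5 (.c 0 t0 (.c 2 t1 (.c 4 t1 (.c 6 t2 .e)))) (.c 6 (.c 0 t3 (.c 1 t4 (.c 3 t4 (.c 5
t5 .e)))) (.c 7 (.c 0 t6 (.c 1 t7 (.c 2 t8 (.c 3 t9 (.c 4 t10 .e))))) .e))) (.c 1 (.c 4 (.c 1
t11 (.c 5 t12 (.c 7 t13 .e))) (.c 6 (.c 0 t14 (.c 1 t15 (.c 3 t16 .e))) (.c 7 (.c 0 t17 (.c 1
t18 (.c 2 t19 (.c 3 t20 (.c 4 t21 .e))))) .e))) (.c 2 (.c 3 (.c 2 t22 (.c 6 t23 (.c 7 t24 .e)))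
(.c 5 (.c 0 t25 (.c 2 t26 (.c 4 t27 .e))) (.c 7 (.c 0 t28 (.c 1 t29 (.c 2 t30 (.c 3 t31 (.c 4
t32 .e))))) .e))) (.c 3 (.c 2 (.c 3 t33 (.c 5 t12 (.c 7 t34 .e))) (.c 6 (.c 0 t14 (.c 1 t35 (.c
3 t36 .e))) (.c 7 (.c 0 t37 (.c 1 t38 (.c 2 t39 (.c 3 t40 (.c 4 t41 .e))))) .e))) (.c 4 (.c 1
(.c 4 t42 (.c 6 t23 (.c 7 t43 .e))) (.c 5 (.c 0 t25 (.c 2 t44 (.c 4 t45 .e))) (.c 7 (.c 0 t46
(.c 1 t47 (.c 2 t48 (.c 3 t49 (.c 4 t50 .e))))) .e))) (.c 5 (.c 0 (.c 5 t51 (.c 6 t52 (.c 7 t53
.e))) (.c 2 (.c 3 t54 (.c 5 t55 (.c 7 t56 .e))) (.c 4 (.c 1 t54 (.c 5 t55 (.c 7 t56 .e))) (.c 6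
(.c 0 t57 (.c 5 t55 .e)) .e)))) (.c 6 (.c 0 (.c 5 t58 (.c 6 t59 (.c 7 t60 .e))) (.c 1 (.c 4 t61
(.c 6 t62 (.c 7 t63 .e))) (.c 3 (.c 2 t61 (.c 6 t62 (.c 7 t64 .e))) (.c 5 (.c 0 t65 (.c 6 t62
.e)) .e)))) (.c 7 (.c 0 (.c 5 t66 (.c 6 t67 (.c 7 t68 .e))) (.c 1 (.c 4 t69 (.c 6 t70 (.c 7 t71
.e))) (.c 2 (.c 3 t72 (.c 5 t73 (.c 7 t74 .e))) (.c 3 (.c 2 t75 (.c 6 t76 (.c 7 t77 .e))) (.c 4
(.c 1 t78 (.c 5 t73 (.c 7 t74 .e))) .e))))) .e))))))))

theorem k0 : chkQ0 D J R 54 T = true := by decide +kernel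
theorem c0 : csP D J T 0 = true := by decide +kernel
theorem c1 : csP D J T 1 = true := by decide +kernel
theorem c2 : csP D J T 2 = true := by decide +kernel
theorem c3 : csP D J T 3 = true := by decide +kernel
theorem c4 : csP D J T 4 = true := by decide +kernel
theorem c5 : csP D J T 5 = true := by decide +kernel
theorem c6 : csP D J T 6 = true := by decide +kernel
theorem c7 : csP D J T 7 = true := by decide +kernel
theorem c8 : csP D J T 8 = true := by decide +kernel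
theorem c9 : csP D J T 9 = true := by decide +kernel
theorem c10 : csP D J T 10 = true := by decide +kernel
theorem c11 : csP D J T 11 = true := by decide +kernel
theorem c12 : csP D J T 12 = true := by decide +kernel
theorem c13 : csP D J T 13 = true := by decide +kernel
theorem c14 : csP D J T 14 = true := by decide +kernel
theorem c15 : csP D J T 15 = true := by decide +kernel
theorem c16 : csP D J T 16 = true := by decide +kernel

theorem cs : ∀ p < D.N, csP D J T p = true := by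
  intro p hp
  have hp : p < 17 := hp
  interval_cases p
  · exact c0
  · exact c1
  · exact c2
  · exact c3
  · exact c4
  · exact c5
  · exact c6
  · exact c7
  · exact c8
  · exact c9
  · exact c10
  · exact c11
  · exact c12
  · exact c13
  · exact c14
  · exact c15
  · exact c16

/-- the box table -/
theorem tab : BoxTab D := boxTab_of (by decide) (by decide) k0 cs

end C32a

/-! ### 01 02 03 12 13 24 35 45 (7|56: 56 never) -/

namespace C32b

/-- the data -/
def D : Dat where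
  A := 8
  N := 17
  nb := [224, 208, 168, 196, 162, 85, 43, 31]
  op := [127, 191, 223, 191, 223, 171, 213, 254]
  nbT := [65760, 32976, 82088, 4292, 67746, 37461, 18731, 10015, 102592, 84128, 114816, 45648, 92456,
71808, 38468, 85282, 46869]
  opT := [65407, 98239, 49119, 126911, 63455, 93611, 112341, 121086, 130879, 130911, 130943, 130991,
131031, 130943, 131003, 131037, 131050]
  PL := [[0], [1], [2], [3], [4], [5], [6], [7], [0, 1, 3], [0, 2, 4], [1, 2], [1, 5], [2, 6], [3, 4],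
[3, 5], [4, 6], [5, 7]]
  L := [3, 5, 9, 6, 10, 20, 40, 48]
  P := [3, 5, 9, 6, 10, 20, 40, 48, 7, 11, 13, 21, 41, 14, 22, 42, 52]
  r := 0
  tie := [0, 0, 0, 0, 0, 0, 0, 0, 0, 0, 0, 0, 0, 0, 0, 0, 0]

/-- changes of the value at a tie -/
def J : List (List ℕ) := [[]]

/-- reachable values -/
def R : List (List ℕ) := [[1], [2], [4], [8], [0x10], [0x20], [0x40], [0x80], [0x100], [0x200], [0x400], [0x800],
[0x1000], [0x2000], [0x4000], [0x8000], [0x10000], [0x20000], [0x40000], [0x80000], [0x100000],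
[0x200000], [0x400000], [0x800000], [0x1000000], [0x2000000], [0x4000000], [0x8000000]]

noncomputable def q0 : Tr := .c 5 (.l 0) (.c 6 (.l 1) .e)
noncomputable def r0 : Tr := .c 0 q0 .e
noncomputable def q1 : Tr := .c 5 (.l 2) (.c 6 (.l 3) .e)
noncomputable def q2 : Tr := .c 6 (.l 3) .e
noncomputable def r1 : Tr := .c 0 q1 (.c 1 q2 (.c 3 q2 (.c 5 q2 .e)))
noncomputable def t0 : Tr := .c 5 r0 (.c 6 r1 .e)
noncomputable def q3 : Tr := .c 6 (.l 1) (.c 7 (.l 0) .e)
noncomputable def r2 : Tr := .c 0 q3 .e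
noncomputable def t1 : Tr := .c 5 r2 .e
noncomputable def q4 : Tr := .c 6 (.l 4) .e
noncomputable def r3 : Tr := .c 5 q4 .e
noncomputable def t2 : Tr := .c 0 r3 (.c 5 r2 .e)
noncomputable def q5 : Tr := .c 5 (.l 5) (.c 6 (.l 6) .e)
noncomputable def q6 : Tr := .c 5 (.l 5) .e
noncomputable def r4 : Tr := .c 0 q5 (.c 2 q6 (.c 4 q6 (.c 6 q6 .e)))
noncomputable def q7 : Tr := .c 5 (.l 7) (.c 6 (.l 8) .e)
noncomputable def r5 : Tr := .c 0 q7 .e
noncomputable def t3 : Tr := .c 5 r4 (.c 6 r5 .e)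
noncomputable def q8 : Tr := .c 5 (.l 7) (.c 7 (.l 7) .e)
noncomputable def r6 : Tr := .c 0 q8 .e
noncomputable def t4 : Tr := .c 6 r6 .e
noncomputable def q9 : Tr := .c 5 (.l 9) .e
noncomputable def r7 : Tr := .c 6 q9 .e
noncomputable def t5 : Tr := .c 0 r7 (.c 6 r6 .e)
noncomputable def q10 : Tr := .c 5 (.l 0) .e
noncomputable def r8 : Tr := .c 2 q10 (.c 4 q10 (.c 6 q10 .e))
noncomputable def r9 : Tr := .c 1 q2 (.c 3 q2 (.c 5 q2 .e))
noncomputable def t6 : Tr := .c 5 r8 (.c 6 r9 .e)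
noncomputable def q11 : Tr := .c 7 (.l 2) .e
noncomputable def r10 : Tr := .c 1 q11 .e
noncomputable def r11 : Tr := .c 1 q11 (.c 3 q11 .e)
noncomputable def t7 : Tr := .c 4 r10 (.c 6 r11 .e)
noncomputable def q12 : Tr := .c 7 (.l 0) .e
noncomputable def r12 : Tr := .c 2 q12 .e
noncomputable def r13 : Tr := .c 2 q12 (.c 4 q12 .e)
noncomputable def t8 : Tr := .c 3 r12 (.c 5 r13 .e)
noncomputable def r14 : Tr := .c 3 q11 .e
noncomputable def t9 : Tr := .c 2 r14 (.c 6 r11 .e)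
noncomputable def r15 : Tr := .c 4 q12 .e
noncomputable def t10 : Tr := .c 1 r15 (.c 5 r13 .e)
noncomputable def q13 : Tr := .c 4 (.l 10) (.c 7 (.l 7) .e)
noncomputable def q14 : Tr := .c 4 (.l 11) .e
noncomputable def r16 : Tr := .c 1 q13 (.c 7 q14 .e)
noncomputable def q15 : Tr := .c 7 (.l 5) .e
noncomputable def q16 : Tr := .c 4 (.l 6) (.c 7 (.l 5) .e)
noncomputable def r17 : Tr := .c 0 q15 (.c 1 q16 (.c 2 q15 (.c 3 q15 (.c 4 q15 .e))))
noncomputable def t11 : Tr := .c 4 r16 (.c 7 r17 .e)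
noncomputable def q17 : Tr := .c 7 (.l 7) .e
noncomputable def r18 : Tr := .c 3 q17 .e
noncomputable def r19 : Tr := .c 1 q17 .e
noncomputable def t12 : Tr := .c 2 r18 (.c 4 r19 .e)
noncomputable def r20 : Tr := .c 7 q14 .e
noncomputable def q18 : Tr := .c 7 (.l 9) .e
noncomputable def r21 : Tr := .c 4 q18 (.c 7 q14 .e)
noncomputable def q19 : Tr := .c 6 (.l 11) (.c 7 (.l 7) .e)
noncomputable def r22 : Tr := .c 3 q19 (.c 7 q14 .e)
noncomputable def r23 : Tr := .c 2 q18 (.c 7 q14 .e)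
noncomputable def q20 : Tr := .c 4 (.l 11) (.c 6 (.l 11) (.c 7 (.l 7) .e))
noncomputable def r24 : Tr := .c 1 q20 (.c 7 q14 .e)
noncomputable def t13 : Tr := .c 0 r20 (.c 1 r21 (.c 2 r22 (.c 3 r23 (.c 4 r24 .e))))
noncomputable def q21 : Tr := .c 6 (.l 6) .e
noncomputable def r25 : Tr := .c 0 q21 .e
noncomputable def t14 : Tr := .c 5 r25 (.c 7 r25 .e)
noncomputable def r26 : Tr := .c 0 q15 (.c 2 q15 (.c 4 q15 .e))
noncomputable def t15 : Tr := .c 4 r20 (.c 7 r26 .e)
noncomputable def t16 : Tr := .c 2 r20 (.c 7 r26 .e)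
noncomputable def q22 : Tr := .c 4 (.l 1) (.c 6 (.l 1) .e)
noncomputable def q23 : Tr := .c 6 (.l 1) .e
noncomputable def r27 : Tr := .c 1 q22 (.c 3 q23 .e)
noncomputable def t17 : Tr := .c 7 r27 .e
noncomputable def q24 : Tr := .c 4 (.l 3) (.c 7 (.l 2) .e)
noncomputable def q25 : Tr := .c 4 (.l 3) .e
noncomputable def r28 : Tr := .c 1 q24 (.c 5 q25 (.c 7 q25 .e))
noncomputable def q26 : Tr := .c 4 (.l 1) (.c 7 (.l 12) .e)
noncomputable def q27 : Tr := .c 7 (.l 12) .e
noncomputable def r29 : Tr := .c 1 q26 (.c 2 q12 (.c 3 q27 (.c 4 q12 .e)))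
noncomputable def t18 : Tr := .c 4 r28 (.c 7 r29 .e)
noncomputable def q28 : Tr := .c 4 (.l 4) .e
noncomputable def r30 : Tr := .c 2 q12 (.c 7 q28 .e)
noncomputable def q29 : Tr := .c 4 (.l 1) (.c 6 (.l 1) (.c 7 (.l 0) .e))
noncomputable def r31 : Tr := .c 1 q29 (.c 2 q12 (.c 3 q3 (.c 4 q12 .e)))
noncomputable def t19 : Tr := .c 3 r30 (.c 5 r13 (.c 7 r31 .e))
noncomputable def r32 : Tr := .c 3 q11 (.c 5 q25 (.c 7 q25 .e))
noncomputable def t20 : Tr := .c 2 r32 (.c 7 r29 .e)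
noncomputable def r33 : Tr := .c 4 q12 (.c 7 q28 .e)
noncomputable def t21 : Tr := .c 1 r33 (.c 5 r13 (.c 7 r31 .e))
noncomputable def q30 : Tr := .c 3 (.l 13) (.c 7 (.l 0) .e)
noncomputable def q31 : Tr := .c 3 (.l 14) .e
noncomputable def r34 : Tr := .c 2 q30 (.c 7 q31 .e)
noncomputable def q32 : Tr := .c 3 (.l 0) (.c 7 (.l 0) .e)
noncomputable def r35 : Tr := .c 0 q12 (.c 1 q12 (.c 2 q32 (.c 3 q12 (.c 4 q12 .e))))
noncomputable def t22 : Tr := .c 3 r34 (.c 7 r35 .e)
noncomputable def t23 : Tr := .c 1 r15 (.c 3 r12 .e)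
noncomputable def q33 : Tr := .c 3 (.l 15) .e
noncomputable def r36 : Tr := .c 7 q33 .e
noncomputable def q34 : Tr := .c 5 (.l 16) (.c 7 (.l 16) .e)
noncomputable def r37 : Tr := .c 4 q34 (.c 7 q33 .e)
noncomputable def q35 : Tr := .c 7 (.l 17) .e
noncomputable def r38 : Tr := .c 3 q35 (.c 7 q33 .e)
noncomputable def q36 : Tr := .c 3 (.l 16) (.c 5 (.l 16) (.c 7 (.l 16) .e))
noncomputable def r39 : Tr := .c 2 q36 (.c 7 q33 .e)
noncomputable def r40 : Tr := .c 1 q35 (.c 7 q33 .e)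
noncomputable def t24 : Tr := .c 0 r36 (.c 1 r37 (.c 2 r38 (.c 3 r39 (.c 4 r40 .e))))
noncomputable def q37 : Tr := .c 5 (.l 2) .e
noncomputable def r41 : Tr := .c 0 q37 .e
noncomputable def r42 : Tr := .c 0 q10 .e
noncomputable def t25 : Tr := .c 6 r41 (.c 7 r42 .e)
noncomputable def r43 : Tr := .c 7 q31 .e
noncomputable def r44 : Tr := .c 0 q12 (.c 1 q12 (.c 3 q12 .e))
noncomputable def t26 : Tr := .c 3 r43 (.c 7 r44 .e)
noncomputable def t27 : Tr := .c 1 r43 (.c 7 r44 .e)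
noncomputable def q38 : Tr := .c 3 (.l 0) (.c 5 (.l 0) .e)
noncomputable def r45 : Tr := .c 2 q38 (.c 4 q10 .e)
noncomputable def t28 : Tr := .c 7 r45 .e
noncomputable def q39 : Tr := .c 3 (.l 18) .e
noncomputable def r46 : Tr := .c 1 q11 (.c 7 q39 .e)
noncomputable def q40 : Tr := .c 3 (.l 0) (.c 5 (.l 0) (.c 7 (.l 0) .e))
noncomputable def q41 : Tr := .c 5 (.l 0) (.c 7 (.l 0) .e)
noncomputable def r47 : Tr := .c 1 q12 (.c 2 q40 (.c 3 q12 (.c 4 q41 .e)))
noncomputable def t29 : Tr := .c 4 r46 (.c 6 r11 (.c 7 r47 .e))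
noncomputable def q42 : Tr := .c 3 (.l 0) .e
noncomputable def r48 : Tr := .c 2 q32 (.c 6 q42 (.c 7 q31 .e))
noncomputable def r49 : Tr := .c 1 q12 (.c 2 q32 (.c 3 q12 (.c 4 q12 .e)))
noncomputable def t30 : Tr := .c 3 r48 (.c 7 r49 .e)
noncomputable def r50 : Tr := .c 3 q11 (.c 7 q39 .e)
noncomputable def t31 : Tr := .c 2 r50 (.c 6 r11 (.c 7 r47 .e))
noncomputable def r51 : Tr := .c 4 q12 (.c 6 q42 (.c 7 q31 .e))
noncomputable def t32 : Tr := .c 1 r51 (.c 7 r49 .e)
noncomputable def q43 : Tr := .c 2 (.l 19) (.c 7 (.l 7) .e)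
noncomputable def q44 : Tr := .c 2 (.l 11) .e
noncomputable def r52 : Tr := .c 3 q43 (.c 7 q44 .e)
noncomputable def q45 : Tr := .c 2 (.l 6) (.c 7 (.l 5) .e)
noncomputable def r53 : Tr := .c 0 q15 (.c 1 q15 (.c 2 q15 (.c 3 q45 (.c 4 q15 .e))))
noncomputable def t33 : Tr := .c 2 r52 (.c 7 r53 .e)
noncomputable def r54 : Tr := .c 7 q44 .e
noncomputable def r55 : Tr := .c 4 q18 (.c 7 q44 .e)
noncomputable def q46 : Tr := .c 2 (.l 11) (.c 6 (.l 11) (.c 7 (.l 7) .e))
noncomputable def r56 : Tr := .c 3 q46 (.c 7 q44 .e)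
noncomputable def r57 : Tr := .c 2 q18 (.c 7 q44 .e)
noncomputable def r58 : Tr := .c 1 q19 (.c 7 q44 .e)
noncomputable def t34 : Tr := .c 0 r54 (.c 1 r55 (.c 2 r56 (.c 3 r57 (.c 4 r58 .e))))
noncomputable def t35 : Tr := .c 4 r54 (.c 7 r26 .e)
noncomputable def t36 : Tr := .c 2 r54 (.c 7 r26 .e)
noncomputable def q47 : Tr := .c 2 (.l 1) (.c 6 (.l 1) .e)
noncomputable def r59 : Tr := .c 1 q23 (.c 3 q47 .e)
noncomputable def t37 : Tr := .c 7 r59 .e
noncomputable def q48 : Tr := .c 2 (.l 3) .e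
noncomputable def r60 : Tr := .c 1 q11 (.c 5 q48 (.c 7 q48 .e))
noncomputable def q49 : Tr := .c 2 (.l 1) (.c 7 (.l 12) .e)
noncomputable def r61 : Tr := .c 1 q27 (.c 2 q12 (.c 3 q49 (.c 4 q12 .e)))
noncomputable def t38 : Tr := .c 4 r60 (.c 7 r61 .e)
noncomputable def q50 : Tr := .c 2 (.l 4) .e
noncomputable def r62 : Tr := .c 2 q12 (.c 7 q50 .e)
noncomputable def q51 : Tr := .c 2 (.l 1) (.c 6 (.l 1) (.c 7 (.l 0) .e))
noncomputable def r63 : Tr := .c 1 q3 (.c 2 q12 (.c 3 q51 (.c 4 q12 .e)))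
noncomputable def t39 : Tr := .c 3 r62 (.c 5 r13 (.c 7 r63 .e))
noncomputable def q52 : Tr := .c 2 (.l 3) (.c 7 (.l 2) .e)
noncomputable def r64 : Tr := .c 3 q52 (.c 5 q48 (.c 7 q48 .e))
noncomputable def t40 : Tr := .c 2 r64 (.c 7 r61 .e)
noncomputable def r65 : Tr := .c 4 q12 (.c 7 q50 .e)
noncomputable def t41 : Tr := .c 1 r65 (.c 5 r13 (.c 7 r63 .e))
noncomputable def q53 : Tr := .c 1 (.l 20) (.c 7 (.l 0) .e)
noncomputable def q54 : Tr := .c 1 (.l 14) .e
noncomputable def r66 : Tr := .c 4 q53 (.c 7 q54 .e)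
noncomputable def q55 : Tr := .c 1 (.l 0) (.c 7 (.l 0) .e)
noncomputable def r67 : Tr := .c 0 q12 (.c 1 q12 (.c 2 q12 (.c 3 q12 (.c 4 q55 .e))))
noncomputable def t42 : Tr := .c 1 r66 (.c 7 r67 .e)
noncomputable def q56 : Tr := .c 1 (.l 15) .e
noncomputable def r68 : Tr := .c 7 q56 .e
noncomputable def q57 : Tr := .c 1 (.l 16) (.c 5 (.l 16) (.c 7 (.l 16) .e))
noncomputable def r69 : Tr := .c 4 q57 (.c 7 q56 .e)
noncomputable def r70 : Tr := .c 3 q35 (.c 7 q56 .e)
noncomputable def r71 : Tr := .c 2 q34 (.c 7 q56 .e)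
noncomputable def r72 : Tr := .c 1 q35 (.c 7 q56 .e)
noncomputable def t43 : Tr := .c 0 r68 (.c 1 r69 (.c 2 r70 (.c 3 r71 (.c 4 r72 .e))))
noncomputable def r73 : Tr := .c 7 q54 .e
noncomputable def t44 : Tr := .c 3 r73 (.c 7 r44 .e)
noncomputable def t45 : Tr := .c 1 r73 (.c 7 r44 .e)
noncomputable def q58 : Tr := .c 1 (.l 0) (.c 5 (.l 0) .e)
noncomputable def r74 : Tr := .c 2 q10 (.c 4 q58 .e)
noncomputable def t46 : Tr := .c 7 r74 .e
noncomputable def q59 : Tr := .c 1 (.l 18) .e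
noncomputable def r75 : Tr := .c 1 q11 (.c 7 q59 .e)
noncomputable def q60 : Tr := .c 1 (.l 0) (.c 5 (.l 0) (.c 7 (.l 0) .e))
noncomputable def r76 : Tr := .c 1 q12 (.c 2 q41 (.c 3 q12 (.c 4 q60 .e)))
noncomputable def t47 : Tr := .c 4 r75 (.c 6 r11 (.c 7 r76 .e))
noncomputable def q61 : Tr := .c 1 (.l 0) .e
noncomputable def r77 : Tr := .c 2 q12 (.c 6 q61 (.c 7 q54 .e))
noncomputable def r78 : Tr := .c 1 q12 (.c 2 q12 (.c 3 q12 (.c 4 q55 .e)))
noncomputable def t48 : Tr := .c 3 r77 (.c 7 r78 .e)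
noncomputable def r79 : Tr := .c 3 q11 (.c 7 q59 .e)
noncomputable def t49 : Tr := .c 2 r79 (.c 6 r11 (.c 7 r76 .e))
noncomputable def r80 : Tr := .c 4 q55 (.c 6 q61 (.c 7 q54 .e))
noncomputable def t50 : Tr := .c 1 r80 (.c 7 r78 .e)
noncomputable def q62 : Tr := .c 0 (.l 11) .e
noncomputable def q63 : Tr := .c 0 (.l 21) .e
noncomputable def r81 : Tr := .c 5 q62 (.c 6 q63 .e)
noncomputable def t51 : Tr := .c 0 r81 .e
noncomputable def q64 : Tr := .c 0 (.l 22) (.c 2 (.l 22) (.c 4 (.l 22) (.c 6 (.l 22) .e)))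
noncomputable def q65 : Tr := .c 0 (.l 23) .e
noncomputable def r82 : Tr := .c 5 q64 (.c 6 q65 .e)
noncomputable def r83 : Tr := .c 6 q65 .e
noncomputable def q66 : Tr := .c 6 (.l 24) .e
noncomputable def r84 : Tr := .c 0 q66 (.c 6 q65 .e)
noncomputable def t52 : Tr := .c 0 r82 (.c 1 r83 (.c 3 r83 (.c 5 r84 .e)))
noncomputable def q67 : Tr := .c 2 (.l 11) (.c 4 (.l 11) (.c 6 (.l 11) .e))
noncomputable def r85 : Tr := .c 5 q67 .e
noncomputable def t53 : Tr := .c 0 r85 .e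
noncomputable def q68 : Tr := .c 4 (.l 6) .e
noncomputable def q69 : Tr := .c 2 (.l 6) .e
noncomputable def r86 : Tr := .c 1 q68 (.c 3 q69 .e)
noncomputable def t54 : Tr := .c 7 r86 .e
noncomputable def r87 : Tr := .c 6 q63 (.c 7 q62 .e)
noncomputable def t55 : Tr := .c 0 r87 .e
noncomputable def q70 : Tr := .c 2 (.l 11) (.c 4 (.l 11) .e)
noncomputable def r88 : Tr := .c 7 q70 .e
noncomputable def t56 : Tr := .c 0 r88 (.c 1 r88 (.c 3 r88 .e))
noncomputable def q71 : Tr := .c 0 (.l 25) .e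
noncomputable def r89 : Tr := .c 0 q21 (.c 6 q71 .e)
noncomputable def t57 : Tr := .c 5 r89 (.c 7 r25 .e)
noncomputable def q72 : Tr := .c 0 (.l 15) .e
noncomputable def q73 : Tr := .c 0 (.l 16) (.c 1 (.l 16) (.c 3 (.l 16) (.c 5 (.l 16) .e)))
noncomputable def r90 : Tr := .c 5 q72 (.c 6 q73 .e)
noncomputable def r91 : Tr := .c 5 q72 .e
noncomputable def q74 : Tr := .c 5 (.l 17) .e
noncomputable def r92 : Tr := .c 0 q74 (.c 5 q72 .e)
noncomputable def t58 : Tr := .c 0 r90 (.c 2 r91 (.c 4 r91 (.c 6 r92 .e)))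
noncomputable def q75 : Tr := .c 0 (.l 14) .e
noncomputable def q76 : Tr := .c 0 (.l 26) .e
noncomputable def r93 : Tr := .c 5 q75 (.c 6 q76 .e)
noncomputable def t59 : Tr := .c 0 r93 .e
noncomputable def q77 : Tr := .c 1 (.l 16) (.c 3 (.l 16) (.c 5 (.l 16) .e))
noncomputable def r94 : Tr := .c 6 q77 .e
noncomputable def t60 : Tr := .c 0 r94 .e
noncomputable def r95 : Tr := .c 2 q42 (.c 4 q61 .e)
noncomputable def t61 : Tr := .c 7 r95 .e
noncomputable def r96 : Tr := .c 5 q75 (.c 7 q75 .e)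
noncomputable def t62 : Tr := .c 0 r96 .e
noncomputable def q78 : Tr := .c 1 (.l 15) (.c 3 (.l 15) .e)
noncomputable def r97 : Tr := .c 7 q78 .e
noncomputable def t63 : Tr := .c 0 r97 (.c 2 r97 (.c 4 r97 .e))
noncomputable def q79 : Tr := .c 0 (.l 18) .e
noncomputable def r98 : Tr := .c 0 q37 (.c 5 q79 .e)
noncomputable def t64 : Tr := .c 6 r98 (.c 7 r42 .e)
noncomputable def r99 : Tr := .c 5 q62 .e
noncomputable def t65 : Tr := .c 2 r99 (.c 4 r99 (.c 6 r99 .e))
noncomputable def t66 : Tr := .c 1 r83 (.c 3 r83 (.c 5 r83 .e))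
noncomputable def q80 : Tr := .c 1 (.l 21) .e
noncomputable def q81 : Tr := .c 1 (.l 21) (.c 3 (.l 21) .e)
noncomputable def r100 : Tr := .c 4 q80 (.c 6 q81 .e)
noncomputable def r101 : Tr := .c 3 q44 (.c 5 q70 .e)
noncomputable def q82 : Tr := .c 3 (.l 21) .e
noncomputable def r102 : Tr := .c 2 q82 (.c 6 q81 .e)
noncomputable def r103 : Tr := .c 1 q14 (.c 5 q70 .e)
noncomputable def t67 : Tr := .c 1 r100 (.c 2 r101 (.c 3 r102 (.c 4 r103 .e)))
noncomputable def q83 : Tr := .c 1 (.l 23) .e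
noncomputable def q84 : Tr := .c 0 (.l 22) (.c 1 (.l 22) (.c 2 (.l 22) (.c 3 (.l 22) (.c 4 (.l 22)
.e))))
noncomputable def r104 : Tr := .c 4 q83 (.c 7 q84 .e)
noncomputable def q85 : Tr := .c 3 (.l 23) .e
noncomputable def r105 : Tr := .c 2 q85 (.c 4 q83 .e)
noncomputable def q86 : Tr := .c 4 (.l 24) .e
noncomputable def q87 : Tr := .c 2 (.l 24) .e
noncomputable def r106 : Tr := .c 1 q86 (.c 2 q85 (.c 3 q87 (.c 4 q83 .e)))
noncomputable def t68 : Tr := .c 1 r104 (.c 5 r105 (.c 7 r106 .e))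
noncomputable def q88 : Tr := .c 0 (.l 22) (.c 2 (.l 22) (.c 4 (.l 22) .e))
noncomputable def r107 : Tr := .c 7 q88 .e
noncomputable def t69 : Tr := .c 1 r107 (.c 3 r107 .e)
noncomputable def q89 : Tr := .c 1 (.l 27) (.c 2 (.l 11) (.c 3 (.l 27) (.c 4 (.l 11) .e)))
noncomputable def r108 : Tr := .c 4 q80 (.c 7 q89 .e)
noncomputable def q90 : Tr := .c 1 (.l 11) (.c 2 (.l 11) (.c 3 (.l 11) (.c 4 (.l 11) .e)))
noncomputable def r109 : Tr := .c 3 q44 (.c 5 q70 (.c 7 q90 .e))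
noncomputable def r110 : Tr := .c 2 q82 (.c 7 q89 .e)
noncomputable def r111 : Tr := .c 1 q14 (.c 5 q70 (.c 7 q90 .e))
noncomputable def t70 : Tr := .c 1 r108 (.c 2 r109 (.c 3 r110 (.c 4 r111 .e)))
noncomputable def q91 : Tr := .c 0 (.l 11) (.c 1 (.l 11) (.c 2 (.l 11) (.c 3 (.l 11) (.c 4 (.l 11)
.e))))
noncomputable def r112 : Tr := .c 3 q44 (.c 7 q91 .e)
noncomputable def r113 : Tr := .c 1 q14 (.c 3 q44 .e)
noncomputable def q92 : Tr := .c 3 (.l 25) .e
noncomputable def q93 : Tr := .c 1 (.l 25) .e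
noncomputable def r114 : Tr := .c 1 q68 (.c 2 q92 (.c 3 q69 (.c 4 q93 .e)))
noncomputable def t71 : Tr := .c 2 r112 (.c 6 r113 (.c 7 r114 .e))
noncomputable def q94 : Tr := .c 0 (.l 11) (.c 1 (.l 11) (.c 3 (.l 11) .e))
noncomputable def r115 : Tr := .c 7 q94 .e
noncomputable def t72 : Tr := .c 2 r115 (.c 4 r115 .e)
noncomputable def r116 : Tr := .c 4 q80 (.c 6 q81 (.c 7 q90 .e))
noncomputable def r117 : Tr := .c 3 q44 (.c 7 q90 .e)
noncomputable def r118 : Tr := .c 2 q82 (.c 6 q81 (.c 7 q90 .e))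
noncomputable def r119 : Tr := .c 1 q14 (.c 7 q90 .e)
noncomputable def t73 : Tr := .c 1 r116 (.c 2 r117 (.c 3 r118 (.c 4 r119 .e)))
noncomputable def r120 : Tr := .c 2 q85 (.c 7 q84 .e)
noncomputable def t74 : Tr := .c 3 r120 (.c 5 r105 (.c 7 r106 .e))
noncomputable def r121 : Tr := .c 1 q14 (.c 7 q91 .e)
noncomputable def t75 : Tr := .c 4 r121 (.c 6 r113 (.c 7 r114 .e))

/-- the diagram -/
noncomputable def T : Tr := (.c 0 (.c 5 (.c 0 t0 (.c 2 t1 (.c 4 t1 (.c 6 t2 .e)))) (.c 6 (.c 0 t3 (.c 1 t4 (.c 3 t4 (.c 5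
t5 .e)))) (.c 7 (.c 0 t6 (.c 1 t7 (.c 2 t8 (.c 3 t9 (.c 4 t10 .e))))) .e))) (.c 1 (.c 4 (.c 1
t11 (.c 5 t12 (.c 7 t13 .e))) (.c 6 (.c 0 t14 (.c 1 t15 (.c 3 t16 .e))) (.c 7 (.c 0 t17 (.c 1
t18 (.c 2 t19 (.c 3 t20 (.c 4 t21 .e))))) .e))) (.c 2 (.c 3 (.c 2 t22 (.c 6 t23 (.c 7 t24 .e)))
(.c 5 (.c 0 t25 (.c 2 t26 (.c 4 t27 .e))) (.c 7 (.c 0 t28 (.c 1 t29 (.c 2 t30 (.c 3 t31 (.c 4
t32 .e))))) .e))) (.c 3 (.c 2 (.c 3 t33 (.c 5 t12 (.c 7 t34 .e))) (.c 6 (.c 0 t14 (.c 1 t35 (.c
3 t36 .e))) (.c 7 (.c 0 t37 (.c 1 t38 (.c 2 t39 (.c 3 t40 (.c 4 t41 .e))))) .e))) (.c 4 (.c 1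
(.c 4 t42 (.c 6 t23 (.c 7 t43 .e))) (.c 5 (.c 0 t25 (.c 2 t44 (.c 4 t45 .e))) (.c 7 (.c 0 t46
(.c 1 t47 (.c 2 t48 (.c 3 t49 (.c 4 t50 .e))))) .e))) (.c 5 (.c 0 (.c 5 t51 (.c 6 t52 (.c 7 t53
.e))) (.c 2 (.c 3 t54 (.c 5 t55 (.c 7 t56 .e))) (.c 4 (.c 1 t54 (.c 5 t55 (.c 7 t56 .e))) (.c 6
(.c 0 t57 (.c 5 t55 .e)) .e)))) (.c 6 (.c 0 (.c 5 t58 (.c 6 t59 (.c 7 t60 .e))) (.c 1 (.c 4 t61
(.c 6 t62 (.c 7 t63 .e))) (.c 3 (.c 2 t61 (.c 6 t62 (.c 7 t63 .e))) (.c 5 (.c 0 t64 (.c 6 t62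
.e)) .e)))) (.c 7 (.c 0 (.c 5 t65 (.c 6 t66 (.c 7 t67 .e))) (.c 1 (.c 4 t68 (.c 6 t69 (.c 7 t70
.e))) (.c 2 (.c 3 t71 (.c 5 t72 (.c 7 t73 .e))) (.c 3 (.c 2 t74 (.c 6 t69 (.c 7 t70 .e))) (.c 4
(.c 1 t75 (.c 5 t72 (.c 7 t73 .e))) .e))))) .e))))))))

theorem k0 : chkQ0 D J R 28 T = true := by decide +kernel
theorem c0 : csP D J T 0 = true := by decide +kernel
theorem c1 : csP D J T 1 = true := by decide +kernel
theorem c2 : csP D J T 2 = true := by decide +kernel
theorem c3 : csP D J T 3 = true := by decide +kernel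
theorem c4 : csP D J T 4 = true := by decide +kernel
theorem c5 : csP D J T 5 = true := by decide +kernel
theorem c6 : csP D J T 6 = true := by decide +kernel
theorem c7 : csP D J T 7 = true := by decide +kernel
theorem c8 : csP D J T 8 = true := by decide +kernel
theorem c9 : csP D J T 9 = true := by decide +kernel
theorem c10 : csP D J T 10 = true := by decide +kernel
theorem c11 : csP D J T 11 = true := by decide +kernel
theorem c12 : csP D J T 12 = true := by decide +kernel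
theorem c13 : csP D J T 13 = true := by decide +kernel
theorem c14 : csP D J T 14 = true := by decide +kernel
theorem c15 : csP D J T 15 = true := by decide +kernel
theorem c16 : csP D J T 16 = true := by decide +kernel

theorem cs : ∀ p < D.N, csP D J T p = true := by
  intro p hp
  have hp : p < 17 := hp
  interval_cases p
  · exact c0
  · exact c1
  · exact c2
  · exact c3
  · exact c4
  · exact c5
  · exact c6
  · exact c7
  · exact c8
  · exact c9
  · exact c10
  · exact c11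
  · exact c12
  · exact c13
  · exact c14
  · exact c15
  · exact c16

/-- the box table -/
theorem tab : BoxTab D := boxTab_of (by decide) (by decide) k0 cs

end C32b

/-! ### 01 02 03 12 13 24 35 45 (7|56: tie) -/

namespace C32t

/-- the data -/
def D : Dat where
  A := 8
  N := 18
  nb := [224, 208, 168, 196, 162, 85, 43, 31]
  op := [127, 191, 223, 191, 223, 171, 213, 254]
  nbT := [196832, 164048, 82088, 135364, 67746, 37461, 18731, 10015, 233664, 215200, 245888, 176720,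
92456, 202880, 169540, 85282, 46869, 28427]
  opT := [65151, 97983, 48863, 126655, 63199, 93355, 112341, 121086, 131072, 130655, 130687, 130735,
130775, 130687, 130747, 130781, 130794, 256]
  PL := [[0], [1], [2], [3], [4], [5], [6], [7], [0, 1, 3], [0, 2, 4], [1, 2], [1, 5], [2, 6], [3, 4],
[3, 5], [4, 6], [5, 7], [6, 7]]
  L := [3, 5, 9, 6, 10, 20, 40, 48]
  P := [3, 5, 9, 6, 10, 20, 40, 48, 7, 11, 13, 21, 41, 14, 22, 42, 52, 56]
  r := 1
  tie := [0, 0, 0, 0, 0, 0, 0, 0, 1, 0, 0, 0, 0, 0, 0, 0, 0, 0]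

/-- changes of the value at a tie -/
def J : List (List ℕ) := [[], [0x47, 3, 5, 8, 0xc00000000c00f210, 0x20, 0x41, 0x80, 0x100, 0x1000610,
0x210000000208f600,
0x800, 0x2000000002000b410, 0x80000000080007410, 0x400000000400000e410,
0x100000000100000d410,
0x10000, 0x20000, 0x40c000000000000000040000, 0x20000000a3080400,
0x100000, 0x200000, 0x400000,
0x800000, 0xe10000000f080200, 0x100005003080400,
0x400000102d000010, 0x800000408d000010,
0x10000000, 0x200000010a4081000, 0x40000002040000000,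
0x800000040a8082000, 0x100000000,
0x200000000600000000, 0x400000000600000000, 0x800000000,
0x1000000005026008000,
0x2000000002040000000, 0x400000000508a004000, 0x8000000000,
0x10000000000, 0x20000000000,
0x210000000071000000000000040000000000, 0x80000000000,
0x100000000000, 0x200000000000,
0x400000000000, 0x800000000000, 0x1000000000000,
0x16000000000000, 0x26000000000000,
0x8000000000000, 0x32000000000000, 0x34000000000000,
0x40000000000000, 0x80000000000000,
0x5002100000003000400, 0x200000000000000,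
0x400000000000000, 0x800000000000000,
0x1000000000000000, 0xa2100000001080400,
0x102c000000005000010, 0x408c000000009000010,
0x10000000000000000, 0x10a6000000020001000,
0x2040000000040000000, 0x40aa000000080002000,
0x100000000000000000, 0x600000000200000000,
0x600000000400000000, 0x800000000000000000,
0x5024100001000008000, 0x2040000002000000000,
0x5088100004000004000, 0x8000000000000000000,
0x10000000000000000000, 0x20000000000000000000,
0x840071000040000000000000000000,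
0x80000000000000000000, 0x100000000000000000000,
0x200000000000000000000,
0x400000000000000000000, 0x800000000000000000000,
0x1000000000000000000000,
0x2000000000000000000000, 0x4000000000000000040000,
0x8000000000000000040000,
0x10000000000000000000000, 0x2200022f08020000000000000000000000,
0x40000000000000000000000,
0x80000000000000000000000, 0x100000000000000000000000,
0x200000000000000000000000,
0x400000000000000000040000, 0x800000000000000000000000,
0xf69000040000000040000000000,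
0x2000000000000000000000000, 0x4000000000000000000000000,
0x19020000000000000000000000,
0x2200022078000040000000040000000000,
0x2100031000040000000040000000000,
0x84000000051000040000000040000000000,
0x80000000000000000000000000,
0x4000040b01020000000000000000000000,
0x10000100701020000000000000000000000,
0x200002000e01020000000000000000000000,
0x80000800d01020000000000000000000000,
0x1000000000000000000000000000,
0x2000162010020000000000000000000000,
0x4000000000000000000000000000,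
0x8000000000000000000000000000,
0x10000000000000000000000000000,
0x202822010020000000000000000000000,
0x4000942100000040000000000000000000,
0x8001080000000000000000000000000000,
0x10002142220000000000000000000000000,
0x20000600000000000000000000000000000,
0x40000600000000000000000000000000000,
0x80002860800000040000000000000000000,
0x100001080000000000000000000000000000,
0x200002920420000000000000000000000000,
0x4000000000000000000000000000000,
0x8000000000000000000000000000000,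
0x70000000000000000000000000000000,
0xb0000000000000000000000000000000,
0xd0000000000000000000000000000000,
0xe0000000000000000000000000000000,
0x100000000000000000000000000000000,
0x282200020010020000000000000000000000,
0x400000000000000000000000000000000,
0x800000000000000000000000000000000,
0x1000000000000000000000000000000000,
0x16200002010020000000000000000000000,
0x96000040140000000000000000000000000,
0x108000080000000000000000000000000000,
0x216000100200000000000000040000000000,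
0x60000200000000000000000000000000000,
0x60000400000000000000000000000000000,
0x284200800840000000000000000000000000,
0x108001000000000000000000000000000000,
0x290202000400000000000000040000000000,
0x400000000000000000000000000000000000,
0x800000000000000000000000000000000000]]

/-- reachable values -/
def R : List (List ℕ) := [[1, 0x47], [2, 3], [4, 5], [8, 8], [0x10, 0xc00000000c00f210], [0x20, 0x20], [0x40, 0x41],
[0x80, 0x80], [0x100, 0x100], [0x200, 0x1000610], [0x400, 0x210000000208f600], [0x800, 0x800],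
[0x1000, 0x2000000002000b410], [0x2000, 0x80000000080007410], [0x4000, 0x400000000400000e410],
[0x8000, 0x100000000100000d410], [0x10000, 0x10000], [0x20000, 0x20000], [0x40000,
0x40c000000000000000040000], [0x80000, 0x20000000a3080400], [0x100000, 0x100000], [0x200000,
0x200000], [0x400000, 0x400000], [0x800000, 0x800000], [0x1000000, 0xe10000000f080200],
[0x2000000, 0x100005003080400], [0x4000000, 0x400000102d000010], [0x8000000,
0x800000408d000010], [0x10000000, 0x10000000], [0x20000000, 0x200000010a4081000], [0x40000000,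
0x40000002040000000], [0x80000000, 0x800000040a8082000], [0x100000000, 0x100000000],
[0x200000000, 0x200000000600000000], [0x400000000, 0x400000000600000000], [0x800000000,
0x800000000], [0x1000000000, 0x1000000005026008000], [0x2000000000, 0x2000000002040000000],
[0x4000000000, 0x400000000508a004000], [0x8000000000, 0x8000000000], [0x10000000000,
0x10000000000], [0x20000000000, 0x20000000000], [0x40000000000,
0x210000000071000000000000040000000000], [0x80000000000, 0x80000000000], [0x100000000000,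
0x100000000000], [0x200000000000, 0x200000000000], [0x400000000000, 0x400000000000],
[0x800000000000, 0x800000000000], [0x1000000000000, 0x1000000000000], [0x2000000000000,
0x16000000000000], [0x4000000000000, 0x26000000000000], [0x8000000000000, 0x8000000000000],
[0x10000000000000, 0x32000000000000], [0x20000000000000, 0x34000000000000], [0x40000000000000,
0x40000000000000], [0x80000000000000, 0x80000000000000], [0x100000000000000,
0x5002100000003000400], [0x200000000000000, 0x200000000000000], [0x400000000000000,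
0x400000000000000], [0x800000000000000, 0x800000000000000], [0x1000000000000000,
0x1000000000000000], [0x2000000000000000, 0xa2100000001080400], [0x4000000000000000,
0x102c000000005000010], [0x8000000000000000, 0x408c000000009000010], [0x10000000000000000,
0x10000000000000000], [0x20000000000000000, 0x10a6000000020001000], [0x40000000000000000,
0x2040000000040000000], [0x80000000000000000, 0x40aa000000080002000], [0x100000000000000000,
0x100000000000000000], [0x200000000000000000, 0x600000000200000000], [0x400000000000000000,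
0x600000000400000000], [0x800000000000000000, 0x800000000000000000], [0x1000000000000000000,
0x5024100001000008000], [0x2000000000000000000, 0x2040000002000000000], [0x4000000000000000000,
0x5088100004000004000], [0x8000000000000000000, 0x8000000000000000000],
[0x10000000000000000000, 0x10000000000000000000], [0x20000000000000000000,
0x20000000000000000000], [0x40000000000000000000, 0x840071000040000000000000000000],
[0x80000000000000000000, 0x80000000000000000000], [0x100000000000000000000,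
0x100000000000000000000], [0x200000000000000000000, 0x200000000000000000000],
[0x400000000000000000000, 0x400000000000000000000], [0x800000000000000000000,
0x800000000000000000000], [0x1000000000000000000000, 0x1000000000000000000000],
[0x2000000000000000000000, 0x2000000000000000000000], [0x4000000000000000000000,
0x4000000000000000040000], [0x8000000000000000000000, 0x8000000000000000040000],
[0x10000000000000000000000, 0x10000000000000000000000], [0x20000000000000000000000,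
0x2200022f08020000000000000000000000], [0x40000000000000000000000, 0x40000000000000000000000],
[0x80000000000000000000000, 0x80000000000000000000000], [0x100000000000000000000000,
0x100000000000000000000000], [0x200000000000000000000000, 0x200000000000000000000000],
[0x400000000000000000000000, 0x400000000000000000040000], [0x800000000000000000000000,
0x800000000000000000000000], [0x1000000000000000000000000, 0xf69000040000000040000000000],
[0x2000000000000000000000000, 0x2000000000000000000000000], [0x4000000000000000000000000,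
0x4000000000000000000000000], [0x8000000000000000000000000, 0x19020000000000000000000000],
[0x10000000000000000000000000, 0x2200022078000040000000040000000000],
[0x20000000000000000000000000, 0x2100031000040000000040000000000],
[0x40000000000000000000000000, 0x84000000051000040000000040000000000],
[0x80000000000000000000000000, 0x80000000000000000000000000], [0x100000000000000000000000000,
0x4000040b01020000000000000000000000], [0x200000000000000000000000000,
0x10000100701020000000000000000000000], [0x400000000000000000000000000,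
0x200002000e01020000000000000000000000], [0x800000000000000000000000000,
0x80000800d01020000000000000000000000], [0x1000000000000000000000000000,
0x1000000000000000000000000000], [0x2000000000000000000000000000,
0x2000162010020000000000000000000000], [0x4000000000000000000000000000,
0x4000000000000000000000000000], [0x8000000000000000000000000000,
0x8000000000000000000000000000], [0x10000000000000000000000000000,
0x10000000000000000000000000000], [0x20000000000000000000000000000,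
0x202822010020000000000000000000000], [0x40000000000000000000000000000,
0x4000942100000040000000000000000000], [0x80000000000000000000000000000,
0x8001080000000000000000000000000000], [0x100000000000000000000000000000,
0x10002142220000000000000000000000000], [0x200000000000000000000000000000,
0x20000600000000000000000000000000000], [0x400000000000000000000000000000,
0x40000600000000000000000000000000000], [0x800000000000000000000000000000,
0x80002860800000040000000000000000000], [0x1000000000000000000000000000000,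
0x100001080000000000000000000000000000], [0x2000000000000000000000000000000,
0x200002920420000000000000000000000000], [0x4000000000000000000000000000000,
0x4000000000000000000000000000000], [0x8000000000000000000000000000000,
0x8000000000000000000000000000000], [0x10000000000000000000000000000000,
0x70000000000000000000000000000000], [0x20000000000000000000000000000000,
0xb0000000000000000000000000000000], [0x40000000000000000000000000000000,
0xd0000000000000000000000000000000], [0x80000000000000000000000000000000,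
0xe0000000000000000000000000000000], [0x100000000000000000000000000000000,
0x100000000000000000000000000000000], [0x200000000000000000000000000000000,
0x282200020010020000000000000000000000], [0x400000000000000000000000000000000,
0x400000000000000000000000000000000], [0x800000000000000000000000000000000,
0x800000000000000000000000000000000], [0x1000000000000000000000000000000000,
0x1000000000000000000000000000000000], [0x2000000000000000000000000000000000,
0x16200002010020000000000000000000000], [0x4000000000000000000000000000000000,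
0x96000040140000000000000000000000000], [0x8000000000000000000000000000000000,
0x108000080000000000000000000000000000], [0x10000000000000000000000000000000000,
0x216000100200000000000000040000000000], [0x20000000000000000000000000000000000,
0x60000200000000000000000000000000000], [0x40000000000000000000000000000000000,
0x60000400000000000000000000000000000], [0x80000000000000000000000000000000000,
0x284200800840000000000000000000000000], [0x100000000000000000000000000000000000,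
0x108001000000000000000000000000000000], [0x200000000000000000000000000000000000,
0x290202000400000000000000040000000000], [0x400000000000000000000000000000000000,
0x400000000000000000000000000000000000], [0x800000000000000000000000000000000000,
0x800000000000000000000000000000000000]]

noncomputable def q0 : Tr := .c 5 (.l 0) (.c 6 (.l 1) .e)
noncomputable def r0 : Tr := .c 0 q0 .e
noncomputable def q1 : Tr := .c 5 (.l 2) (.c 6 (.l 3) .e)
noncomputable def q2 : Tr := .c 6 (.l 4) .e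
noncomputable def r1 : Tr := .c 0 q1 (.c 1 q2 (.c 3 q2 (.c 5 q2 .e)))
noncomputable def t0 : Tr := .c 5 r0 (.c 6 r1 .e)
noncomputable def q3 : Tr := .c 6 (.l 1) (.c 7 (.l 0) .e)
noncomputable def r2 : Tr := .c 0 q3 .e
noncomputable def t1 : Tr := .c 5 r2 .e
noncomputable def q4 : Tr := .c 6 (.l 5) .e
noncomputable def r3 : Tr := .c 5 q4 .e
noncomputable def t2 : Tr := .c 0 r3 (.c 5 r2 .e)
noncomputable def q5 : Tr := .c 5 (.l 6) (.c 6 (.l 7) .e)
noncomputable def q6 : Tr := .c 5 (.l 6) .e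
noncomputable def r4 : Tr := .c 0 q5 (.c 2 q6 (.c 4 q6 (.c 6 q6 .e)))
noncomputable def q7 : Tr := .c 5 (.l 8) (.c 6 (.l 9) .e)
noncomputable def r5 : Tr := .c 0 q7 .e
noncomputable def t3 : Tr := .c 5 r4 (.c 6 r5 .e)
noncomputable def q8 : Tr := .c 5 (.l 10) (.c 7 (.l 10) .e)
noncomputable def r6 : Tr := .c 0 q8 .e
noncomputable def t4 : Tr := .c 6 r6 .e
noncomputable def q9 : Tr := .c 5 (.l 11) .e
noncomputable def r7 : Tr := .c 6 q9 .e
noncomputable def t5 : Tr := .c 0 r7 (.c 6 r6 .e)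
noncomputable def q10 : Tr := .c 5 (.l 0) .e
noncomputable def r8 : Tr := .c 2 q10 (.c 4 q10 (.c 6 q10 .e))
noncomputable def r9 : Tr := .c 1 q2 (.c 3 q2 (.c 5 q2 .e))
noncomputable def t6 : Tr := .c 5 r8 (.c 6 r9 .e)
noncomputable def q11 : Tr := .c 7 (.l 12) .e
noncomputable def r10 : Tr := .c 1 q11 .e
noncomputable def q12 : Tr := .c 7 (.l 13) .e
noncomputable def r11 : Tr := .c 1 q11 (.c 3 q12 .e)
noncomputable def t7 : Tr := .c 4 r10 (.c 6 r11 .e)
noncomputable def q13 : Tr := .c 7 (.l 0) .e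
noncomputable def r12 : Tr := .c 2 q13 .e
noncomputable def r13 : Tr := .c 2 q13 (.c 4 q13 .e)
noncomputable def t8 : Tr := .c 3 r12 (.c 5 r13 .e)
noncomputable def q14 : Tr := .c 7 (.l 14) .e
noncomputable def r14 : Tr := .c 3 q14 .e
noncomputable def q15 : Tr := .c 7 (.l 15) .e
noncomputable def r15 : Tr := .c 1 q15 (.c 3 q14 .e)
noncomputable def t9 : Tr := .c 2 r14 (.c 6 r15 .e)
noncomputable def r16 : Tr := .c 4 q13 .e
noncomputable def t10 : Tr := .c 1 r16 (.c 5 r13 .e)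
noncomputable def q16 : Tr := .c 4 (.l 16) (.c 7 (.l 17) .e)
noncomputable def q17 : Tr := .c 4 (.l 18) .e
noncomputable def r17 : Tr := .c 1 q16 (.c 7 q17 .e)
noncomputable def q18 : Tr := .c 7 (.l 19) .e
noncomputable def q19 : Tr := .c 4 (.l 20) (.c 7 (.l 19) .e)
noncomputable def r18 : Tr := .c 0 q18 (.c 1 q19 (.c 2 q18 (.c 3 q18 (.c 4 q18 .e))))
noncomputable def t11 : Tr := .c 4 r17 (.c 7 r18 .e)
noncomputable def q20 : Tr := .c 7 (.l 21) .e
noncomputable def r19 : Tr := .c 3 q20 .e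
noncomputable def q21 : Tr := .c 7 (.l 17) .e
noncomputable def r20 : Tr := .c 1 q21 .e
noncomputable def t12 : Tr := .c 2 r19 (.c 4 r20 .e)
noncomputable def r21 : Tr := .c 7 q17 .e
noncomputable def q22 : Tr := .c 7 (.l 22) .e
noncomputable def r22 : Tr := .c 4 q22 (.c 7 q17 .e)
noncomputable def q23 : Tr := .c 6 (.l 18) (.c 7 (.l 21) .e)
noncomputable def r23 : Tr := .c 3 q23 (.c 7 q17 .e)
noncomputable def q24 : Tr := .c 7 (.l 23) .e
noncomputable def r24 : Tr := .c 2 q24 (.c 7 q17 .e)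
noncomputable def q25 : Tr := .c 4 (.l 18) (.c 6 (.l 18) (.c 7 (.l 17) .e))
noncomputable def r25 : Tr := .c 1 q25 (.c 7 q17 .e)
noncomputable def t13 : Tr := .c 0 r21 (.c 1 r22 (.c 2 r23 (.c 3 r24 (.c 4 r25 .e))))
noncomputable def q26 : Tr := .c 6 (.l 24) .e
noncomputable def r26 : Tr := .c 0 q26 .e
noncomputable def t14 : Tr := .c 5 r26 (.c 7 r26 .e)
noncomputable def r27 : Tr := .c 0 q18 (.c 2 q18 (.c 4 q18 .e))
noncomputable def t15 : Tr := .c 4 r21 (.c 7 r27 .e)
noncomputable def q27 : Tr := .c 7 (.l 25) .e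
noncomputable def r28 : Tr := .c 0 q27 (.c 2 q27 (.c 4 q27 .e))
noncomputable def t16 : Tr := .c 2 r21 (.c 7 r28 .e)
noncomputable def q28 : Tr := .c 4 (.l 26) (.c 6 (.l 26) .e)
noncomputable def q29 : Tr := .c 6 (.l 27) .e
noncomputable def r29 : Tr := .c 1 q28 (.c 3 q29 .e)
noncomputable def t17 : Tr := .c 7 r29 .e
noncomputable def q30 : Tr := .c 4 (.l 28) (.c 7 (.l 12) .e)
noncomputable def q31 : Tr := .c 4 (.l 28) .e
noncomputable def r30 : Tr := .c 1 q30 (.c 5 q31 (.c 7 q31 .e))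
noncomputable def q32 : Tr := .c 4 (.l 26) (.c 7 (.l 29) .e)
noncomputable def q33 : Tr := .c 7 (.l 30) .e
noncomputable def q34 : Tr := .c 7 (.l 31) .e
noncomputable def r31 : Tr := .c 1 q32 (.c 2 q33 (.c 3 q34 (.c 4 q33 .e)))
noncomputable def t18 : Tr := .c 4 r30 (.c 7 r31 .e)
noncomputable def q35 : Tr := .c 4 (.l 32) .e
noncomputable def r32 : Tr := .c 2 q13 (.c 7 q35 .e)
noncomputable def q36 : Tr := .c 4 (.l 26) (.c 6 (.l 26) (.c 7 (.l 33) .e))
noncomputable def q37 : Tr := .c 6 (.l 27) (.c 7 (.l 34) .e)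
noncomputable def r33 : Tr := .c 1 q36 (.c 2 q13 (.c 3 q37 (.c 4 q13 .e)))
noncomputable def t19 : Tr := .c 3 r32 (.c 5 r13 (.c 7 r33 .e))
noncomputable def q38 : Tr := .c 4 (.l 35) .e
noncomputable def r34 : Tr := .c 3 q14 (.c 5 q38 (.c 7 q38 .e))
noncomputable def q39 : Tr := .c 4 (.l 26) (.c 7 (.l 36) .e)
noncomputable def q40 : Tr := .c 7 (.l 37) .e
noncomputable def q41 : Tr := .c 7 (.l 38) .e
noncomputable def r35 : Tr := .c 1 q39 (.c 2 q40 (.c 3 q41 (.c 4 q40 .e)))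
noncomputable def t20 : Tr := .c 2 r34 (.c 7 r35 .e)
noncomputable def q42 : Tr := .c 4 (.l 39) .e
noncomputable def r36 : Tr := .c 4 q13 (.c 7 q42 .e)
noncomputable def t21 : Tr := .c 1 r36 (.c 5 r13 (.c 7 r33 .e))
noncomputable def q43 : Tr := .c 3 (.l 40) (.c 7 (.l 0) .e)
noncomputable def q44 : Tr := .c 3 (.l 41) .e
noncomputable def r37 : Tr := .c 2 q43 (.c 7 q44 .e)
noncomputable def q45 : Tr := .c 3 (.l 0) (.c 7 (.l 0) .e)
noncomputable def r38 : Tr := .c 0 q13 (.c 1 q13 (.c 2 q45 (.c 3 q13 (.c 4 q13 .e))))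
noncomputable def t22 : Tr := .c 3 r37 (.c 7 r38 .e)
noncomputable def t23 : Tr := .c 1 r16 (.c 3 r12 .e)
noncomputable def q46 : Tr := .c 3 (.l 42) .e
noncomputable def r39 : Tr := .c 7 q46 .e
noncomputable def q47 : Tr := .c 5 (.l 43) (.c 7 (.l 43) .e)
noncomputable def r40 : Tr := .c 4 q47 (.c 7 q46 .e)
noncomputable def q48 : Tr := .c 7 (.l 44) .e
noncomputable def r41 : Tr := .c 3 q48 (.c 7 q46 .e)
noncomputable def q49 : Tr := .c 3 (.l 45) (.c 5 (.l 45) (.c 7 (.l 45) .e))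
noncomputable def r42 : Tr := .c 2 q49 (.c 7 q46 .e)
noncomputable def q50 : Tr := .c 7 (.l 46) .e
noncomputable def r43 : Tr := .c 1 q50 (.c 7 q46 .e)
noncomputable def t24 : Tr := .c 0 r39 (.c 1 r40 (.c 2 r41 (.c 3 r42 (.c 4 r43 .e))))
noncomputable def q51 : Tr := .c 5 (.l 2) .e
noncomputable def r44 : Tr := .c 0 q51 .e
noncomputable def r45 : Tr := .c 0 q10 .e
noncomputable def t25 : Tr := .c 6 r44 (.c 7 r45 .e)
noncomputable def r46 : Tr := .c 7 q44 .e
noncomputable def r47 : Tr := .c 0 q13 (.c 1 q13 (.c 3 q13 .e))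
noncomputable def t26 : Tr := .c 3 r46 (.c 7 r47 .e)
noncomputable def q52 : Tr := .c 3 (.l 47) .e
noncomputable def r48 : Tr := .c 7 q52 .e
noncomputable def t27 : Tr := .c 1 r48 (.c 7 r47 .e)
noncomputable def q53 : Tr := .c 3 (.l 0) (.c 5 (.l 0) .e)
noncomputable def r49 : Tr := .c 2 q53 (.c 4 q10 .e)
noncomputable def t28 : Tr := .c 7 r49 .e
noncomputable def q54 : Tr := .c 3 (.l 48) .e
noncomputable def r50 : Tr := .c 1 q11 (.c 7 q54 .e)
noncomputable def q55 : Tr := .c 7 (.l 49) .e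
noncomputable def q56 : Tr := .c 3 (.l 0) (.c 5 (.l 0) (.c 7 (.l 0) .e))
noncomputable def q57 : Tr := .c 7 (.l 50) .e
noncomputable def q58 : Tr := .c 5 (.l 0) (.c 7 (.l 0) .e)
noncomputable def r51 : Tr := .c 1 q55 (.c 2 q56 (.c 3 q57 (.c 4 q58 .e)))
noncomputable def t29 : Tr := .c 4 r50 (.c 6 r11 (.c 7 r51 .e))
noncomputable def q59 : Tr := .c 3 (.l 0) .e
noncomputable def r52 : Tr := .c 2 q45 (.c 6 q59 (.c 7 q44 .e))
noncomputable def r53 : Tr := .c 1 q13 (.c 2 q45 (.c 3 q13 (.c 4 q13 .e)))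
noncomputable def t30 : Tr := .c 3 r52 (.c 7 r53 .e)
noncomputable def q60 : Tr := .c 3 (.l 51) .e
noncomputable def r54 : Tr := .c 3 q14 (.c 7 q60 .e)
noncomputable def q61 : Tr := .c 7 (.l 52) .e
noncomputable def q62 : Tr := .c 7 (.l 53) .e
noncomputable def r55 : Tr := .c 1 q61 (.c 2 q56 (.c 3 q62 (.c 4 q58 .e)))
noncomputable def t31 : Tr := .c 2 r54 (.c 6 r15 (.c 7 r55 .e))
noncomputable def r56 : Tr := .c 4 q13 (.c 6 q59 (.c 7 q52 .e))
noncomputable def t32 : Tr := .c 1 r56 (.c 7 r53 .e)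
noncomputable def q63 : Tr := .c 2 (.l 54) (.c 7 (.l 55) .e)
noncomputable def q64 : Tr := .c 2 (.l 18) .e
noncomputable def r57 : Tr := .c 3 q63 (.c 7 q64 .e)
noncomputable def q65 : Tr := .c 7 (.l 56) .e
noncomputable def q66 : Tr := .c 2 (.l 57) (.c 7 (.l 56) .e)
noncomputable def r58 : Tr := .c 0 q65 (.c 1 q65 (.c 2 q65 (.c 3 q66 (.c 4 q65 .e))))
noncomputable def t33 : Tr := .c 2 r57 (.c 7 r58 .e)
noncomputable def q67 : Tr := .c 7 (.l 55) .e
noncomputable def r59 : Tr := .c 3 q67 .e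
noncomputable def q68 : Tr := .c 7 (.l 58) .e
noncomputable def r60 : Tr := .c 1 q68 .e
noncomputable def t34 : Tr := .c 2 r59 (.c 4 r60 .e)
noncomputable def r61 : Tr := .c 7 q64 .e
noncomputable def q69 : Tr := .c 7 (.l 59) .e
noncomputable def r62 : Tr := .c 4 q69 (.c 7 q64 .e)
noncomputable def q70 : Tr := .c 2 (.l 18) (.c 6 (.l 18) (.c 7 (.l 55) .e))
noncomputable def r63 : Tr := .c 3 q70 (.c 7 q64 .e)
noncomputable def q71 : Tr := .c 7 (.l 60) .e
noncomputable def r64 : Tr := .c 2 q71 (.c 7 q64 .e)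
noncomputable def q72 : Tr := .c 6 (.l 18) (.c 7 (.l 58) .e)
noncomputable def r65 : Tr := .c 1 q72 (.c 7 q64 .e)
noncomputable def t35 : Tr := .c 0 r61 (.c 1 r62 (.c 2 r63 (.c 3 r64 (.c 4 r65 .e))))
noncomputable def q73 : Tr := .c 7 (.l 61) .e
noncomputable def r66 : Tr := .c 0 q73 (.c 2 q73 (.c 4 q73 .e))
noncomputable def t36 : Tr := .c 4 r61 (.c 7 r66 .e)
noncomputable def r67 : Tr := .c 0 q65 (.c 2 q65 (.c 4 q65 .e))
noncomputable def t37 : Tr := .c 2 r61 (.c 7 r67 .e)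
noncomputable def q74 : Tr := .c 6 (.l 62) .e
noncomputable def q75 : Tr := .c 2 (.l 63) (.c 6 (.l 63) .e)
noncomputable def r68 : Tr := .c 1 q74 (.c 3 q75 .e)
noncomputable def t38 : Tr := .c 7 r68 .e
noncomputable def q76 : Tr := .c 2 (.l 64) .e
noncomputable def r69 : Tr := .c 1 q11 (.c 5 q76 (.c 7 q76 .e))
noncomputable def q77 : Tr := .c 7 (.l 65) .e
noncomputable def q78 : Tr := .c 7 (.l 66) .e
noncomputable def q79 : Tr := .c 2 (.l 63) (.c 7 (.l 67) .e)
noncomputable def r70 : Tr := .c 1 q77 (.c 2 q78 (.c 3 q79 (.c 4 q78 .e)))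
noncomputable def t39 : Tr := .c 4 r69 (.c 7 r70 .e)
noncomputable def q80 : Tr := .c 2 (.l 68) .e
noncomputable def r71 : Tr := .c 2 q13 (.c 7 q80 .e)
noncomputable def q81 : Tr := .c 6 (.l 62) (.c 7 (.l 69) .e)
noncomputable def q82 : Tr := .c 2 (.l 63) (.c 6 (.l 63) (.c 7 (.l 70) .e))
noncomputable def r72 : Tr := .c 1 q81 (.c 2 q13 (.c 3 q82 (.c 4 q13 .e)))
noncomputable def t40 : Tr := .c 3 r71 (.c 5 r13 (.c 7 r72 .e))
noncomputable def q83 : Tr := .c 2 (.l 71) (.c 7 (.l 14) .e)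
noncomputable def q84 : Tr := .c 2 (.l 71) .e
noncomputable def r73 : Tr := .c 3 q83 (.c 5 q84 (.c 7 q84 .e))
noncomputable def q85 : Tr := .c 7 (.l 72) .e
noncomputable def q86 : Tr := .c 7 (.l 73) .e
noncomputable def q87 : Tr := .c 2 (.l 63) (.c 7 (.l 74) .e)
noncomputable def r74 : Tr := .c 1 q85 (.c 2 q86 (.c 3 q87 (.c 4 q86 .e)))
noncomputable def t41 : Tr := .c 2 r73 (.c 7 r74 .e)
noncomputable def q88 : Tr := .c 2 (.l 75) .e
noncomputable def r75 : Tr := .c 4 q13 (.c 7 q88 .e)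
noncomputable def t42 : Tr := .c 1 r75 (.c 5 r13 (.c 7 r72 .e))
noncomputable def q89 : Tr := .c 1 (.l 76) (.c 7 (.l 0) .e)
noncomputable def q90 : Tr := .c 1 (.l 77) .e
noncomputable def r76 : Tr := .c 4 q89 (.c 7 q90 .e)
noncomputable def q91 : Tr := .c 1 (.l 0) (.c 7 (.l 0) .e)
noncomputable def r77 : Tr := .c 0 q13 (.c 1 q13 (.c 2 q13 (.c 3 q13 (.c 4 q91 .e))))
noncomputable def t43 : Tr := .c 1 r76 (.c 7 r77 .e)
noncomputable def q92 : Tr := .c 1 (.l 78) .e
noncomputable def r78 : Tr := .c 7 q92 .e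
noncomputable def q93 : Tr := .c 1 (.l 79) (.c 5 (.l 79) (.c 7 (.l 79) .e))
noncomputable def r79 : Tr := .c 4 q93 (.c 7 q92 .e)
noncomputable def q94 : Tr := .c 7 (.l 80) .e
noncomputable def r80 : Tr := .c 3 q94 (.c 7 q92 .e)
noncomputable def q95 : Tr := .c 5 (.l 81) (.c 7 (.l 81) .e)
noncomputable def r81 : Tr := .c 2 q95 (.c 7 q92 .e)
noncomputable def q96 : Tr := .c 7 (.l 82) .e
noncomputable def r82 : Tr := .c 1 q96 (.c 7 q92 .e)
noncomputable def t44 : Tr := .c 0 r78 (.c 1 r79 (.c 2 r80 (.c 3 r81 (.c 4 r82 .e))))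
noncomputable def q97 : Tr := .c 1 (.l 83) .e
noncomputable def r83 : Tr := .c 7 q97 .e
noncomputable def t45 : Tr := .c 3 r83 (.c 7 r47 .e)
noncomputable def r84 : Tr := .c 7 q90 .e
noncomputable def t46 : Tr := .c 1 r84 (.c 7 r47 .e)
noncomputable def q98 : Tr := .c 1 (.l 0) (.c 5 (.l 0) .e)
noncomputable def r85 : Tr := .c 2 q10 (.c 4 q98 .e)
noncomputable def t47 : Tr := .c 7 r85 .e
noncomputable def q99 : Tr := .c 1 (.l 84) .e
noncomputable def r86 : Tr := .c 1 q11 (.c 7 q99 .e)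
noncomputable def q100 : Tr := .c 1 (.l 0) (.c 5 (.l 0) (.c 7 (.l 0) .e))
noncomputable def r87 : Tr := .c 1 q55 (.c 2 q58 (.c 3 q57 (.c 4 q100 .e)))
noncomputable def t48 : Tr := .c 4 r86 (.c 6 r11 (.c 7 r87 .e))
noncomputable def q101 : Tr := .c 1 (.l 0) .e
noncomputable def r88 : Tr := .c 2 q13 (.c 6 q101 (.c 7 q97 .e))
noncomputable def r89 : Tr := .c 1 q13 (.c 2 q13 (.c 3 q13 (.c 4 q91 .e)))
noncomputable def t49 : Tr := .c 3 r88 (.c 7 r89 .e)
noncomputable def q102 : Tr := .c 1 (.l 85) .e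
noncomputable def r90 : Tr := .c 3 q14 (.c 7 q102 .e)
noncomputable def r91 : Tr := .c 1 q61 (.c 2 q58 (.c 3 q62 (.c 4 q100 .e)))
noncomputable def t50 : Tr := .c 2 r90 (.c 6 r15 (.c 7 r91 .e))
noncomputable def r92 : Tr := .c 4 q91 (.c 6 q101 (.c 7 q90 .e))
noncomputable def t51 : Tr := .c 1 r92 (.c 7 r89 .e)
noncomputable def q103 : Tr := .c 0 (.l 18) .e
noncomputable def q104 : Tr := .c 0 (.l 86) .e
noncomputable def r93 : Tr := .c 5 q103 (.c 6 q104 .e)
noncomputable def t52 : Tr := .c 0 r93 .e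
noncomputable def q105 : Tr := .c 0 (.l 87) (.c 2 (.l 87) (.c 4 (.l 87) (.c 6 (.l 87) .e)))
noncomputable def q106 : Tr := .c 0 (.l 88) .e
noncomputable def r94 : Tr := .c 5 q105 (.c 6 q106 .e)
noncomputable def q107 : Tr := .c 0 (.l 89) .e
noncomputable def r95 : Tr := .c 6 q107 .e
noncomputable def q108 : Tr := .c 6 (.l 90) .e
noncomputable def r96 : Tr := .c 0 q108 (.c 6 q107 .e)
noncomputable def t53 : Tr := .c 0 r94 (.c 1 r95 (.c 3 r95 (.c 5 r96 .e)))
noncomputable def q109 : Tr := .c 2 (.l 18) (.c 4 (.l 18) (.c 6 (.l 18) .e))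
noncomputable def r97 : Tr := .c 5 q109 .e
noncomputable def t54 : Tr := .c 0 r97 .e
noncomputable def q110 : Tr := .c 4 (.l 91) .e
noncomputable def q111 : Tr := .c 2 (.l 57) .e
noncomputable def r98 : Tr := .c 1 q110 (.c 3 q111 .e)
noncomputable def t55 : Tr := .c 7 r98 .e
noncomputable def r99 : Tr := .c 6 q104 (.c 7 q103 .e)
noncomputable def t56 : Tr := .c 0 r99 .e
noncomputable def q112 : Tr := .c 2 (.l 18) (.c 4 (.l 18) .e)
noncomputable def r100 : Tr := .c 7 q112 .e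
noncomputable def t57 : Tr := .c 0 r100 (.c 1 r100 (.c 3 r100 .e))
noncomputable def q113 : Tr := .c 4 (.l 20) .e
noncomputable def q114 : Tr := .c 2 (.l 92) .e
noncomputable def r101 : Tr := .c 1 q113 (.c 3 q114 .e)
noncomputable def t58 : Tr := .c 7 r101 .e
noncomputable def q115 : Tr := .c 0 (.l 93) .e
noncomputable def r102 : Tr := .c 0 q26 (.c 6 q115 .e)
noncomputable def t59 : Tr := .c 5 r102 (.c 7 r26 .e)
noncomputable def q116 : Tr := .c 0 (.l 94) .e
noncomputable def q117 : Tr := .c 0 (.l 95) (.c 1 (.l 96) (.c 3 (.l 96) (.c 5 (.l 96) .e)))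
noncomputable def r103 : Tr := .c 5 q116 (.c 6 q117 .e)
noncomputable def r104 : Tr := .c 5 q116 .e
noncomputable def q118 : Tr := .c 5 (.l 97) .e
noncomputable def r105 : Tr := .c 0 q118 (.c 5 q116 .e)
noncomputable def t60 : Tr := .c 0 r103 (.c 2 r104 (.c 4 r104 (.c 6 r105 .e)))
noncomputable def q119 : Tr := .c 0 (.l 98) .e
noncomputable def q120 : Tr := .c 0 (.l 99) .e
noncomputable def r106 : Tr := .c 5 q119 (.c 6 q120 .e)
noncomputable def t61 : Tr := .c 0 r106 .e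
noncomputable def q121 : Tr := .c 1 (.l 96) (.c 3 (.l 96) (.c 5 (.l 96) .e))
noncomputable def r107 : Tr := .c 6 q121 .e
noncomputable def t62 : Tr := .c 0 r107 .e
noncomputable def r108 : Tr := .c 2 q59 (.c 4 q101 .e)
noncomputable def t63 : Tr := .c 7 r108 .e
noncomputable def q122 : Tr := .c 0 (.l 100) .e
noncomputable def r109 : Tr := .c 5 q122 (.c 7 q122 .e)
noncomputable def t64 : Tr := .c 0 r109 .e
noncomputable def q123 : Tr := .c 1 (.l 78) (.c 3 (.l 101) .e)
noncomputable def r110 : Tr := .c 7 q123 .e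
noncomputable def t65 : Tr := .c 0 r110 (.c 2 r110 (.c 4 r110 .e))
noncomputable def q124 : Tr := .c 1 (.l 102) (.c 3 (.l 42) .e)
noncomputable def r111 : Tr := .c 7 q124 .e
noncomputable def t66 : Tr := .c 0 r111 (.c 2 r111 (.c 4 r111 .e))
noncomputable def q125 : Tr := .c 0 (.l 103) .e
noncomputable def r112 : Tr := .c 0 q51 (.c 5 q125 .e)
noncomputable def t67 : Tr := .c 6 r112 (.c 7 r45 .e)
noncomputable def r113 : Tr := .c 5 q103 .e
noncomputable def t68 : Tr := .c 2 r113 (.c 4 r113 (.c 6 r113 .e))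
noncomputable def t69 : Tr := .c 1 r95 (.c 3 r95 (.c 5 r95 .e))
noncomputable def q126 : Tr := .c 1 (.l 104) .e
noncomputable def q127 : Tr := .c 1 (.l 104) (.c 3 (.l 105) .e)
noncomputable def r114 : Tr := .c 4 q126 (.c 6 q127 .e)
noncomputable def r115 : Tr := .c 3 q64 (.c 5 q112 .e)
noncomputable def q128 : Tr := .c 3 (.l 106) .e
noncomputable def q129 : Tr := .c 1 (.l 107) (.c 3 (.l 106) .e)
noncomputable def r116 : Tr := .c 2 q128 (.c 6 q129 .e)
noncomputable def r117 : Tr := .c 1 q17 (.c 5 q112 .e)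
noncomputable def t70 : Tr := .c 1 r114 (.c 2 r115 (.c 3 r116 (.c 4 r117 .e)))
noncomputable def q130 : Tr := .c 1 (.l 108) .e
noncomputable def q131 : Tr := .c 0 (.l 109) (.c 1 (.l 109) (.c 2 (.l 109) (.c 3 (.l 109) (.c 4
(.l 109) .e))))
noncomputable def r118 : Tr := .c 4 q130 (.c 7 q131 .e)
noncomputable def q132 : Tr := .c 3 (.l 110) .e
noncomputable def r119 : Tr := .c 2 q132 (.c 4 q130 .e)
noncomputable def q133 : Tr := .c 4 (.l 111) .e
noncomputable def q134 : Tr := .c 2 (.l 112) .e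
noncomputable def r120 : Tr := .c 1 q133 (.c 2 q132 (.c 3 q134 (.c 4 q130 .e)))
noncomputable def t71 : Tr := .c 1 r118 (.c 5 r119 (.c 7 r120 .e))
noncomputable def q135 : Tr := .c 0 (.l 109) (.c 2 (.l 109) (.c 4 (.l 109) .e))
noncomputable def r121 : Tr := .c 7 q135 .e
noncomputable def q136 : Tr := .c 0 (.l 113) (.c 2 (.l 113) (.c 4 (.l 113) .e))
noncomputable def r122 : Tr := .c 7 q136 .e
noncomputable def t72 : Tr := .c 1 r121 (.c 3 r122 .e)
noncomputable def q137 : Tr := .c 1 (.l 114) (.c 2 (.l 115) (.c 3 (.l 116) (.c 4 (.l 115) .e)))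
noncomputable def r123 : Tr := .c 4 q126 (.c 7 q137 .e)
noncomputable def q138 : Tr := .c 1 (.l 117) (.c 2 (.l 18) (.c 3 (.l 118) (.c 4 (.l 18) .e)))
noncomputable def r124 : Tr := .c 3 q64 (.c 5 q112 (.c 7 q138 .e))
noncomputable def q139 : Tr := .c 1 (.l 119) (.c 2 (.l 120) (.c 3 (.l 121) (.c 4 (.l 120) .e)))
noncomputable def r125 : Tr := .c 2 q128 (.c 7 q139 .e)
noncomputable def r126 : Tr := .c 1 q17 (.c 5 q112 (.c 7 q138 .e))
noncomputable def t73 : Tr := .c 1 r123 (.c 2 r124 (.c 3 r125 (.c 4 r126 .e)))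
noncomputable def q140 : Tr := .c 0 (.l 18) (.c 1 (.l 18) (.c 2 (.l 18) (.c 3 (.l 18) (.c 4 (.l
18) .e))))
noncomputable def r127 : Tr := .c 3 q64 (.c 7 q140 .e)
noncomputable def r128 : Tr := .c 1 q17 (.c 3 q64 .e)
noncomputable def q141 : Tr := .c 3 (.l 122) .e
noncomputable def q142 : Tr := .c 1 (.l 123) .e
noncomputable def r129 : Tr := .c 1 q110 (.c 2 q141 (.c 3 q111 (.c 4 q142 .e)))
noncomputable def t74 : Tr := .c 2 r127 (.c 6 r128 (.c 7 r129 .e))
noncomputable def q143 : Tr := .c 0 (.l 18) (.c 1 (.l 18) (.c 3 (.l 18) .e))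
noncomputable def r130 : Tr := .c 7 q143 .e
noncomputable def t75 : Tr := .c 2 r130 (.c 4 r130 .e)
noncomputable def q144 : Tr := .c 1 (.l 124) (.c 2 (.l 18) (.c 3 (.l 125) (.c 4 (.l 18) .e)))
noncomputable def r131 : Tr := .c 4 q126 (.c 6 q127 (.c 7 q144 .e))
noncomputable def q145 : Tr := .c 1 (.l 18) (.c 2 (.l 18) (.c 3 (.l 18) (.c 4 (.l 18) .e)))
noncomputable def r132 : Tr := .c 3 q64 (.c 7 q145 .e)
noncomputable def q146 : Tr := .c 1 (.l 126) (.c 2 (.l 18) (.c 3 (.l 127) (.c 4 (.l 18) .e)))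
noncomputable def r133 : Tr := .c 2 q128 (.c 6 q129 (.c 7 q146 .e))
noncomputable def r134 : Tr := .c 1 q17 (.c 7 q145 .e)
noncomputable def t76 : Tr := .c 1 r131 (.c 2 r132 (.c 3 r133 (.c 4 r134 .e)))
noncomputable def q147 : Tr := .c 3 (.l 128) .e
noncomputable def q148 : Tr := .c 0 (.l 129) (.c 1 (.l 129) (.c 2 (.l 129) (.c 3 (.l 129) (.c 4
(.l 129) .e))))
noncomputable def r135 : Tr := .c 2 q147 (.c 7 q148 .e)
noncomputable def q149 : Tr := .c 1 (.l 130) .e
noncomputable def r136 : Tr := .c 2 q147 (.c 4 q149 .e)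
noncomputable def q150 : Tr := .c 4 (.l 131) .e
noncomputable def q151 : Tr := .c 2 (.l 132) .e
noncomputable def r137 : Tr := .c 1 q150 (.c 2 q147 (.c 3 q151 (.c 4 q149 .e)))
noncomputable def t77 : Tr := .c 3 r135 (.c 5 r136 (.c 7 r137 .e))
noncomputable def q152 : Tr := .c 0 (.l 133) (.c 2 (.l 133) (.c 4 (.l 133) .e))
noncomputable def r138 : Tr := .c 7 q152 .e
noncomputable def q153 : Tr := .c 0 (.l 129) (.c 2 (.l 129) (.c 4 (.l 129) .e))
noncomputable def r139 : Tr := .c 7 q153 .e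
noncomputable def t78 : Tr := .c 1 r138 (.c 3 r139 .e)
noncomputable def q154 : Tr := .c 1 (.l 134) (.c 2 (.l 135) (.c 3 (.l 136) (.c 4 (.l 135) .e)))
noncomputable def r140 : Tr := .c 4 q126 (.c 7 q154 .e)
noncomputable def q155 : Tr := .c 1 (.l 137) (.c 2 (.l 18) (.c 3 (.l 138) (.c 4 (.l 18) .e)))
noncomputable def r141 : Tr := .c 3 q64 (.c 5 q112 (.c 7 q155 .e))
noncomputable def q156 : Tr := .c 1 (.l 139) (.c 2 (.l 140) (.c 3 (.l 141) (.c 4 (.l 140) .e)))
noncomputable def r142 : Tr := .c 2 q128 (.c 7 q156 .e)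
noncomputable def r143 : Tr := .c 1 q17 (.c 5 q112 (.c 7 q155 .e))
noncomputable def t79 : Tr := .c 1 r140 (.c 2 r141 (.c 3 r142 (.c 4 r143 .e)))
noncomputable def r144 : Tr := .c 1 q17 (.c 7 q140 .e)
noncomputable def q157 : Tr := .c 3 (.l 142) .e
noncomputable def q158 : Tr := .c 1 (.l 143) .e
noncomputable def r145 : Tr := .c 1 q113 (.c 2 q157 (.c 3 q114 (.c 4 q158 .e)))
noncomputable def t80 : Tr := .c 4 r144 (.c 6 r128 (.c 7 r145 .e))

/-- the diagram -/
noncomputable def T : Tr := (.c 0 (.c 5 (.c 0 t0 (.c 2 t1 (.c 4 t1 (.c 6 t2 .e)))) (.c 6 (.c 0 t3 (.c 1 t4 (.c 3 t4 (.c 5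
t5 .e)))) (.c 7 (.c 0 t6 (.c 1 t7 (.c 2 t8 (.c 3 t9 (.c 4 t10 .e))))) .e))) (.c 1 (.c 4 (.c 1
t11 (.c 5 t12 (.c 7 t13 .e))) (.c 6 (.c 0 t14 (.c 1 t15 (.c 3 t16 .e))) (.c 7 (.c 0 t17 (.c 1
t18 (.c 2 t19 (.c 3 t20 (.c 4 t21 .e))))) .e))) (.c 2 (.c 3 (.c 2 t22 (.c 6 t23 (.c 7 t24 .e)))
(.c 5 (.c 0 t25 (.c 2 t26 (.c 4 t27 .e))) (.c 7 (.c 0 t28 (.c 1 t29 (.c 2 t30 (.c 3 t31 (.c 4
t32 .e))))) .e))) (.c 3 (.c 2 (.c 3 t33 (.c 5 t34 (.c 7 t35 .e))) (.c 6 (.c 0 t14 (.c 1 t36 (.c
3 t37 .e))) (.c 7 (.c 0 t38 (.c 1 t39 (.c 2 t40 (.c 3 t41 (.c 4 t42 .e))))) .e))) (.c 4 (.c 1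
(.c 4 t43 (.c 6 t23 (.c 7 t44 .e))) (.c 5 (.c 0 t25 (.c 2 t45 (.c 4 t46 .e))) (.c 7 (.c 0 t47
(.c 1 t48 (.c 2 t49 (.c 3 t50 (.c 4 t51 .e))))) .e))) (.c 5 (.c 0 (.c 5 t52 (.c 6 t53 (.c 7 t54
.e))) (.c 2 (.c 3 t55 (.c 5 t56 (.c 7 t57 .e))) (.c 4 (.c 1 t58 (.c 5 t56 (.c 7 t57 .e))) (.c 6
(.c 0 t59 (.c 5 t56 .e)) .e)))) (.c 6 (.c 0 (.c 5 t60 (.c 6 t61 (.c 7 t62 .e))) (.c 1 (.c 4 t63
(.c 6 t64 (.c 7 t65 .e))) (.c 3 (.c 2 t63 (.c 6 t64 (.c 7 t66 .e))) (.c 5 (.c 0 t67 (.c 6 t64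
.e)) .e)))) (.c 7 (.c 0 (.c 5 t68 (.c 6 t69 (.c 7 t70 .e))) (.c 1 (.c 4 t71 (.c 6 t72 (.c 7 t73
.e))) (.c 2 (.c 3 t74 (.c 5 t75 (.c 7 t76 .e))) (.c 3 (.c 2 t77 (.c 6 t78 (.c 7 t79 .e))) (.c 4
(.c 1 t80 (.c 5 t75 (.c 7 t76 .e))) .e))))) .e))))))))

theorem k0 : chkQ0 D J R 144 T = true := by decide +kernel
theorem c0 : csP D J T 0 = true := by decide +kernel
theorem c1 : csP D J T 1 = true := by decide +kernel
theorem c2 : csP D J T 2 = true := by decide +kernel
theorem c3 : csP D J T 3 = true := by decide +kernel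
theorem c4 : csP D J T 4 = true := by decide +kernel
theorem c5 : csP D J T 5 = true := by decide +kernel
theorem c6 : csP D J T 6 = true := by decide +kernel
theorem c7 : csP D J T 7 = true := by decide +kernel
theorem c8 : csP D J T 8 = true := by decide +kernel
theorem c9 : csP D J T 9 = true := by decide +kernel
theorem c10 : csP D J T 10 = true := by decide +kernel
theorem c11 : csP D J T 11 = true := by decide +kernel
theorem c12 : csP D J T 12 = true := by decide +kernel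
theorem c13 : csP D J T 13 = true := by decide +kernel
theorem c14 : csP D J T 14 = true := by decide +kernel
theorem c15 : csP D J T 15 = true := by decide +kernel
theorem c16 : csP D J T 16 = true := by decide +kernel
theorem c17 : csP D J T 17 = true := by decide +kernel

theorem cs : ∀ p < D.N, csP D J T p = true := by
  intro p hp
  have hp : p < 18 := hp
  interval_cases p
  · exact c0
  · exact c1
  · exact c2
  · exact c3
  · exact c4
  · exact c5
  · exact c6
  · exact c7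
  · exact c8
  · exact c9
  · exact c10
  · exact c11
  · exact c12
  · exact c13
  · exact c14
  · exact c15
  · exact c16
  · exact c17

/-- the box table -/
theorem tab : BoxTab D := boxTab_of (by decide) (by decide) k0 cs

end C32t

end Vale.Agent.P032.Words.Trie
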