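import Vale.Agent.P032.Words.H670.Split

/-!
# Hexagons around a centre with six colours: box tables
-/

namespace Vale.Agent.P032.Words.Trie

/-! ### 01 02 03 12 14 34 35 45 (7|56: 7 never) -/

namespace C34a

/-- the data -/
def D : Dat where
  A := 8
  N := 17
  nb := [224, 240, 152, 228, 70, 11, 27, 15]
  op := [63, 79, 119, 155, 189, 245, 230, 248]
  nbT := [65760, 114928, 41112, 71908, 5190, 11, 8731, 1295, 106624, 70720, 123536, 40968, 57880, 73028,
5122, 7430, 9995]
  opT := [65343, 16207, 89975, 59291, 125885, 131061, 122342, 129784, 130943, 131007, 130927, 131063,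
131047, 131003, 131069, 131065, 131060]
  PL := [[0], [1], [2], [3], [4], [5], [6], [7], [0, 2], [0, 4], [1, 2], [2, 5], [2, 6], [3, 4], [4,
5], [4, 7], [5, 6, 7]]
  L := [3, 5, 9, 6, 18, 24, 40, 48]
  P := [3, 5, 9, 6, 18, 24, 40, 48, 11, 19, 13, 25, 41, 22, 26, 50, 56]
  r := 0
  tie := [0, 0, 0, 0, 0, 0, 0, 0, 0, 0, 0, 0, 0, 0, 0, 0, 0]

/-- changes of the value at a tie -/
def J : List (List ℕ) := [[]]

/-- reachable values -/
def R : List (List ℕ) := [[1], [2], [4], [8], [0x10], [0x20], [0x40], [0x80], [0x100], [0x200], [0x400], [0x800],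
[0x1000], [0x2000], [0x4000], [0x8000], [0x10000], [0x20000], [0x40000], [0x80000], [0x100000],
[0x200000], [0x400000], [0x800000], [0x1000000], [0x2000000], [0x4000000], [0x8000000],
[0x10000000], [0x20000000], [0x40000000], [0x80000000], [0x100000000], [0x200000000],
[0x400000000], [0x800000000], [0x1000000000], [0x2000000000], [0x4000000000], [0x8000000000],
[0x10000000000], [0x20000000000], [0x40000000000], [0x80000000000], [0x100000000000],
[0x200000000000], [0x400000000000], [0x800000000000], [0x1000000000000], [0x2000000000000],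
[0x4000000000000], [0x8000000000000], [0x10000000000000], [0x20000000000000],
[0x40000000000000], [0x80000000000000], [0x100000000000000], [0x200000000000000],
[0x400000000000000], [0x800000000000000], [0x1000000000000000], [0x2000000000000000],
[0x4000000000000000], [0x8000000000000000], [0x10000000000000000], [0x20000000000000000],
[0x40000000000000000], [0x80000000000000000], [0x100000000000000000], [0x200000000000000000],
[0x400000000000000000], [0x800000000000000000], [0x1000000000000000000],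
[0x2000000000000000000]]

noncomputable def q0 : Tr := .c 5 (.l 0) .e
noncomputable def r0 : Tr := .c 0 q0 .e
noncomputable def t0 : Tr := .c 5 r0 .e
noncomputable def q1 : Tr := .c 6 (.l 1) .e
noncomputable def r1 : Tr := .c 0 q1 .e
noncomputable def t1 : Tr := .c 5 r1 .e
noncomputable def q2 : Tr := .c 7 (.l 2) .e
noncomputable def r2 : Tr := .c 0 q2 .e
noncomputable def t2 : Tr := .c 5 r2 .e
noncomputable def q3 : Tr := .c 5 (.l 3) .e
noncomputable def r3 : Tr := .c 1 q3 .e
noncomputable def t3 : Tr := .c 5 r3 .e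
noncomputable def q4 : Tr := .c 6 (.l 4) .e
noncomputable def r4 : Tr := .c 1 q4 .e
noncomputable def t4 : Tr := .c 4 r4 (.c 5 r4 .e)
noncomputable def q5 : Tr := .c 7 (.l 5) .e
noncomputable def r5 : Tr := .c 1 q5 .e
noncomputable def t5 : Tr := .c 5 r5 .e
noncomputable def q6 : Tr := .c 5 (.l 6) .e
noncomputable def r6 : Tr := .c 3 q6 .e
noncomputable def t6 : Tr := .c 5 r6 .e
noncomputable def q7 : Tr := .c 6 (.l 7) .e
noncomputable def r7 : Tr := .c 3 q7 .e
noncomputable def t7 : Tr := .c 5 r7 .e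
noncomputable def q8 : Tr := .c 7 (.l 8) .e
noncomputable def r8 : Tr := .c 3 q8 .e
noncomputable def t8 : Tr := .c 2 r8 (.c 5 r8 .e)
noncomputable def q9 : Tr := .c 6 (.l 9) .e
noncomputable def r9 : Tr := .c 0 q9 (.c 3 q9 (.c 4 q9 .e))
noncomputable def t9 : Tr := .c 6 r9 .e
noncomputable def q10 : Tr := .c 4 (.l 10) .e
noncomputable def r10 : Tr := .c 2 q10 .e
noncomputable def t10 : Tr := .c 3 r10 .e
noncomputable def q11 : Tr := .c 6 (.l 11) .e
noncomputable def r11 : Tr := .c 4 q11 .e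
noncomputable def q12 : Tr := .c 7 (.l 12) .e
noncomputable def r12 : Tr := .c 2 q12 .e
noncomputable def t11 : Tr := .c 1 r11 (.c 3 r12 .e)
noncomputable def q13 : Tr := .c 5 (.l 13) .e
noncomputable def r13 : Tr := .c 0 q13 .e
noncomputable def t12 : Tr := .c 6 r13 .e
noncomputable def r14 : Tr := .c 0 q9 (.c 4 q9 .e)
noncomputable def t13 : Tr := .c 6 r14 .e
noncomputable def q14 : Tr := .c 7 (.l 14) .e
noncomputable def r15 : Tr := .c 0 q14 .e
noncomputable def t14 : Tr := .c 6 r15 .e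
noncomputable def q15 : Tr := .c 4 (.l 15) (.c 5 (.l 15) .e)
noncomputable def r16 : Tr := .c 1 q15 .e
noncomputable def t15 : Tr := .c 6 r16 .e
noncomputable def q16 : Tr := .c 6 (.l 16) .e
noncomputable def r17 : Tr := .c 1 q16 .e
noncomputable def t16 : Tr := .c 6 r17 .e
noncomputable def q17 : Tr := .c 4 (.l 15) (.c 7 (.l 15) .e)
noncomputable def r18 : Tr := .c 1 q17 .e
noncomputable def t17 : Tr := .c 6 r18 .e
noncomputable def q18 : Tr := .c 4 (.l 17) .e
noncomputable def r19 : Tr := .c 6 q18 .e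
noncomputable def q19 : Tr := .c 4 (.l 15) (.c 5 (.l 15) (.c 7 (.l 15) .e))
noncomputable def r20 : Tr := .c 1 q19 .e
noncomputable def t18 : Tr := .c 1 r19 (.c 6 r20 .e)
noncomputable def q20 : Tr := .c 5 (.l 18) .e
noncomputable def r21 : Tr := .c 3 q20 .e
noncomputable def t19 : Tr := .c 6 r21 .e
noncomputable def r22 : Tr := .c 3 q9 (.c 4 q9 .e)
noncomputable def t20 : Tr := .c 6 r22 .e
noncomputable def q21 : Tr := .c 4 (.l 19) .e
noncomputable def r23 : Tr := .c 6 q21 .e
noncomputable def t21 : Tr := .c 3 r23 .e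
noncomputable def t22 : Tr := .c 2 r8 (.c 6 r8 .e)
noncomputable def q22 : Tr := .c 4 (.l 20) .e
noncomputable def r24 : Tr := .c 1 q22 .e
noncomputable def t23 : Tr := .c 4 r24 .e
noncomputable def q23 : Tr := .c 7 (.l 21) .e
noncomputable def r25 : Tr := .c 1 q23 .e
noncomputable def t24 : Tr := .c 4 r25 .e
noncomputable def q24 : Tr := .c 3 (.l 22) .e
noncomputable def r26 : Tr := .c 7 q24 .e
noncomputable def q25 : Tr := .c 7 (.l 11) .e
noncomputable def r27 : Tr := .c 3 q25 (.c 7 q24 .e)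
noncomputable def t25 : Tr := .c 0 r26 (.c 1 r26 (.c 2 r27 .e))
noncomputable def q26 : Tr := .c 3 (.l 23) .e
noncomputable def r28 : Tr := .c 2 q26 .e
noncomputable def t26 : Tr := .c 4 r28 .e
noncomputable def q27 : Tr := .c 4 (.l 24) .e
noncomputable def r29 : Tr := .c 2 q27 .e
noncomputable def t27 : Tr := .c 4 r29 .e
noncomputable def q28 : Tr := .c 7 (.l 25) .e
noncomputable def r30 : Tr := .c 2 q28 .e
noncomputable def t28 : Tr := .c 4 r30 .e
noncomputable def q29 : Tr := .c 3 (.l 26) .e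
noncomputable def r31 : Tr := .c 6 q29 .e
noncomputable def t29 : Tr := .c 4 r31 .e
noncomputable def q30 : Tr := .c 4 (.l 27) .e
noncomputable def r32 : Tr := .c 6 q30 .e
noncomputable def t30 : Tr := .c 4 r32 .e
noncomputable def q31 : Tr := .c 3 (.l 17) .e
noncomputable def r33 : Tr := .c 3 q8 (.c 7 q31 .e)
noncomputable def t31 : Tr := .c 2 r33 (.c 5 r8 (.c 6 r8 .e))
noncomputable def q32 : Tr := .c 7 (.l 28) .e
noncomputable def r34 : Tr := .c 0 q32 (.c 1 q32 (.c 2 q32 .e))
noncomputable def t32 : Tr := .c 7 r34 .e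
noncomputable def q33 : Tr := .c 2 (.l 29) .e
noncomputable def r35 : Tr := .c 4 q33 .e
noncomputable def t33 : Tr := .c 1 r35 .e
noncomputable def q34 : Tr := .c 6 (.l 30) .e
noncomputable def r36 : Tr := .c 4 q34 .e
noncomputable def q35 : Tr := .c 7 (.l 31) .e
noncomputable def r37 : Tr := .c 2 q35 .e
noncomputable def t34 : Tr := .c 1 r36 (.c 3 r37 .e)
noncomputable def q36 : Tr := .c 5 (.l 32) .e
noncomputable def r38 : Tr := .c 0 q36 .e
noncomputable def t35 : Tr := .c 7 r38 .e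
noncomputable def q37 : Tr := .c 6 (.l 33) .e
noncomputable def r39 : Tr := .c 0 q37 .e
noncomputable def t36 : Tr := .c 7 r39 .e
noncomputable def r40 : Tr := .c 0 q32 (.c 2 q32 .e)
noncomputable def t37 : Tr := .c 7 r40 .e
noncomputable def q38 : Tr := .c 5 (.l 34) .e
noncomputable def r41 : Tr := .c 1 q38 .e
noncomputable def t38 : Tr := .c 7 r41 .e
noncomputable def t39 : Tr := .c 4 r4 (.c 7 r4 .e)
noncomputable def r42 : Tr := .c 1 q32 (.c 2 q32 .e)
noncomputable def t40 : Tr := .c 7 r42 .e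
noncomputable def q39 : Tr := .c 2 (.l 35) .e
noncomputable def r43 : Tr := .c 7 q39 .e
noncomputable def t41 : Tr := .c 1 r43 .e
noncomputable def q40 : Tr := .c 2 (.l 36) (.c 5 (.l 36) .e)
noncomputable def r44 : Tr := .c 3 q40 .e
noncomputable def t42 : Tr := .c 7 r44 .e
noncomputable def q41 : Tr := .c 2 (.l 36) (.c 6 (.l 36) .e)
noncomputable def r45 : Tr := .c 3 q41 .e
noncomputable def t43 : Tr := .c 7 r45 .e
noncomputable def q42 : Tr := .c 2 (.l 37) .e
noncomputable def r46 : Tr := .c 7 q42 .e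
noncomputable def q43 : Tr := .c 2 (.l 36) (.c 5 (.l 36) (.c 6 (.l 36) .e))
noncomputable def r47 : Tr := .c 3 q43 .e
noncomputable def t44 : Tr := .c 3 r46 (.c 7 r47 .e)
noncomputable def q44 : Tr := .c 7 (.l 38) .e
noncomputable def r48 : Tr := .c 3 q44 .e
noncomputable def t45 : Tr := .c 7 r48 .e
noncomputable def q45 : Tr := .c 2 (.l 39) .e
noncomputable def r49 : Tr := .c 3 q45 .e
noncomputable def t46 : Tr := .c 2 r49 .e
noncomputable def q46 : Tr := .c 1 (.l 40) .e
noncomputable def r50 : Tr := .c 6 q46 .e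
noncomputable def q47 : Tr := .c 6 (.l 31) .e
noncomputable def r51 : Tr := .c 1 q47 (.c 6 q46 .e)
noncomputable def t47 : Tr := .c 0 r50 (.c 3 r50 (.c 4 r51 .e))
noncomputable def q48 : Tr := .c 6 (.l 41) .e
noncomputable def r52 : Tr := .c 3 q48 .e
noncomputable def t48 : Tr := .c 2 r52 .e
noncomputable def q49 : Tr := .c 1 (.l 42) .e
noncomputable def r53 : Tr := .c 4 q49 .e
noncomputable def t49 : Tr := .c 2 r53 .e
noncomputable def q50 : Tr := .c 2 (.l 43) .e
noncomputable def r54 : Tr := .c 4 q50 .e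
noncomputable def t50 : Tr := .c 2 r54 .e
noncomputable def q51 : Tr := .c 6 (.l 44) .e
noncomputable def r55 : Tr := .c 4 q51 .e
noncomputable def t51 : Tr := .c 2 r55 .e
noncomputable def q52 : Tr := .c 1 (.l 37) .e
noncomputable def r56 : Tr := .c 1 q4 (.c 6 q52 .e)
noncomputable def t52 : Tr := .c 4 r56 (.c 5 r4 (.c 7 r4 .e))
noncomputable def q53 : Tr := .c 1 (.l 45) .e
noncomputable def r57 : Tr := .c 7 q53 .e
noncomputable def t53 : Tr := .c 2 r57 .e
noncomputable def q54 : Tr := .c 2 (.l 46) .e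
noncomputable def r58 : Tr := .c 7 q54 .e
noncomputable def t54 : Tr := .c 2 r58 .e
noncomputable def q55 : Tr := .c 0 (.l 47) .e
noncomputable def r59 : Tr := .c 5 q55 .e
noncomputable def t55 : Tr := .c 0 r59 .e
noncomputable def q56 : Tr := .c 1 (.l 48) .e
noncomputable def r60 : Tr := .c 5 q56 .e
noncomputable def t56 : Tr := .c 0 r60 .e
noncomputable def q57 : Tr := .c 3 (.l 49) .e
noncomputable def r61 : Tr := .c 5 q57 .e
noncomputable def t57 : Tr := .c 0 r61 .e
noncomputable def q58 : Tr := .c 0 (.l 50) .e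
noncomputable def r62 : Tr := .c 6 q58 .e
noncomputable def t58 : Tr := .c 0 r62 .e
noncomputable def t59 : Tr := .c 0 r50 (.c 4 r50 .e)
noncomputable def q59 : Tr := .c 3 (.l 51) .e
noncomputable def r63 : Tr := .c 6 q59 .e
noncomputable def t60 : Tr := .c 0 r63 .e
noncomputable def q60 : Tr := .c 0 (.l 52) .e
noncomputable def r64 : Tr := .c 7 q60 .e
noncomputable def t61 : Tr := .c 0 r64 .e
noncomputable def q61 : Tr := .c 1 (.l 53) .e
noncomputable def r65 : Tr := .c 7 q61 .e
noncomputable def t62 : Tr := .c 0 r65 .e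
noncomputable def t63 : Tr := .c 0 r26 (.c 2 r26 .e)
noncomputable def q62 : Tr := .c 0 (.l 54) .e
noncomputable def r66 : Tr := .c 5 q62 .e
noncomputable def t64 : Tr := .c 1 r66 .e
noncomputable def q63 : Tr := .c 1 (.l 55) .e
noncomputable def r67 : Tr := .c 4 q63 (.c 5 q63 .e)
noncomputable def t65 : Tr := .c 1 r67 .e
noncomputable def q64 : Tr := .c 3 (.l 56) .e
noncomputable def r68 : Tr := .c 5 q64 .e
noncomputable def t66 : Tr := .c 1 r68 .e
noncomputable def q65 : Tr := .c 0 (.l 57) (.c 3 (.l 57) (.c 4 (.l 57) .e))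
noncomputable def r69 : Tr := .c 6 q65 .e
noncomputable def q66 : Tr := .c 4 (.l 58) .e
noncomputable def r70 : Tr := .c 1 q66 .e
noncomputable def t67 : Tr := .c 1 r69 (.c 6 r70 .e)
noncomputable def q67 : Tr := .c 0 (.l 57) (.c 4 (.l 57) .e)
noncomputable def r71 : Tr := .c 6 q67 .e
noncomputable def t68 : Tr := .c 1 r71 .e
noncomputable def q68 : Tr := .c 1 (.l 59) .e
noncomputable def r72 : Tr := .c 6 q68 .e
noncomputable def t69 : Tr := .c 1 r72 .e
noncomputable def q69 : Tr := .c 3 (.l 57) (.c 4 (.l 57) .e)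
noncomputable def r73 : Tr := .c 6 q69 .e
noncomputable def t70 : Tr := .c 1 r73 .e
noncomputable def q70 : Tr := .c 4 (.l 60) .e
noncomputable def r74 : Tr := .c 1 q70 .e
noncomputable def t71 : Tr := .c 7 r74 .e
noncomputable def q71 : Tr := .c 0 (.l 61) .e
noncomputable def r75 : Tr := .c 7 q71 .e
noncomputable def t72 : Tr := .c 1 r75 .e
noncomputable def r76 : Tr := .c 4 q63 (.c 7 q63 .e)
noncomputable def t73 : Tr := .c 1 r76 .e
noncomputable def t74 : Tr := .c 1 r26 (.c 2 r26 .e)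
noncomputable def q72 : Tr := .c 1 (.l 62) .e
noncomputable def r77 : Tr := .c 4 q72 .e
noncomputable def q73 : Tr := .c 3 (.l 63) .e
noncomputable def r78 : Tr := .c 2 q73 .e
noncomputable def t75 : Tr := .c 6 r77 (.c 7 r78 .e)
noncomputable def q74 : Tr := .c 4 (.l 64) .e
noncomputable def r79 : Tr := .c 2 q74 .e
noncomputable def t76 : Tr := .c 7 r79 .e
noncomputable def r80 : Tr := .c 4 q63 (.c 5 q63 (.c 7 q63 .e))
noncomputable def t77 : Tr := .c 1 r80 .e
noncomputable def q75 : Tr := .c 0 (.l 65) .e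
noncomputable def r81 : Tr := .c 5 q75 .e
noncomputable def t78 : Tr := .c 3 r81 .e
noncomputable def q76 : Tr := .c 1 (.l 66) .e
noncomputable def r82 : Tr := .c 5 q76 .e
noncomputable def t79 : Tr := .c 3 r82 .e
noncomputable def q77 : Tr := .c 3 (.l 67) .e
noncomputable def r83 : Tr := .c 2 q77 (.c 5 q77 .e)
noncomputable def t80 : Tr := .c 3 r83 .e
noncomputable def q78 : Tr := .c 2 (.l 68) .e
noncomputable def r84 : Tr := .c 3 q78 .e
noncomputable def t81 : Tr := .c 6 r84 .e
noncomputable def q79 : Tr := .c 0 (.l 69) .e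
noncomputable def r85 : Tr := .c 6 q79 .e
noncomputable def t82 : Tr := .c 3 r85 .e
noncomputable def t83 : Tr := .c 3 r50 (.c 4 r50 .e)
noncomputable def r86 : Tr := .c 2 q77 (.c 6 q77 .e)
noncomputable def t84 : Tr := .c 3 r86 .e
noncomputable def q80 : Tr := .c 1 (.l 70) .e
noncomputable def r87 : Tr := .c 4 q80 .e
noncomputable def q81 : Tr := .c 3 (.l 58) .e
noncomputable def r88 : Tr := .c 2 q81 .e
noncomputable def t85 : Tr := .c 6 r87 (.c 7 r88 .e)
noncomputable def q82 : Tr := .c 2 (.l 71) .e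
noncomputable def r89 : Tr := .c 4 q82 .e
noncomputable def t86 : Tr := .c 6 r89 .e
noncomputable def r90 : Tr := .c 2 q77 (.c 5 q77 (.c 6 q77 .e))
noncomputable def t87 : Tr := .c 3 r90 .e
noncomputable def q83 : Tr := .c 0 (.l 72) (.c 1 (.l 72) (.c 2 (.l 72) .e))
noncomputable def r91 : Tr := .c 7 q83 .e
noncomputable def q84 : Tr := .c 2 (.l 62) .e
noncomputable def r92 : Tr := .c 3 q84 .e
noncomputable def t88 : Tr := .c 3 r91 (.c 7 r92 .e)
noncomputable def q85 : Tr := .c 0 (.l 72) (.c 2 (.l 72) .e)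
noncomputable def r93 : Tr := .c 7 q85 .e
noncomputable def t89 : Tr := .c 3 r93 .e
noncomputable def q86 : Tr := .c 1 (.l 72) (.c 2 (.l 72) .e)
noncomputable def r94 : Tr := .c 7 q86 .e
noncomputable def t90 : Tr := .c 3 r94 .e
noncomputable def q87 : Tr := .c 3 (.l 73) .e
noncomputable def r95 : Tr := .c 7 q87 .e
noncomputable def t91 : Tr := .c 3 r95 .e

/-- the diagram -/
noncomputable def T : Tr := (.c 0 (.c 5 (.c 0 t0 (.c 1 t1 (.c 3 t2 .e))) (.c 6 (.c 0 t3 (.c 1 t4 (.c 3 t5 .e))) (.c 7 (.c 0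
t6 (.c 1 t7 (.c 3 t8 .e))) .e))) (.c 1 (.c 4 (.c 1 t9 (.c 2 t10 (.c 6 t11 .e))) (.c 5 (.c 0 t12
(.c 1 t13 (.c 3 t14 .e))) (.c 6 (.c 0 t15 (.c 1 t16 (.c 3 t17 (.c 4 t18 .e)))) (.c 7 (.c 0 t19
(.c 1 t20 (.c 2 t21 (.c 3 t22 .e)))) .e)))) (.c 2 (.c 3 (.c 2 t23 (.c 6 t24 (.c 7 t25 .e))) (.c
4 (.c 1 t26 (.c 2 t27 (.c 6 t28 .e))) (.c 7 (.c 1 t29 (.c 2 t30 (.c 3 t31 .e))) .e))) (.c 3 (.c
2 (.c 3 t32 (.c 4 t33 (.c 7 t34 .e))) (.c 5 (.c 0 t35 (.c 1 t36 (.c 3 t37 .e))) (.c 6 (.c 0 t38
(.c 1 t39 (.c 3 t40 (.c 4 t41 .e)))) (.c 7 (.c 0 t42 (.c 1 t43 (.c 2 t44 (.c 3 t45 .e))))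
.e)))) (.c 4 (.c 1 (.c 4 t46 (.c 6 t47 (.c 7 t48 .e))) (.c 2 (.c 3 t49 (.c 4 t50 (.c 7 t51
.e))) (.c 6 (.c 1 t52 (.c 3 t53 (.c 4 t54 .e))) .e))) (.c 5 (.c 0 (.c 5 t55 (.c 6 t56 (.c 7 t57
.e))) (.c 1 (.c 5 t58 (.c 6 t59 (.c 7 t60 .e))) (.c 3 (.c 5 t61 (.c 6 t62 (.c 7 t63 .e))) .e)))
(.c 6 (.c 0 (.c 5 t64 (.c 6 t65 (.c 7 t66 .e))) (.c 1 (.c 4 t67 (.c 5 t68 (.c 6 t69 (.c 7 t70
.e)))) (.c 3 (.c 2 t71 (.c 5 t72 (.c 6 t73 (.c 7 t74 .e)))) (.c 4 (.c 1 t75 (.c 2 t76 (.c 6 t77
.e))) .e)))) (.c 7 (.c 0 (.c 5 t78 (.c 6 t79 (.c 7 t80 .e))) (.c 1 (.c 4 t81 (.c 5 t82 (.c 6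
t83 (.c 7 t84 .e)))) (.c 2 (.c 3 t85 (.c 4 t86 (.c 7 t87 .e))) (.c 3 (.c 2 t88 (.c 5 t89 (.c 6
t90 (.c 7 t91 .e)))) .e)))) .e))))))))

theorem k0 : chkQ0 D J R 74 T = true := by decide +kernel
theorem c0 : csP D J T 0 = true := by decide +kernel
theorem c1 : csP D J T 1 = true := by decide +kernel
theorem c2 : csP D J T 2 = true := by decide +kernel
theorem c3 : csP D J T 3 = true := by decide +kernel
theorem c4 : csP D J T 4 = true := by decide +kernel
theorem c5 : csP D J T 5 = true := by decide +kernel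
theorem c6 : csP D J T 6 = true := by decide +kernel
theorem c7 : csP D J T 7 = true := by decide +kernel
theorem c8 : csP D J T 8 = true := by decide +kernel
theorem c9 : csP D J T 9 = true := by decide +kernel
theorem c10 : csP D J T 10 = true := by decide +kernel
theorem c11 : csP D J T 11 = true := by decide +kernel
theorem c12 : csP D J T 12 = true := by decide +kernel
theorem c13 : csP D J T 13 = true := by decide +kernel
theorem c14 : csP D J T 14 = true := by decide +kernel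
theorem c15 : csP D J T 15 = true := by decide +kernel
theorem c16 : csP D J T 16 = true := by decide +kernel

theorem cs : ∀ p < D.N, csP D J T p = true := by
  intro p hp
  have hp : p < 17 := hp
  interval_cases p
  · exact c0
  · exact c1
  · exact c2
  · exact c3
  · exact c4
  · exact c5
  · exact c6
  · exact c7
  · exact c8
  · exact c9
  · exact c10
  · exact c11
  · exact c12
  · exact c13
  · exact c14
  · exact c15
  · exact c16

/-- the box table -/
theorem tab : BoxTab D := boxTab_of (by decide) (by decide) k0 cs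

end C34a

/-! ### 01 02 03 12 14 34 35 45 (7|56: 56 never) -/

namespace C34b

/-- the data -/
def D : Dat where
  A := 8
  N := 17
  nb := [224, 240, 152, 228, 70, 11, 27, 15]
  op := [63, 79, 119, 155, 189, 245, 230, 248]
  nbT := [224, 98544, 82072, 12516, 10310, 267, 17691, 2831, 110816, 82048, 10304, 115856, 82184,
115992, 14916, 10498, 15110]
  opT := [130879, 32591, 49015, 118683, 120765, 130805, 113382, 128248, 130847, 130943, 131007, 130927,
131063, 131047, 131003, 131069, 131065]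
  PL := [[0], [1], [2], [3], [4], [5], [6], [7], [0, 1, 3], [0, 2], [0, 4], [1, 2], [2, 5], [2, 6], [3,
4], [4, 5], [4, 7]]
  L := [3, 5, 9, 6, 18, 24, 40, 48]
  P := [3, 5, 9, 6, 18, 24, 40, 48, 7, 11, 19, 13, 25, 41, 22, 26, 50]
  r := 0
  tie := [0, 0, 0, 0, 0, 0, 0, 0, 0, 0, 0, 0, 0, 0, 0, 0, 0]

/-- changes of the value at a tie -/
def J : List (List ℕ) := [[]]

/-- reachable values -/
def R : List (List ℕ) := [[1], [2], [4], [8], [0x10], [0x20], [0x40], [0x80], [0x100], [0x200], [0x400], [0x800],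
[0x1000], [0x2000], [0x4000], [0x8000], [0x10000], [0x20000], [0x40000], [0x80000], [0x100000],
[0x200000], [0x400000], [0x800000], [0x1000000], [0x2000000], [0x4000000], [0x8000000],
[0x10000000], [0x20000000], [0x40000000], [0x80000000], [0x100000000], [0x200000000],
[0x400000000], [0x800000000], [0x1000000000], [0x2000000000], [0x4000000000], [0x8000000000],
[0x10000000000], [0x20000000000], [0x40000000000], [0x80000000000], [0x100000000000],
[0x200000000000], [0x400000000000], [0x800000000000], [0x1000000000000], [0x2000000000000],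
[0x4000000000000], [0x8000000000000], [0x10000000000000], [0x20000000000000],
[0x40000000000000], [0x80000000000000], [0x100000000000000], [0x200000000000000],
[0x400000000000000], [0x800000000000000], [0x1000000000000000], [0x2000000000000000],
[0x4000000000000000], [0x8000000000000000], [0x10000000000000000], [0x20000000000000000],
[0x40000000000000000], [0x80000000000000000], [0x100000000000000000], [0x200000000000000000],
[0x400000000000000000], [0x800000000000000000], [0x1000000000000000000],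
[0x2000000000000000000]]

noncomputable def q0 : Tr := .c 5 (.l 0) .e
noncomputable def r0 : Tr := .c 0 q0 .e
noncomputable def t0 : Tr := .c 5 r0 .e
noncomputable def q1 : Tr := .c 6 (.l 1) .e
noncomputable def r1 : Tr := .c 0 q1 .e
noncomputable def t1 : Tr := .c 5 r1 .e
noncomputable def q2 : Tr := .c 7 (.l 2) .e
noncomputable def r2 : Tr := .c 0 q2 .e
noncomputable def t2 : Tr := .c 5 r2 .e
noncomputable def q3 : Tr := .c 5 (.l 3) .e
noncomputable def r3 : Tr := .c 1 q3 .e
noncomputable def t3 : Tr := .c 5 r3 .e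
noncomputable def q4 : Tr := .c 6 (.l 4) .e
noncomputable def r4 : Tr := .c 1 q4 .e
noncomputable def t4 : Tr := .c 4 r4 (.c 5 r4 .e)
noncomputable def q5 : Tr := .c 7 (.l 5) .e
noncomputable def r5 : Tr := .c 1 q5 .e
noncomputable def t5 : Tr := .c 5 r5 .e
noncomputable def q6 : Tr := .c 5 (.l 6) .e
noncomputable def r6 : Tr := .c 3 q6 .e
noncomputable def t6 : Tr := .c 5 r6 .e
noncomputable def q7 : Tr := .c 6 (.l 7) .e
noncomputable def r7 : Tr := .c 3 q7 .e
noncomputable def t7 : Tr := .c 5 r7 .e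
noncomputable def q8 : Tr := .c 7 (.l 8) .e
noncomputable def r8 : Tr := .c 3 q8 .e
noncomputable def t8 : Tr := .c 2 r8 (.c 5 r8 .e)
noncomputable def q9 : Tr := .c 6 (.l 9) .e
noncomputable def r9 : Tr := .c 0 q9 (.c 3 q9 (.c 4 q9 .e))
noncomputable def t9 : Tr := .c 6 r9 .e
noncomputable def q10 : Tr := .c 4 (.l 10) .e
noncomputable def r10 : Tr := .c 2 q10 .e
noncomputable def t10 : Tr := .c 3 r10 .e
noncomputable def q11 : Tr := .c 6 (.l 11) .e
noncomputable def r11 : Tr := .c 4 q11 .e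
noncomputable def q12 : Tr := .c 7 (.l 12) .e
noncomputable def r12 : Tr := .c 2 q12 .e
noncomputable def t11 : Tr := .c 1 r11 (.c 3 r12 .e)
noncomputable def q13 : Tr := .c 5 (.l 13) .e
noncomputable def r13 : Tr := .c 0 q13 .e
noncomputable def t12 : Tr := .c 6 r13 .e
noncomputable def r14 : Tr := .c 0 q9 (.c 4 q9 .e)
noncomputable def t13 : Tr := .c 6 r14 .e
noncomputable def q14 : Tr := .c 7 (.l 14) .e
noncomputable def r15 : Tr := .c 0 q14 .e
noncomputable def t14 : Tr := .c 6 r15 .e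
noncomputable def q15 : Tr := .c 4 (.l 15) (.c 5 (.l 15) .e)
noncomputable def r16 : Tr := .c 1 q15 .e
noncomputable def t15 : Tr := .c 6 r16 .e
noncomputable def q16 : Tr := .c 6 (.l 16) .e
noncomputable def r17 : Tr := .c 1 q16 .e
noncomputable def t16 : Tr := .c 6 r17 .e
noncomputable def q17 : Tr := .c 4 (.l 15) (.c 7 (.l 15) .e)
noncomputable def r18 : Tr := .c 1 q17 .e
noncomputable def t17 : Tr := .c 6 r18 .e
noncomputable def q18 : Tr := .c 4 (.l 17) .e
noncomputable def r19 : Tr := .c 6 q18 .e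
noncomputable def q19 : Tr := .c 4 (.l 15) (.c 5 (.l 15) (.c 7 (.l 15) .e))
noncomputable def r20 : Tr := .c 1 q19 .e
noncomputable def t18 : Tr := .c 1 r19 (.c 6 r20 .e)
noncomputable def q20 : Tr := .c 5 (.l 18) .e
noncomputable def r21 : Tr := .c 3 q20 .e
noncomputable def t19 : Tr := .c 6 r21 .e
noncomputable def r22 : Tr := .c 3 q9 (.c 4 q9 .e)
noncomputable def t20 : Tr := .c 6 r22 .e
noncomputable def q21 : Tr := .c 4 (.l 19) .e
noncomputable def r23 : Tr := .c 6 q21 .e
noncomputable def t21 : Tr := .c 3 r23 .e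
noncomputable def t22 : Tr := .c 2 r8 (.c 6 r8 .e)
noncomputable def q22 : Tr := .c 4 (.l 20) .e
noncomputable def r24 : Tr := .c 1 q22 .e
noncomputable def t23 : Tr := .c 4 r24 .e
noncomputable def q23 : Tr := .c 7 (.l 21) .e
noncomputable def r25 : Tr := .c 1 q23 .e
noncomputable def t24 : Tr := .c 4 r25 .e
noncomputable def q24 : Tr := .c 3 (.l 22) .e
noncomputable def r26 : Tr := .c 7 q24 .e
noncomputable def q25 : Tr := .c 7 (.l 23) .e
noncomputable def r27 : Tr := .c 3 q25 (.c 7 q24 .e)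
noncomputable def t25 : Tr := .c 0 r26 (.c 1 r26 (.c 2 r27 .e))
noncomputable def q26 : Tr := .c 3 (.l 24) .e
noncomputable def r28 : Tr := .c 2 q26 .e
noncomputable def t26 : Tr := .c 4 r28 .e
noncomputable def q27 : Tr := .c 4 (.l 25) .e
noncomputable def r29 : Tr := .c 2 q27 .e
noncomputable def t27 : Tr := .c 4 r29 .e
noncomputable def q28 : Tr := .c 7 (.l 26) .e
noncomputable def r30 : Tr := .c 2 q28 .e
noncomputable def t28 : Tr := .c 4 r30 .e
noncomputable def q29 : Tr := .c 3 (.l 27) .e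
noncomputable def r31 : Tr := .c 6 q29 .e
noncomputable def t29 : Tr := .c 4 r31 .e
noncomputable def q30 : Tr := .c 4 (.l 28) .e
noncomputable def r32 : Tr := .c 6 q30 .e
noncomputable def t30 : Tr := .c 4 r32 .e
noncomputable def q31 : Tr := .c 3 (.l 29) .e
noncomputable def r33 : Tr := .c 3 q8 (.c 7 q31 .e)
noncomputable def t31 : Tr := .c 2 r33 (.c 5 r8 (.c 6 r8 .e))
noncomputable def q32 : Tr := .c 7 (.l 30) .e
noncomputable def r34 : Tr := .c 0 q32 (.c 1 q32 (.c 2 q32 .e))
noncomputable def t32 : Tr := .c 7 r34 .e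
noncomputable def q33 : Tr := .c 2 (.l 31) .e
noncomputable def r35 : Tr := .c 4 q33 .e
noncomputable def t33 : Tr := .c 1 r35 .e
noncomputable def q34 : Tr := .c 6 (.l 32) .e
noncomputable def r36 : Tr := .c 4 q34 .e
noncomputable def q35 : Tr := .c 7 (.l 17) .e
noncomputable def r37 : Tr := .c 2 q35 .e
noncomputable def t34 : Tr := .c 1 r36 (.c 3 r37 .e)
noncomputable def q36 : Tr := .c 5 (.l 33) .e
noncomputable def r38 : Tr := .c 0 q36 .e
noncomputable def t35 : Tr := .c 7 r38 .e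
noncomputable def q37 : Tr := .c 6 (.l 34) .e
noncomputable def r39 : Tr := .c 0 q37 .e
noncomputable def t36 : Tr := .c 7 r39 .e
noncomputable def r40 : Tr := .c 0 q32 (.c 2 q32 .e)
noncomputable def t37 : Tr := .c 7 r40 .e
noncomputable def q38 : Tr := .c 5 (.l 35) .e
noncomputable def r41 : Tr := .c 1 q38 .e
noncomputable def t38 : Tr := .c 7 r41 .e
noncomputable def t39 : Tr := .c 4 r4 (.c 7 r4 .e)
noncomputable def r42 : Tr := .c 1 q32 (.c 2 q32 .e)
noncomputable def t40 : Tr := .c 7 r42 .e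
noncomputable def q39 : Tr := .c 2 (.l 36) .e
noncomputable def r43 : Tr := .c 7 q39 .e
noncomputable def t41 : Tr := .c 1 r43 .e
noncomputable def q40 : Tr := .c 2 (.l 37) (.c 5 (.l 37) .e)
noncomputable def r44 : Tr := .c 3 q40 .e
noncomputable def t42 : Tr := .c 7 r44 .e
noncomputable def q41 : Tr := .c 2 (.l 37) (.c 6 (.l 37) .e)
noncomputable def r45 : Tr := .c 3 q41 .e
noncomputable def t43 : Tr := .c 7 r45 .e
noncomputable def q42 : Tr := .c 2 (.l 11) .e
noncomputable def r46 : Tr := .c 7 q42 .e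
noncomputable def q43 : Tr := .c 2 (.l 37) (.c 5 (.l 37) (.c 6 (.l 37) .e))
noncomputable def r47 : Tr := .c 3 q43 .e
noncomputable def t44 : Tr := .c 3 r46 (.c 7 r47 .e)
noncomputable def q44 : Tr := .c 7 (.l 38) .e
noncomputable def r48 : Tr := .c 3 q44 .e
noncomputable def t45 : Tr := .c 7 r48 .e
noncomputable def q45 : Tr := .c 2 (.l 39) .e
noncomputable def r49 : Tr := .c 3 q45 .e
noncomputable def t46 : Tr := .c 2 r49 .e
noncomputable def q46 : Tr := .c 1 (.l 40) .e
noncomputable def r50 : Tr := .c 6 q46 .e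
noncomputable def q47 : Tr := .c 6 (.l 41) .e
noncomputable def r51 : Tr := .c 1 q47 (.c 6 q46 .e)
noncomputable def t47 : Tr := .c 0 r50 (.c 3 r50 (.c 4 r51 .e))
noncomputable def q48 : Tr := .c 6 (.l 42) .e
noncomputable def r52 : Tr := .c 3 q48 .e
noncomputable def t48 : Tr := .c 2 r52 .e
noncomputable def q49 : Tr := .c 1 (.l 43) .e
noncomputable def r53 : Tr := .c 4 q49 .e
noncomputable def t49 : Tr := .c 2 r53 .e
noncomputable def q50 : Tr := .c 2 (.l 44) .e
noncomputable def r54 : Tr := .c 4 q50 .e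
noncomputable def t50 : Tr := .c 2 r54 .e
noncomputable def q51 : Tr := .c 6 (.l 45) .e
noncomputable def r55 : Tr := .c 4 q51 .e
noncomputable def t51 : Tr := .c 2 r55 .e
noncomputable def q52 : Tr := .c 1 (.l 46) .e
noncomputable def r56 : Tr := .c 1 q4 (.c 6 q52 .e)
noncomputable def t52 : Tr := .c 4 r56 (.c 5 r4 (.c 7 r4 .e))
noncomputable def q53 : Tr := .c 1 (.l 47) .e
noncomputable def r57 : Tr := .c 7 q53 .e
noncomputable def t53 : Tr := .c 2 r57 .e
noncomputable def q54 : Tr := .c 2 (.l 48) .e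
noncomputable def r58 : Tr := .c 7 q54 .e
noncomputable def t54 : Tr := .c 2 r58 .e
noncomputable def q55 : Tr := .c 0 (.l 49) .e
noncomputable def r59 : Tr := .c 5 q55 .e
noncomputable def t55 : Tr := .c 0 r59 .e
noncomputable def q56 : Tr := .c 1 (.l 50) .e
noncomputable def r60 : Tr := .c 5 q56 .e
noncomputable def t56 : Tr := .c 0 r60 .e
noncomputable def q57 : Tr := .c 3 (.l 51) .e
noncomputable def r61 : Tr := .c 5 q57 .e
noncomputable def t57 : Tr := .c 0 r61 .e
noncomputable def q58 : Tr := .c 0 (.l 52) .e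
noncomputable def r62 : Tr := .c 6 q58 .e
noncomputable def t58 : Tr := .c 0 r62 .e
noncomputable def t59 : Tr := .c 0 r50 (.c 4 r50 .e)
noncomputable def q59 : Tr := .c 3 (.l 53) .e
noncomputable def r63 : Tr := .c 6 q59 .e
noncomputable def t60 : Tr := .c 0 r63 .e
noncomputable def q60 : Tr := .c 0 (.l 54) .e
noncomputable def r64 : Tr := .c 7 q60 .e
noncomputable def t61 : Tr := .c 0 r64 .e
noncomputable def q61 : Tr := .c 1 (.l 55) .e
noncomputable def r65 : Tr := .c 7 q61 .e
noncomputable def t62 : Tr := .c 0 r65 .e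
noncomputable def t63 : Tr := .c 0 r26 (.c 2 r26 .e)
noncomputable def q62 : Tr := .c 0 (.l 56) .e
noncomputable def r66 : Tr := .c 5 q62 .e
noncomputable def t64 : Tr := .c 1 r66 .e
noncomputable def q63 : Tr := .c 1 (.l 57) .e
noncomputable def r67 : Tr := .c 4 q63 (.c 5 q63 .e)
noncomputable def t65 : Tr := .c 1 r67 .e
noncomputable def q64 : Tr := .c 3 (.l 58) .e
noncomputable def r68 : Tr := .c 5 q64 .e
noncomputable def t66 : Tr := .c 1 r68 .e
noncomputable def q65 : Tr := .c 0 (.l 59) (.c 3 (.l 59) (.c 4 (.l 59) .e))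
noncomputable def r69 : Tr := .c 6 q65 .e
noncomputable def q66 : Tr := .c 4 (.l 23) .e
noncomputable def r70 : Tr := .c 1 q66 .e
noncomputable def t67 : Tr := .c 1 r69 (.c 6 r70 .e)
noncomputable def q67 : Tr := .c 0 (.l 59) (.c 4 (.l 59) .e)
noncomputable def r71 : Tr := .c 6 q67 .e
noncomputable def t68 : Tr := .c 1 r71 .e
noncomputable def q68 : Tr := .c 1 (.l 60) .e
noncomputable def r72 : Tr := .c 6 q68 .e
noncomputable def t69 : Tr := .c 1 r72 .e
noncomputable def q69 : Tr := .c 3 (.l 59) (.c 4 (.l 59) .e)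
noncomputable def r73 : Tr := .c 6 q69 .e
noncomputable def t70 : Tr := .c 1 r73 .e
noncomputable def q70 : Tr := .c 4 (.l 61) .e
noncomputable def r74 : Tr := .c 1 q70 .e
noncomputable def t71 : Tr := .c 7 r74 .e
noncomputable def q71 : Tr := .c 0 (.l 62) .e
noncomputable def r75 : Tr := .c 7 q71 .e
noncomputable def t72 : Tr := .c 1 r75 .e
noncomputable def r76 : Tr := .c 4 q63 (.c 7 q63 .e)
noncomputable def t73 : Tr := .c 1 r76 .e
noncomputable def t74 : Tr := .c 1 r26 (.c 2 r26 .e)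
noncomputable def q72 : Tr := .c 1 (.l 29) .e
noncomputable def r77 : Tr := .c 4 q72 .e
noncomputable def q73 : Tr := .c 3 (.l 63) .e
noncomputable def r78 : Tr := .c 2 q73 .e
noncomputable def t75 : Tr := .c 6 r77 (.c 7 r78 .e)
noncomputable def q74 : Tr := .c 4 (.l 64) .e
noncomputable def r79 : Tr := .c 2 q74 .e
noncomputable def t76 : Tr := .c 7 r79 .e
noncomputable def r80 : Tr := .c 4 q63 (.c 5 q63 (.c 7 q63 .e))
noncomputable def t77 : Tr := .c 1 r80 .e
noncomputable def q75 : Tr := .c 0 (.l 65) .e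
noncomputable def r81 : Tr := .c 5 q75 .e
noncomputable def t78 : Tr := .c 3 r81 .e
noncomputable def q76 : Tr := .c 1 (.l 66) .e
noncomputable def r82 : Tr := .c 5 q76 .e
noncomputable def t79 : Tr := .c 3 r82 .e
noncomputable def q77 : Tr := .c 3 (.l 67) .e
noncomputable def r83 : Tr := .c 2 q77 (.c 5 q77 .e)
noncomputable def t80 : Tr := .c 3 r83 .e
noncomputable def q78 : Tr := .c 2 (.l 68) .e
noncomputable def r84 : Tr := .c 3 q78 .e
noncomputable def t81 : Tr := .c 6 r84 .e
noncomputable def q79 : Tr := .c 0 (.l 69) .e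
noncomputable def r85 : Tr := .c 6 q79 .e
noncomputable def t82 : Tr := .c 3 r85 .e
noncomputable def t83 : Tr := .c 3 r50 (.c 4 r50 .e)
noncomputable def r86 : Tr := .c 2 q77 (.c 6 q77 .e)
noncomputable def t84 : Tr := .c 3 r86 .e
noncomputable def q80 : Tr := .c 1 (.l 70) .e
noncomputable def r87 : Tr := .c 4 q80 .e
noncomputable def q81 : Tr := .c 3 (.l 46) .e
noncomputable def r88 : Tr := .c 2 q81 .e
noncomputable def t85 : Tr := .c 6 r87 (.c 7 r88 .e)
noncomputable def q82 : Tr := .c 2 (.l 71) .e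
noncomputable def r89 : Tr := .c 4 q82 .e
noncomputable def t86 : Tr := .c 6 r89 .e
noncomputable def r90 : Tr := .c 2 q77 (.c 5 q77 (.c 6 q77 .e))
noncomputable def t87 : Tr := .c 3 r90 .e
noncomputable def q83 : Tr := .c 0 (.l 72) (.c 1 (.l 72) (.c 2 (.l 72) .e))
noncomputable def r91 : Tr := .c 7 q83 .e
noncomputable def q84 : Tr := .c 2 (.l 41) .e
noncomputable def r92 : Tr := .c 3 q84 .e
noncomputable def t88 : Tr := .c 3 r91 (.c 7 r92 .e)
noncomputable def q85 : Tr := .c 0 (.l 72) (.c 2 (.l 72) .e)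
noncomputable def r93 : Tr := .c 7 q85 .e
noncomputable def t89 : Tr := .c 3 r93 .e
noncomputable def q86 : Tr := .c 1 (.l 72) (.c 2 (.l 72) .e)
noncomputable def r94 : Tr := .c 7 q86 .e
noncomputable def t90 : Tr := .c 3 r94 .e
noncomputable def q87 : Tr := .c 3 (.l 73) .e
noncomputable def r95 : Tr := .c 7 q87 .e
noncomputable def t91 : Tr := .c 3 r95 .e

/-- the diagram -/
noncomputable def T : Tr := (.c 0 (.c 5 (.c 0 t0 (.c 1 t1 (.c 3 t2 .e))) (.c 6 (.c 0 t3 (.c 1 t4 (.c 3 t5 .e))) (.c 7 (.c 0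
t6 (.c 1 t7 (.c 3 t8 .e))) .e))) (.c 1 (.c 4 (.c 1 t9 (.c 2 t10 (.c 6 t11 .e))) (.c 5 (.c 0 t12
(.c 1 t13 (.c 3 t14 .e))) (.c 6 (.c 0 t15 (.c 1 t16 (.c 3 t17 (.c 4 t18 .e)))) (.c 7 (.c 0 t19
(.c 1 t20 (.c 2 t21 (.c 3 t22 .e)))) .e)))) (.c 2 (.c 3 (.c 2 t23 (.c 6 t24 (.c 7 t25 .e))) (.c
4 (.c 1 t26 (.c 2 t27 (.c 6 t28 .e))) (.c 7 (.c 1 t29 (.c 2 t30 (.c 3 t31 .e))) .e))) (.c 3 (.c
2 (.c 3 t32 (.c 4 t33 (.c 7 t34 .e))) (.c 5 (.c 0 t35 (.c 1 t36 (.c 3 t37 .e))) (.c 6 (.c 0 t38
(.c 1 t39 (.c 3 t40 (.c 4 t41 .e)))) (.c 7 (.c 0 t42 (.c 1 t43 (.c 2 t44 (.c 3 t45 .e))))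
.e)))) (.c 4 (.c 1 (.c 4 t46 (.c 6 t47 (.c 7 t48 .e))) (.c 2 (.c 3 t49 (.c 4 t50 (.c 7 t51
.e))) (.c 6 (.c 1 t52 (.c 3 t53 (.c 4 t54 .e))) .e))) (.c 5 (.c 0 (.c 5 t55 (.c 6 t56 (.c 7 t57
.e))) (.c 1 (.c 5 t58 (.c 6 t59 (.c 7 t60 .e))) (.c 3 (.c 5 t61 (.c 6 t62 (.c 7 t63 .e))) .e)))
(.c 6 (.c 0 (.c 5 t64 (.c 6 t65 (.c 7 t66 .e))) (.c 1 (.c 4 t67 (.c 5 t68 (.c 6 t69 (.c 7 t70
.e)))) (.c 3 (.c 2 t71 (.c 5 t72 (.c 6 t73 (.c 7 t74 .e)))) (.c 4 (.c 1 t75 (.c 2 t76 (.c 6 t77
.e))) .e)))) (.c 7 (.c 0 (.c 5 t78 (.c 6 t79 (.c 7 t80 .e))) (.c 1 (.c 4 t81 (.c 5 t82 (.c 6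
t83 (.c 7 t84 .e)))) (.c 2 (.c 3 t85 (.c 4 t86 (.c 7 t87 .e))) (.c 3 (.c 2 t88 (.c 5 t89 (.c 6
t90 (.c 7 t91 .e)))) .e)))) .e))))))))

theorem k0 : chkQ0 D J R 74 T = true := by decide +kernel
theorem c0 : csP D J T 0 = true := by decide +kernel
theorem c1 : csP D J T 1 = true := by decide +kernel
theorem c2 : csP D J T 2 = true := by decide +kernel
theorem c3 : csP D J T 3 = true := by decide +kernel
theorem c4 : csP D J T 4 = true := by decide +kernel
theorem c5 : csP D J T 5 = true := by decide +kernel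
theorem c6 : csP D J T 6 = true := by decide +kernel
theorem c7 : csP D J T 7 = true := by decide +kernel
theorem c8 : csP D J T 8 = true := by decide +kernel
theorem c9 : csP D J T 9 = true := by decide +kernel
theorem c10 : csP D J T 10 = true := by decide +kernel
theorem c11 : csP D J T 11 = true := by decide +kernel
theorem c12 : csP D J T 12 = true := by decide +kernel
theorem c13 : csP D J T 13 = true := by decide +kernel
theorem c14 : csP D J T 14 = true := by decide +kernel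
theorem c15 : csP D J T 15 = true := by decide +kernel
theorem c16 : csP D J T 16 = true := by decide +kernel

theorem cs : ∀ p < D.N, csP D J T p = true := by
  intro p hp
  have hp : p < 17 := hp
  interval_cases p
  · exact c0
  · exact c1
  · exact c2
  · exact c3
  · exact c4
  · exact c5
  · exact c6
  · exact c7
  · exact c8
  · exact c9
  · exact c10
  · exact c11
  · exact c12
  · exact c13
  · exact c14
  · exact c15
  · exact c16

/-- the box table -/
theorem tab : BoxTab D := boxTab_of (by decide) (by decide) k0 cs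

end C34b

/-! ### 01 02 03 12 14 34 35 45 (7|56: tie) -/

namespace C34t

/-- the data -/
def D : Dat where
  A := 8
  N := 18
  nb := [224, 240, 152, 228, 70, 11, 27, 15]
  op := [63, 79, 119, 155, 189, 245, 230, 248]
  nbT := [131296, 229616, 82072, 143588, 10310, 267, 17691, 2831, 241888, 213120, 141376, 246928, 82184,
115992, 145988, 10498, 15110, 20235]
  opT := [130623, 32335, 48759, 118427, 120509, 130805, 113382, 128248, 131072, 130687, 130751, 130671,
130807, 130791, 130747, 130813, 130809, 256]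
  PL := [[0], [1], [2], [3], [4], [5], [6], [7], [0, 1, 3], [0, 2], [0, 4], [1, 2], [2, 5], [2, 6], [3,
4], [4, 5], [4, 7], [5, 6, 7]]
  L := [3, 5, 9, 6, 18, 24, 40, 48]
  P := [3, 5, 9, 6, 18, 24, 40, 48, 7, 11, 19, 13, 25, 41, 22, 26, 50, 56]
  r := 1
  tie := [0, 0, 0, 0, 0, 0, 0, 0, 1, 0, 0, 0, 0, 0, 0, 0, 0, 0]

/-- changes of the value at a tie -/
def J : List (List ℕ) := [[], [0x40000204f, 0x800000297, 0x40004127, 0x1000008079, 0x58400100ba, 0x4000813c,
0x40000401c9,
0x40000003d2, 0x1000004c3e4, 0x4800056382, 0x400, 0x800, 0x1000, 0x40004e201,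
0x4000e304,
0x104005e128, 0x18210, 0x20000, 0x400004a340, 0x80000, 0x100000,
0x200000,
0x80023ba0000000400000, 0x800000, 0x1000000, 0x2000000, 0x4000000, 0x8000000,
0x10000000,
0x20000000, 0x11c4000c034, 0x80000000, 0x100000000, 0x200000000, 0x5c40002001,
0x4c40000212,
0x5440008018, 0x2000000000, 0x15c000402d0, 0x8000000000, 0x14040000100,
0x20000000000,
0x22c082d0040000000000, 0x80000000000, 0x100000000000, 0x200000000000,
0x400000000000,
0x800000000000, 0x1000000000000, 0x2000000000000, 0x4000000000000,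
0x200578000000000000,
0x400a38040000000000, 0x8010b8000000400000, 0x20021c8040000000000,
0x8020e0040000400000,
0x20020348000000400000, 0x20000b10040000400000, 0x223c08000000000000,
0x20429e10000000400000,
0x803c20000000400000, 0x282b4c0000000400000, 0x4000000000000000,
0xa800040000000000,
0x10000000000000000, 0x20022d00000000400000, 0x40000000000000000,
0x80000000000000000,
0x100000000000000000, 0x22e00408000000000000, 0x20e00810040000000000,
0x82e030a0040000000000,
0x1000000000000000000, 0x22a02040040000000000, 0x4000000000000000000,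
0x8000000000000000000,
0x10000000000000000000, 0xa2620b00040000000000, 0x40000000000000000000,
0xa0800000000000400000]]

/-- reachable values -/
def R : List (List ℕ) := [[1, 0x40000204f], [2, 0x800000297], [4, 0x40004127], [8, 0x1000008079], [0x10, 0x58400100ba],
[0x20, 0x4000813c], [0x40, 0x40000401c9], [0x80, 0x40000003d2], [0x100, 0x1000004c3e4], [0x200,
0x4800056382], [0x400, 0x400], [0x800, 0x800], [0x1000, 0x1000], [0x2000, 0x40004e201],
[0x4000, 0x4000e304], [0x8000, 0x104005e128], [0x10000, 0x18210], [0x20000, 0x20000], [0x40000,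
0x400004a340], [0x80000, 0x80000], [0x100000, 0x100000], [0x200000, 0x200000], [0x400000,
0x80023ba0000000400000], [0x800000, 0x800000], [0x1000000, 0x1000000], [0x2000000, 0x2000000],
[0x4000000, 0x4000000], [0x8000000, 0x8000000], [0x10000000, 0x10000000], [0x20000000,
0x20000000], [0x40000000, 0x11c4000c034], [0x80000000, 0x80000000], [0x100000000, 0x100000000],
[0x200000000, 0x200000000], [0x400000000, 0x5c40002001], [0x800000000, 0x4c40000212],
[0x1000000000, 0x5440008018], [0x2000000000, 0x2000000000], [0x4000000000, 0x15c000402d0],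
[0x8000000000, 0x8000000000], [0x10000000000, 0x14040000100], [0x20000000000, 0x20000000000],
[0x40000000000, 0x22c082d0040000000000], [0x80000000000, 0x80000000000], [0x100000000000,
0x100000000000], [0x200000000000, 0x200000000000], [0x400000000000, 0x400000000000],
[0x800000000000, 0x800000000000], [0x1000000000000, 0x1000000000000], [0x2000000000000,
0x2000000000000], [0x4000000000000, 0x4000000000000], [0x8000000000000, 0x200578000000000000],
[0x10000000000000, 0x400a38040000000000], [0x20000000000000, 0x8010b8000000400000],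
[0x40000000000000, 0x20021c8040000000000], [0x80000000000000, 0x8020e0040000400000],
[0x100000000000000, 0x20020348000000400000], [0x200000000000000, 0x20000b10040000400000],
[0x400000000000000, 0x223c08000000000000], [0x800000000000000, 0x20429e10000000400000],
[0x1000000000000000, 0x803c20000000400000], [0x2000000000000000, 0x282b4c0000000400000],
[0x4000000000000000, 0x4000000000000000], [0x8000000000000000, 0xa800040000000000],
[0x10000000000000000, 0x10000000000000000], [0x20000000000000000, 0x20022d00000000400000],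
[0x40000000000000000, 0x40000000000000000], [0x80000000000000000, 0x80000000000000000],
[0x100000000000000000, 0x100000000000000000], [0x200000000000000000, 0x22e00408000000000000],
[0x400000000000000000, 0x20e00810040000000000], [0x800000000000000000, 0x82e030a0040000000000],
[0x1000000000000000000, 0x1000000000000000000], [0x2000000000000000000,
0x22a02040040000000000], [0x4000000000000000000, 0x4000000000000000000],
[0x8000000000000000000, 0x8000000000000000000], [0x10000000000000000000,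
0x10000000000000000000], [0x20000000000000000000, 0xa2620b00040000000000],
[0x40000000000000000000, 0x40000000000000000000], [0x80000000000000000000,
0xa0800000000000400000]]

noncomputable def q0 : Tr := .c 5 (.l 0) .e
noncomputable def r0 : Tr := .c 0 q0 .e
noncomputable def t0 : Tr := .c 5 r0 .e
noncomputable def q1 : Tr := .c 6 (.l 1) .e
noncomputable def r1 : Tr := .c 0 q1 .e
noncomputable def t1 : Tr := .c 5 r1 .e
noncomputable def q2 : Tr := .c 7 (.l 2) .e
noncomputable def r2 : Tr := .c 0 q2 .e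
noncomputable def t2 : Tr := .c 5 r2 .e
noncomputable def q3 : Tr := .c 5 (.l 3) .e
noncomputable def r3 : Tr := .c 1 q3 .e
noncomputable def t3 : Tr := .c 5 r3 .e
noncomputable def q4 : Tr := .c 6 (.l 4) .e
noncomputable def r4 : Tr := .c 1 q4 .e
noncomputable def t4 : Tr := .c 4 r4 (.c 5 r4 .e)
noncomputable def q5 : Tr := .c 7 (.l 5) .e
noncomputable def r5 : Tr := .c 1 q5 .e
noncomputable def t5 : Tr := .c 5 r5 .e
noncomputable def q6 : Tr := .c 5 (.l 6) .e
noncomputable def r6 : Tr := .c 3 q6 .e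
noncomputable def t6 : Tr := .c 5 r6 .e
noncomputable def q7 : Tr := .c 6 (.l 7) .e
noncomputable def r7 : Tr := .c 3 q7 .e
noncomputable def t7 : Tr := .c 5 r7 .e
noncomputable def q8 : Tr := .c 7 (.l 8) .e
noncomputable def r8 : Tr := .c 3 q8 .e
noncomputable def t8 : Tr := .c 2 r8 (.c 5 r8 .e)
noncomputable def q9 : Tr := .c 6 (.l 9) .e
noncomputable def r9 : Tr := .c 0 q9 (.c 3 q9 (.c 4 q9 .e))
noncomputable def t9 : Tr := .c 6 r9 .e
noncomputable def q10 : Tr := .c 4 (.l 10) .e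
noncomputable def r10 : Tr := .c 2 q10 .e
noncomputable def t10 : Tr := .c 3 r10 .e
noncomputable def q11 : Tr := .c 6 (.l 11) .e
noncomputable def r11 : Tr := .c 4 q11 .e
noncomputable def q12 : Tr := .c 7 (.l 12) .e
noncomputable def r12 : Tr := .c 2 q12 .e
noncomputable def t11 : Tr := .c 1 r11 (.c 3 r12 .e)
noncomputable def q13 : Tr := .c 5 (.l 13) .e
noncomputable def r13 : Tr := .c 0 q13 .e
noncomputable def t12 : Tr := .c 6 r13 .e
noncomputable def r14 : Tr := .c 0 q9 (.c 4 q9 .e)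
noncomputable def t13 : Tr := .c 6 r14 .e
noncomputable def q14 : Tr := .c 7 (.l 14) .e
noncomputable def r15 : Tr := .c 0 q14 .e
noncomputable def t14 : Tr := .c 6 r15 .e
noncomputable def q15 : Tr := .c 4 (.l 15) (.c 5 (.l 15) .e)
noncomputable def r16 : Tr := .c 1 q15 .e
noncomputable def t15 : Tr := .c 6 r16 .e
noncomputable def q16 : Tr := .c 6 (.l 16) .e
noncomputable def r17 : Tr := .c 1 q16 .e
noncomputable def t16 : Tr := .c 6 r17 .e
noncomputable def q17 : Tr := .c 4 (.l 15) (.c 7 (.l 15) .e)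
noncomputable def r18 : Tr := .c 1 q17 .e
noncomputable def t17 : Tr := .c 6 r18 .e
noncomputable def q18 : Tr := .c 4 (.l 17) .e
noncomputable def r19 : Tr := .c 6 q18 .e
noncomputable def q19 : Tr := .c 4 (.l 15) (.c 5 (.l 15) (.c 7 (.l 15) .e))
noncomputable def r20 : Tr := .c 1 q19 .e
noncomputable def t18 : Tr := .c 1 r19 (.c 6 r20 .e)
noncomputable def q20 : Tr := .c 5 (.l 18) .e
noncomputable def r21 : Tr := .c 3 q20 .e
noncomputable def t19 : Tr := .c 6 r21 .e
noncomputable def r22 : Tr := .c 3 q9 (.c 4 q9 .e)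
noncomputable def t20 : Tr := .c 6 r22 .e
noncomputable def q21 : Tr := .c 4 (.l 19) .e
noncomputable def r23 : Tr := .c 6 q21 .e
noncomputable def t21 : Tr := .c 3 r23 .e
noncomputable def t22 : Tr := .c 2 r8 (.c 6 r8 .e)
noncomputable def q22 : Tr := .c 4 (.l 20) .e
noncomputable def r24 : Tr := .c 1 q22 .e
noncomputable def t23 : Tr := .c 4 r24 .e
noncomputable def q23 : Tr := .c 7 (.l 21) .e
noncomputable def r25 : Tr := .c 1 q23 .e
noncomputable def t24 : Tr := .c 4 r25 .e
noncomputable def q24 : Tr := .c 3 (.l 22) .e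
noncomputable def r26 : Tr := .c 7 q24 .e
noncomputable def q25 : Tr := .c 7 (.l 23) .e
noncomputable def r27 : Tr := .c 3 q25 (.c 7 q24 .e)
noncomputable def t25 : Tr := .c 0 r26 (.c 1 r26 (.c 2 r27 .e))
noncomputable def q26 : Tr := .c 3 (.l 24) .e
noncomputable def r28 : Tr := .c 2 q26 .e
noncomputable def t26 : Tr := .c 4 r28 .e
noncomputable def q27 : Tr := .c 4 (.l 25) .e
noncomputable def r29 : Tr := .c 2 q27 .e
noncomputable def t27 : Tr := .c 4 r29 .e
noncomputable def q28 : Tr := .c 7 (.l 26) .e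
noncomputable def r30 : Tr := .c 2 q28 .e
noncomputable def t28 : Tr := .c 4 r30 .e
noncomputable def q29 : Tr := .c 3 (.l 27) .e
noncomputable def r31 : Tr := .c 6 q29 .e
noncomputable def t29 : Tr := .c 4 r31 .e
noncomputable def q30 : Tr := .c 4 (.l 28) .e
noncomputable def r32 : Tr := .c 6 q30 .e
noncomputable def t30 : Tr := .c 4 r32 .e
noncomputable def q31 : Tr := .c 3 (.l 29) .e
noncomputable def r33 : Tr := .c 3 q8 (.c 7 q31 .e)
noncomputable def t31 : Tr := .c 2 r33 (.c 5 r8 (.c 6 r8 .e))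
noncomputable def q32 : Tr := .c 7 (.l 30) .e
noncomputable def r34 : Tr := .c 0 q32 (.c 1 q32 (.c 2 q32 .e))
noncomputable def t32 : Tr := .c 7 r34 .e
noncomputable def q33 : Tr := .c 2 (.l 31) .e
noncomputable def r35 : Tr := .c 4 q33 .e
noncomputable def t33 : Tr := .c 1 r35 .e
noncomputable def q34 : Tr := .c 6 (.l 32) .e
noncomputable def r36 : Tr := .c 4 q34 .e
noncomputable def q35 : Tr := .c 7 (.l 33) .e
noncomputable def r37 : Tr := .c 2 q35 .e
noncomputable def t34 : Tr := .c 1 r36 (.c 3 r37 .e)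
noncomputable def q36 : Tr := .c 5 (.l 34) .e
noncomputable def r38 : Tr := .c 0 q36 .e
noncomputable def t35 : Tr := .c 7 r38 .e
noncomputable def q37 : Tr := .c 6 (.l 35) .e
noncomputable def r39 : Tr := .c 0 q37 .e
noncomputable def t36 : Tr := .c 7 r39 .e
noncomputable def r40 : Tr := .c 0 q32 (.c 2 q32 .e)
noncomputable def t37 : Tr := .c 7 r40 .e
noncomputable def q38 : Tr := .c 5 (.l 36) .e
noncomputable def r41 : Tr := .c 1 q38 .e
noncomputable def t38 : Tr := .c 7 r41 .e
noncomputable def t39 : Tr := .c 4 r4 (.c 7 r4 .e)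
noncomputable def r42 : Tr := .c 1 q32 (.c 2 q32 .e)
noncomputable def t40 : Tr := .c 7 r42 .e
noncomputable def q39 : Tr := .c 2 (.l 37) .e
noncomputable def r43 : Tr := .c 7 q39 .e
noncomputable def t41 : Tr := .c 1 r43 .e
noncomputable def q40 : Tr := .c 2 (.l 38) (.c 5 (.l 38) .e)
noncomputable def r44 : Tr := .c 3 q40 .e
noncomputable def t42 : Tr := .c 7 r44 .e
noncomputable def q41 : Tr := .c 2 (.l 38) (.c 6 (.l 38) .e)
noncomputable def r45 : Tr := .c 3 q41 .e
noncomputable def t43 : Tr := .c 7 r45 .e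
noncomputable def q42 : Tr := .c 2 (.l 39) .e
noncomputable def r46 : Tr := .c 7 q42 .e
noncomputable def q43 : Tr := .c 2 (.l 38) (.c 5 (.l 38) (.c 6 (.l 38) .e))
noncomputable def r47 : Tr := .c 3 q43 .e
noncomputable def t44 : Tr := .c 3 r46 (.c 7 r47 .e)
noncomputable def q44 : Tr := .c 7 (.l 40) .e
noncomputable def r48 : Tr := .c 3 q44 .e
noncomputable def t45 : Tr := .c 7 r48 .e
noncomputable def q45 : Tr := .c 2 (.l 41) .e
noncomputable def r49 : Tr := .c 3 q45 .e
noncomputable def t46 : Tr := .c 2 r49 .e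
noncomputable def q46 : Tr := .c 1 (.l 42) .e
noncomputable def r50 : Tr := .c 6 q46 .e
noncomputable def q47 : Tr := .c 6 (.l 43) .e
noncomputable def r51 : Tr := .c 1 q47 (.c 6 q46 .e)
noncomputable def t47 : Tr := .c 0 r50 (.c 3 r50 (.c 4 r51 .e))
noncomputable def q48 : Tr := .c 6 (.l 44) .e
noncomputable def r52 : Tr := .c 3 q48 .e
noncomputable def t48 : Tr := .c 2 r52 .e
noncomputable def q49 : Tr := .c 1 (.l 45) .e
noncomputable def r53 : Tr := .c 4 q49 .e
noncomputable def t49 : Tr := .c 2 r53 .e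
noncomputable def q50 : Tr := .c 2 (.l 46) .e
noncomputable def r54 : Tr := .c 4 q50 .e
noncomputable def t50 : Tr := .c 2 r54 .e
noncomputable def q51 : Tr := .c 6 (.l 47) .e
noncomputable def r55 : Tr := .c 4 q51 .e
noncomputable def t51 : Tr := .c 2 r55 .e
noncomputable def q52 : Tr := .c 1 (.l 48) .e
noncomputable def r56 : Tr := .c 1 q4 (.c 6 q52 .e)
noncomputable def t52 : Tr := .c 4 r56 (.c 5 r4 (.c 7 r4 .e))
noncomputable def q53 : Tr := .c 1 (.l 49) .e
noncomputable def r57 : Tr := .c 7 q53 .e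
noncomputable def t53 : Tr := .c 2 r57 .e
noncomputable def q54 : Tr := .c 2 (.l 50) .e
noncomputable def r58 : Tr := .c 7 q54 .e
noncomputable def t54 : Tr := .c 2 r58 .e
noncomputable def q55 : Tr := .c 0 (.l 51) .e
noncomputable def r59 : Tr := .c 5 q55 .e
noncomputable def t55 : Tr := .c 0 r59 .e
noncomputable def q56 : Tr := .c 1 (.l 52) .e
noncomputable def r60 : Tr := .c 5 q56 .e
noncomputable def t56 : Tr := .c 0 r60 .e
noncomputable def q57 : Tr := .c 3 (.l 53) .e
noncomputable def r61 : Tr := .c 5 q57 .e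
noncomputable def t57 : Tr := .c 0 r61 .e
noncomputable def q58 : Tr := .c 0 (.l 54) .e
noncomputable def r62 : Tr := .c 6 q58 .e
noncomputable def t58 : Tr := .c 0 r62 .e
noncomputable def t59 : Tr := .c 0 r50 (.c 4 r50 .e)
noncomputable def q59 : Tr := .c 3 (.l 55) .e
noncomputable def r63 : Tr := .c 6 q59 .e
noncomputable def t60 : Tr := .c 0 r63 .e
noncomputable def q60 : Tr := .c 0 (.l 56) .e
noncomputable def r64 : Tr := .c 7 q60 .e
noncomputable def t61 : Tr := .c 0 r64 .e
noncomputable def q61 : Tr := .c 1 (.l 57) .e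
noncomputable def r65 : Tr := .c 7 q61 .e
noncomputable def t62 : Tr := .c 0 r65 .e
noncomputable def t63 : Tr := .c 0 r26 (.c 2 r26 .e)
noncomputable def q62 : Tr := .c 0 (.l 58) .e
noncomputable def r66 : Tr := .c 5 q62 .e
noncomputable def t64 : Tr := .c 1 r66 .e
noncomputable def q63 : Tr := .c 1 (.l 59) .e
noncomputable def r67 : Tr := .c 4 q63 (.c 5 q63 .e)
noncomputable def t65 : Tr := .c 1 r67 .e
noncomputable def q64 : Tr := .c 3 (.l 60) .e
noncomputable def r68 : Tr := .c 5 q64 .e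
noncomputable def t66 : Tr := .c 1 r68 .e
noncomputable def q65 : Tr := .c 0 (.l 61) (.c 3 (.l 61) (.c 4 (.l 61) .e))
noncomputable def r69 : Tr := .c 6 q65 .e
noncomputable def q66 : Tr := .c 4 (.l 62) .e
noncomputable def r70 : Tr := .c 1 q66 .e
noncomputable def t67 : Tr := .c 1 r69 (.c 6 r70 .e)
noncomputable def q67 : Tr := .c 0 (.l 61) (.c 4 (.l 61) .e)
noncomputable def r71 : Tr := .c 6 q67 .e
noncomputable def t68 : Tr := .c 1 r71 .e
noncomputable def q68 : Tr := .c 1 (.l 63) .e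
noncomputable def r72 : Tr := .c 6 q68 .e
noncomputable def t69 : Tr := .c 1 r72 .e
noncomputable def q69 : Tr := .c 3 (.l 61) (.c 4 (.l 61) .e)
noncomputable def r73 : Tr := .c 6 q69 .e
noncomputable def t70 : Tr := .c 1 r73 .e
noncomputable def q70 : Tr := .c 4 (.l 64) .e
noncomputable def r74 : Tr := .c 1 q70 .e
noncomputable def t71 : Tr := .c 7 r74 .e
noncomputable def q71 : Tr := .c 0 (.l 65) .e
noncomputable def r75 : Tr := .c 7 q71 .e
noncomputable def t72 : Tr := .c 1 r75 .e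
noncomputable def r76 : Tr := .c 4 q63 (.c 7 q63 .e)
noncomputable def t73 : Tr := .c 1 r76 .e
noncomputable def t74 : Tr := .c 1 r26 (.c 2 r26 .e)
noncomputable def q72 : Tr := .c 1 (.l 66) .e
noncomputable def r77 : Tr := .c 4 q72 .e
noncomputable def q73 : Tr := .c 3 (.l 67) .e
noncomputable def r78 : Tr := .c 2 q73 .e
noncomputable def t75 : Tr := .c 6 r77 (.c 7 r78 .e)
noncomputable def q74 : Tr := .c 4 (.l 68) .e
noncomputable def r79 : Tr := .c 2 q74 .e
noncomputable def t76 : Tr := .c 7 r79 .e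
noncomputable def r80 : Tr := .c 4 q63 (.c 5 q63 (.c 7 q63 .e))
noncomputable def t77 : Tr := .c 1 r80 .e
noncomputable def q75 : Tr := .c 0 (.l 69) .e
noncomputable def r81 : Tr := .c 5 q75 .e
noncomputable def t78 : Tr := .c 3 r81 .e
noncomputable def q76 : Tr := .c 1 (.l 70) .e
noncomputable def r82 : Tr := .c 5 q76 .e
noncomputable def t79 : Tr := .c 3 r82 .e
noncomputable def q77 : Tr := .c 3 (.l 71) .e
noncomputable def r83 : Tr := .c 2 q77 (.c 5 q77 .e)
noncomputable def t80 : Tr := .c 3 r83 .e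
noncomputable def q78 : Tr := .c 2 (.l 72) .e
noncomputable def r84 : Tr := .c 3 q78 .e
noncomputable def t81 : Tr := .c 6 r84 .e
noncomputable def q79 : Tr := .c 0 (.l 73) .e
noncomputable def r85 : Tr := .c 6 q79 .e
noncomputable def t82 : Tr := .c 3 r85 .e
noncomputable def t83 : Tr := .c 3 r50 (.c 4 r50 .e)
noncomputable def r86 : Tr := .c 2 q77 (.c 6 q77 .e)
noncomputable def t84 : Tr := .c 3 r86 .e
noncomputable def q80 : Tr := .c 1 (.l 74) .e
noncomputable def r87 : Tr := .c 4 q80 .e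
noncomputable def q81 : Tr := .c 3 (.l 75) .e
noncomputable def r88 : Tr := .c 2 q81 .e
noncomputable def t85 : Tr := .c 6 r87 (.c 7 r88 .e)
noncomputable def q82 : Tr := .c 2 (.l 76) .e
noncomputable def r89 : Tr := .c 4 q82 .e
noncomputable def t86 : Tr := .c 6 r89 .e
noncomputable def r90 : Tr := .c 2 q77 (.c 5 q77 (.c 6 q77 .e))
noncomputable def t87 : Tr := .c 3 r90 .e
noncomputable def q83 : Tr := .c 0 (.l 77) (.c 1 (.l 77) (.c 2 (.l 77) .e))
noncomputable def r91 : Tr := .c 7 q83 .e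
noncomputable def q84 : Tr := .c 2 (.l 78) .e
noncomputable def r92 : Tr := .c 3 q84 .e
noncomputable def t88 : Tr := .c 3 r91 (.c 7 r92 .e)
noncomputable def q85 : Tr := .c 0 (.l 77) (.c 2 (.l 77) .e)
noncomputable def r93 : Tr := .c 7 q85 .e
noncomputable def t89 : Tr := .c 3 r93 .e
noncomputable def q86 : Tr := .c 1 (.l 77) (.c 2 (.l 77) .e)
noncomputable def r94 : Tr := .c 7 q86 .e
noncomputable def t90 : Tr := .c 3 r94 .e
noncomputable def q87 : Tr := .c 3 (.l 79) .e
noncomputable def r95 : Tr := .c 7 q87 .e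
noncomputable def t91 : Tr := .c 3 r95 .e

/-- the diagram -/
noncomputable def T : Tr := (.c 0 (.c 5 (.c 0 t0 (.c 1 t1 (.c 3 t2 .e))) (.c 6 (.c 0 t3 (.c 1 t4 (.c 3 t5 .e))) (.c 7 (.c 0
t6 (.c 1 t7 (.c 3 t8 .e))) .e))) (.c 1 (.c 4 (.c 1 t9 (.c 2 t10 (.c 6 t11 .e))) (.c 5 (.c 0 t12
(.c 1 t13 (.c 3 t14 .e))) (.c 6 (.c 0 t15 (.c 1 t16 (.c 3 t17 (.c 4 t18 .e)))) (.c 7 (.c 0 t19
(.c 1 t20 (.c 2 t21 (.c 3 t22 .e)))) .e)))) (.c 2 (.c 3 (.c 2 t23 (.c 6 t24 (.c 7 t25 .e))) (.c
4 (.c 1 t26 (.c 2 t27 (.c 6 t28 .e))) (.c 7 (.c 1 t29 (.c 2 t30 (.c 3 t31 .e))) .e))) (.c 3 (.c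
2 (.c 3 t32 (.c 4 t33 (.c 7 t34 .e))) (.c 5 (.c 0 t35 (.c 1 t36 (.c 3 t37 .e))) (.c 6 (.c 0 t38
(.c 1 t39 (.c 3 t40 (.c 4 t41 .e)))) (.c 7 (.c 0 t42 (.c 1 t43 (.c 2 t44 (.c 3 t45 .e))))
.e)))) (.c 4 (.c 1 (.c 4 t46 (.c 6 t47 (.c 7 t48 .e))) (.c 2 (.c 3 t49 (.c 4 t50 (.c 7 t51
.e))) (.c 6 (.c 1 t52 (.c 3 t53 (.c 4 t54 .e))) .e))) (.c 5 (.c 0 (.c 5 t55 (.c 6 t56 (.c 7 t57
.e))) (.c 1 (.c 5 t58 (.c 6 t59 (.c 7 t60 .e))) (.c 3 (.c 5 t61 (.c 6 t62 (.c 7 t63 .e))) .e)))
(.c 6 (.c 0 (.c 5 t64 (.c 6 t65 (.c 7 t66 .e))) (.c 1 (.c 4 t67 (.c 5 t68 (.c 6 t69 (.c 7 t70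
.e)))) (.c 3 (.c 2 t71 (.c 5 t72 (.c 6 t73 (.c 7 t74 .e)))) (.c 4 (.c 1 t75 (.c 2 t76 (.c 6 t77
.e))) .e)))) (.c 7 (.c 0 (.c 5 t78 (.c 6 t79 (.c 7 t80 .e))) (.c 1 (.c 4 t81 (.c 5 t82 (.c 6
t83 (.c 7 t84 .e)))) (.c 2 (.c 3 t85 (.c 4 t86 (.c 7 t87 .e))) (.c 3 (.c 2 t88 (.c 5 t89 (.c 6
t90 (.c 7 t91 .e)))) .e)))) .e))))))))

theorem k0 : chkQ0 D J R 80 T = true := by decide +kernel
theorem c0 : csP D J T 0 = true := by decide +kernel
theorem c1 : csP D J T 1 = true := by decide +kernel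
theorem c2 : csP D J T 2 = true := by decide +kernel
theorem c3 : csP D J T 3 = true := by decide +kernel
theorem c4 : csP D J T 4 = true := by decide +kernel
theorem c5 : csP D J T 5 = true := by decide +kernel
theorem c6 : csP D J T 6 = true := by decide +kernel
theorem c7 : csP D J T 7 = true := by decide +kernel
theorem c8 : csP D J T 8 = true := by decide +kernel
theorem c9 : csP D J T 9 = true := by decide +kernel
theorem c10 : csP D J T 10 = true := by decide +kernel
theorem c11 : csP D J T 11 = true := by decide +kernel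
theorem c12 : csP D J T 12 = true := by decide +kernel
theorem c13 : csP D J T 13 = true := by decide +kernel
theorem c14 : csP D J T 14 = true := by decide +kernel
theorem c15 : csP D J T 15 = true := by decide +kernel
theorem c16 : csP D J T 16 = true := by decide +kernel
theorem c17 : csP D J T 17 = true := by decide +kernel

theorem cs : ∀ p < D.N, csP D J T p = true := by
  intro p hp
  have hp : p < 18 := hp
  interval_cases p
  · exact c0
  · exact c1
  · exact c2
  · exact c3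
  · exact c4
  · exact c5
  · exact c6
  · exact c7
  · exact c8
  · exact c9
  · exact c10
  · exact c11
  · exact c12
  · exact c13
  · exact c14
  · exact c15
  · exact c16
  · exact c17

/-- the box table -/
theorem tab : BoxTab D := boxTab_of (by decide) (by decide) k0 cs

end C34t

end Vale.Agent.P032.Words.Trie
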