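import Vale.Agent.P032.Words.H670.Split

/-!
# Hexagons around a centre with six colours: box tables
-/

namespace Vale.Agent.P032.Words.Trie

/-! ### 01 02 03 12 14 25 34 35 45 (7|56: tie, 11|52: 52 never) -/

namespace C35_32

/-- the data -/
def D : Dat where
  A := 9
  N := 22
  nb := [480, 464, 312, 452, 166, 85, 43, 27, 15]
  op := [95, 175, 247, 315, 381, 446, 469, 486, 504]
  nbT := [3146208, 2884048, 721208, 2146756, 1093798, 281685, 139819, 68123, 5647, 3981760, 3875104,
3322016, 3082512, 2968656, 1778216, 985624, 3208324, 2415684, 1225250, 1111558, 871953, 212491]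
  opT := [1047647, 1309871, 1375479, 2047291, 1002877, 1814974, 1957333, 2029030, 2091512, 2097152,
2096351, 2096479, 2096367, 2096559, 2096599, 2096615, 2096507, 2096571, 2096605, 2096633,
2096622, 512]
  PL := [[0], [1], [2], [3], [4], [5], [6], [7], [8], [0, 1, 3], [0, 2], [0, 4], [1, 2], [1, 5], [2,
6], [2, 7], [3, 4], [3, 5], [4, 6], [4, 8], [5, 7], [6, 7, 8]]
  L := [3, 5, 9, 6, 18, 36, 24, 40, 48]
  P := [3, 5, 9, 6, 18, 36, 24, 40, 48, 7, 11, 19, 13, 37, 25, 41, 22, 38, 26, 50, 44, 56]
  r := 1
  tie := [0, 0, 0, 0, 0, 0, 0, 0, 0, 1, 0, 0, 0, 0, 0, 0, 0, 0, 0, 0, 0, 0]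

/-- changes of the value at a tie -/
def J : List (List ℕ) := [[], [0x100000000100002a0401, 2, 4, 8, 0x10, 0x20, 0x40, 0x80, 0x100, 0x200,
0x4000000001000205401,
0x800, 0x8000000000008425400, 0x2000, 0x40000004002085400, 0x8000,
0x10000,
0x1180400000200004a1001, 0x40000, 0x80204800000000040000400040100020a4001,
0x100000,
0x100000000100002600401, 0x8001100400000000410000000400000a621000, 0x800000,
0x1000000,
0x80000000011400a684000, 0x4000000, 0x10800000012500a401000, 0x10000000,
0x20000000,
0x40000000, 0x80000000, 0x100000000, 0x200000000, 0x400000000,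
0x800000000,
0x4000000115008000400, 0x2000000000, 0x803008000010000000004000401500a004000,
0x8000000000,
0x10040000135002080001, 0x30008020000, 0x40000000000,
0x80000000000,
0x8003100000010000010000000411100a200000, 0x200000000000, 0x400000000000,
0x800000000000,
0x1000000000000, 0x2000000000000, 0x800031080000000000000000004104000480000,
0x8000000000000,
0x10000000000000, 0x20000000000000, 0x40000000000000, 0x80000000000000,
0x100000000000000,
0x200000000000000, 0x400000000000000, 0x800000000000000,
0x1000000000000000,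
0x2000000000000000, 0x4000000000000000, 0x8000000000000000,
0x10000000000000000,
0x20000000000000000, 0x81c0400000140000a4000, 0x80000000000000000,
0x100000000000000000,
0x200000000000000000, 0x400000000000000000, 0x800000000000000000,
0x1000000000000000000,
0x2000000000000000000, 0x11c040000001000000400,
0x8a01000400000000410c040000000008021000,
0x8a020400000000004114040000010000020001,
0x20000000000000000000, 0x40000000000000000000,
0x80000000000000000000,
0x91c000000100008620000, 0x200000000000000000000,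
0x400000000000000000000,
0x900040000000002000000, 0x1000000000000000000000,
0x2000000000000000000000,
0x88200404000000004018000000000000480000, 0x8000000000000000000000,
0x10000000000000000000000,
0x20000000000000000000000, 0x40000000000000000000000,
0x80000000000000000000000,
0x100000000000000000000000, 0x200000000000000000000000,
0x400000000000000000000000,
0x800000000000000000000000, 0x1000000000000000000000000,
0x2000000000000000000000000,
0x4000000000000000000000000, 0x8000000000000000000000000,
0x10000000000000000000000000,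
0x20000000000000000000000000, 0x40000000000000000000000000,
0x80000000000000000000000000,
0x2030040000100000000000000104000000000,
0x200000000000000000000000000,
0x400000000000000000000000000, 0x800000000000000000000000000,
0x1000000000000000000000000000,
0x2000000000000000000000000000, 0x4000000000000000000000000000,
0x8000000000000000000000000000,
0x10000000000000000000000000000,
0x20000000000000000000000000000,
0x40000000000000000000000000000,
0x80000000000000000000000000000,
0x100000000000000000000000000000,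
0x200000000000000000000000000000,
0x400000000000000000000000000000,
0x800000000000000000000000000000,
0x1000000000000000000000000000000,
0x2000000000000000000000000000000,
0x100c4000000004008000000000000400000,
0x8000000000000000000000000000000,
0x10000000000000000000000000000000,
0x20000000000000000000000000000000,
0x20014c4000100000000000000000000000000,
0x80000c4000000000000000004004000080000,
0x100000000000000000000000000000000,
0x200000000000000000000000000000000,
0x21440000000004010000000000000080000,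
0x800000000000000000000000000000000,
0x80001440000000000000000004100000400000,
0x2000000000000000000000000000000000,
0x4000000000000000000000000000000000,
0x8000000000000000000000000000000000,
0x80210004000100000008000004104000400000,
0x8220400000100000010000004104000080000,
0x40000000000000000000000000000000000,
0x80000000000000000000000000000000000,
0x100000000000000000000000000000000000,
0x230000000000004000000000000000000000,
0x400000000000000000000000000000000000,
0x800000000000000000000000000000000000,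
0x1000000000000000000000000000000000000,
0x8a000040000100000018000000000000000000,
0x4000000000000000000000000000000000000,
0x80a020080000000004018000000004000080000,
0x10000000000000000000000000000000000000,
0x20000000000000000000000000000000000000,
0x40000000000000000000000000000000000000,
0x882011000000000004018000000100000400000,
0x100000000000000000000000000000000000000,
0x200000000000000000000000000000000000000,
0x400000000000000000000000000000000000000,
0x888000000000000000000000004000000000000]]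

/-- reachable values -/
def R : List (List ℕ) := [[1, 0x100000000100002a0401], [2, 2], [4, 4], [8, 8], [0x10, 0x10], [0x20, 0x20], [0x40, 0x40],
[0x80, 0x80], [0x100, 0x100], [0x200, 0x200], [0x400, 0x4000000001000205401], [0x800, 0x800],
[0x1000, 0x8000000000008425400], [0x2000, 0x2000], [0x4000, 0x40000004002085400], [0x8000,
0x8000], [0x10000, 0x10000], [0x20000, 0x1180400000200004a1001], [0x40000, 0x40000], [0x80000,
0x80204800000000040000400040100020a4001], [0x100000, 0x100000], [0x200000,
0x100000000100002600401], [0x400000, 0x8001100400000000410000000400000a621000], [0x800000,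
0x800000], [0x1000000, 0x1000000], [0x2000000, 0x80000000011400a684000], [0x4000000,
0x4000000], [0x8000000, 0x10800000012500a401000], [0x10000000, 0x10000000], [0x20000000,
0x20000000], [0x40000000, 0x40000000], [0x80000000, 0x80000000], [0x100000000, 0x100000000],
[0x200000000, 0x200000000], [0x400000000, 0x400000000], [0x800000000, 0x800000000],
[0x1000000000, 0x4000000115008000400], [0x2000000000, 0x2000000000], [0x4000000000,
0x803008000010000000004000401500a004000], [0x8000000000, 0x8000000000], [0x10000000000,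
0x10040000135002080001], [0x20000000000, 0x30008020000], [0x40000000000, 0x40000000000],
[0x80000000000, 0x80000000000], [0x100000000000, 0x8003100000010000010000000411100a200000],
[0x200000000000, 0x200000000000], [0x400000000000, 0x400000000000], [0x800000000000,
0x800000000000], [0x1000000000000, 0x1000000000000], [0x2000000000000, 0x2000000000000],
[0x4000000000000, 0x800031080000000000000000004104000480000], [0x8000000000000,
0x8000000000000], [0x10000000000000, 0x10000000000000], [0x20000000000000, 0x20000000000000],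
[0x40000000000000, 0x40000000000000], [0x80000000000000, 0x80000000000000], [0x100000000000000,
0x100000000000000], [0x200000000000000, 0x200000000000000], [0x400000000000000,
0x400000000000000], [0x800000000000000, 0x800000000000000], [0x1000000000000000,
0x1000000000000000], [0x2000000000000000, 0x2000000000000000], [0x4000000000000000,
0x4000000000000000], [0x8000000000000000, 0x8000000000000000], [0x10000000000000000,
0x10000000000000000], [0x20000000000000000, 0x20000000000000000], [0x40000000000000000,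
0x81c0400000140000a4000], [0x80000000000000000, 0x80000000000000000], [0x100000000000000000,
0x100000000000000000], [0x200000000000000000, 0x200000000000000000], [0x400000000000000000,
0x400000000000000000], [0x800000000000000000, 0x800000000000000000], [0x1000000000000000000,
0x1000000000000000000], [0x2000000000000000000, 0x2000000000000000000], [0x4000000000000000000,
0x11c040000001000000400], [0x8000000000000000000, 0x8a01000400000000410c040000000008021000],
[0x10000000000000000000, 0x8a020400000000004114040000010000020001], [0x20000000000000000000,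
0x20000000000000000000], [0x40000000000000000000, 0x40000000000000000000],
[0x80000000000000000000, 0x80000000000000000000], [0x100000000000000000000,
0x91c000000100008620000], [0x200000000000000000000, 0x200000000000000000000],
[0x400000000000000000000, 0x400000000000000000000], [0x800000000000000000000,
0x900040000000002000000], [0x1000000000000000000000, 0x1000000000000000000000],
[0x2000000000000000000000, 0x2000000000000000000000], [0x4000000000000000000000,
0x88200404000000004018000000000000480000], [0x8000000000000000000000,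
0x8000000000000000000000], [0x10000000000000000000000, 0x10000000000000000000000],
[0x20000000000000000000000, 0x20000000000000000000000], [0x40000000000000000000000,
0x40000000000000000000000], [0x80000000000000000000000, 0x80000000000000000000000],
[0x100000000000000000000000, 0x100000000000000000000000], [0x200000000000000000000000,
0x200000000000000000000000], [0x400000000000000000000000, 0x400000000000000000000000],
[0x800000000000000000000000, 0x800000000000000000000000], [0x1000000000000000000000000,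
0x1000000000000000000000000], [0x2000000000000000000000000, 0x2000000000000000000000000],
[0x4000000000000000000000000, 0x4000000000000000000000000], [0x8000000000000000000000000,
0x8000000000000000000000000], [0x10000000000000000000000000, 0x10000000000000000000000000],
[0x20000000000000000000000000, 0x20000000000000000000000000], [0x40000000000000000000000000,
0x40000000000000000000000000], [0x80000000000000000000000000, 0x80000000000000000000000000],
[0x100000000000000000000000000, 0x2030040000100000000000000104000000000],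
[0x200000000000000000000000000, 0x200000000000000000000000000], [0x400000000000000000000000000,
0x400000000000000000000000000], [0x800000000000000000000000000, 0x800000000000000000000000000],
[0x1000000000000000000000000000, 0x1000000000000000000000000000],
[0x2000000000000000000000000000, 0x2000000000000000000000000000],
[0x4000000000000000000000000000, 0x4000000000000000000000000000],
[0x8000000000000000000000000000, 0x8000000000000000000000000000],
[0x10000000000000000000000000000, 0x10000000000000000000000000000],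
[0x20000000000000000000000000000, 0x20000000000000000000000000000],
[0x40000000000000000000000000000, 0x40000000000000000000000000000],
[0x80000000000000000000000000000, 0x80000000000000000000000000000],
[0x100000000000000000000000000000, 0x100000000000000000000000000000],
[0x200000000000000000000000000000, 0x200000000000000000000000000000],
[0x400000000000000000000000000000, 0x400000000000000000000000000000],
[0x800000000000000000000000000000, 0x800000000000000000000000000000],
[0x1000000000000000000000000000000, 0x1000000000000000000000000000000],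
[0x2000000000000000000000000000000, 0x2000000000000000000000000000000],
[0x4000000000000000000000000000000, 0x100c4000000004008000000000000400000],
[0x8000000000000000000000000000000, 0x8000000000000000000000000000000],
[0x10000000000000000000000000000000, 0x10000000000000000000000000000000],
[0x20000000000000000000000000000000, 0x20000000000000000000000000000000],
[0x40000000000000000000000000000000, 0x20014c4000100000000000000000000000000],
[0x80000000000000000000000000000000, 0x80000c4000000000000000004004000080000],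
[0x100000000000000000000000000000000, 0x100000000000000000000000000000000],
[0x200000000000000000000000000000000, 0x200000000000000000000000000000000],
[0x400000000000000000000000000000000, 0x21440000000004010000000000000080000],
[0x800000000000000000000000000000000, 0x800000000000000000000000000000000],
[0x1000000000000000000000000000000000, 0x80001440000000000000000004100000400000],
[0x2000000000000000000000000000000000, 0x2000000000000000000000000000000000],
[0x4000000000000000000000000000000000, 0x4000000000000000000000000000000000],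
[0x8000000000000000000000000000000000, 0x8000000000000000000000000000000000],
[0x10000000000000000000000000000000000, 0x80210004000100000008000004104000400000],
[0x20000000000000000000000000000000000, 0x8220400000100000010000004104000080000],
[0x40000000000000000000000000000000000, 0x40000000000000000000000000000000000],
[0x80000000000000000000000000000000000, 0x80000000000000000000000000000000000],
[0x100000000000000000000000000000000000, 0x100000000000000000000000000000000000],
[0x200000000000000000000000000000000000, 0x230000000000004000000000000000000000],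
[0x400000000000000000000000000000000000, 0x400000000000000000000000000000000000],
[0x800000000000000000000000000000000000, 0x800000000000000000000000000000000000],
[0x1000000000000000000000000000000000000, 0x1000000000000000000000000000000000000],
[0x2000000000000000000000000000000000000, 0x8a000040000100000018000000000000000000],
[0x4000000000000000000000000000000000000, 0x4000000000000000000000000000000000000],
[0x8000000000000000000000000000000000000, 0x80a020080000000004018000000004000080000],
[0x10000000000000000000000000000000000000, 0x10000000000000000000000000000000000000],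
[0x20000000000000000000000000000000000000, 0x20000000000000000000000000000000000000],
[0x40000000000000000000000000000000000000, 0x40000000000000000000000000000000000000],
[0x80000000000000000000000000000000000000, 0x882011000000000004018000000100000400000],
[0x100000000000000000000000000000000000000, 0x100000000000000000000000000000000000000],
[0x200000000000000000000000000000000000000, 0x200000000000000000000000000000000000000],
[0x400000000000000000000000000000000000000, 0x400000000000000000000000000000000000000],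
[0x800000000000000000000000000000000000000, 0x888000000000000000000000004000000000000]]

noncomputable def q0 : Tr := .c 6 (.l 0) .e
noncomputable def r0 : Tr := .c 1 q0 (.c 3 q0 (.c 5 q0 .e))
noncomputable def t0 : Tr := .c 6 r0 .e
noncomputable def q1 : Tr := .c 5 (.l 1) .e
noncomputable def r1 : Tr := .c 2 q1 .e
noncomputable def q2 : Tr := .c 6 (.l 2) (.c 7 (.l 3) .e)
noncomputable def q3 : Tr := .c 6 (.l 2) .e
noncomputable def r2 : Tr := .c 1 q2 (.c 2 q1 (.c 5 q3 .e))
noncomputable def t1 : Tr := .c 3 r1 (.c 4 r2 .e)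
noncomputable def q4 : Tr := .c 5 (.l 4) .e
noncomputable def r3 : Tr := .c 4 q4 .e
noncomputable def q5 : Tr := .c 6 (.l 5) (.c 8 (.l 6) .e)
noncomputable def q6 : Tr := .c 6 (.l 5) .e
noncomputable def r4 : Tr := .c 3 q5 (.c 4 q4 (.c 5 q6 .e))
noncomputable def t2 : Tr := .c 1 r3 (.c 2 r4 .e)
noncomputable def q7 : Tr := .c 6 (.l 7) .e
noncomputable def r5 : Tr := .c 5 q7 .e
noncomputable def q8 : Tr := .c 7 (.l 8) .e
noncomputable def r6 : Tr := .c 4 q8 .e
noncomputable def q9 : Tr := .c 8 (.l 9) .e
noncomputable def r7 : Tr := .c 2 q9 .e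
noncomputable def t3 : Tr := .c 0 r5 (.c 1 r6 (.c 3 r7 .e))
noncomputable def q10 : Tr := .c 6 (.l 10) .e
noncomputable def r8 : Tr := .c 0 q10 .e
noncomputable def t4 : Tr := .c 6 r8 .e
noncomputable def q11 : Tr := .c 5 (.l 11) .e
noncomputable def r9 : Tr := .c 2 q11 .e
noncomputable def q12 : Tr := .c 5 (.l 12) (.c 7 (.l 12) .e)
noncomputable def r10 : Tr := .c 0 q12 .e
noncomputable def t5 : Tr := .c 4 r9 (.c 6 r10 .e)
noncomputable def q13 : Tr := .c 5 (.l 13) .e
noncomputable def r11 : Tr := .c 4 q13 .e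
noncomputable def q14 : Tr := .c 5 (.l 12) (.c 8 (.l 14) .e)
noncomputable def r12 : Tr := .c 0 q14 .e
noncomputable def t6 : Tr := .c 2 r11 (.c 6 r12 .e)
noncomputable def q15 : Tr := .c 5 (.l 15) .e
noncomputable def r13 : Tr := .c 6 q15 .e
noncomputable def q16 : Tr := .c 5 (.l 13) (.c 7 (.l 13) .e)
noncomputable def r14 : Tr := .c 4 q16 .e
noncomputable def q17 : Tr := .c 5 (.l 11) (.c 8 (.l 16) .e)
noncomputable def r15 : Tr := .c 2 q17 .e
noncomputable def q18 : Tr := .c 5 (.l 12) (.c 7 (.l 12) (.c 8 (.l 14) .e))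
noncomputable def r16 : Tr := .c 0 q18 .e
noncomputable def t7 : Tr := .c 0 r13 (.c 2 r14 (.c 4 r15 (.c 6 r16 .e)))
noncomputable def r17 : Tr := .c 1 q0 (.c 5 q0 .e)
noncomputable def t8 : Tr := .c 6 r17 .e
noncomputable def q19 : Tr := .c 7 (.l 17) .e
noncomputable def q20 : Tr := .c 5 (.l 18) .e
noncomputable def r18 : Tr := .c 1 q19 (.c 2 q20 .e)
noncomputable def r19 : Tr := .c 1 q19 .e
noncomputable def t9 : Tr := .c 4 r18 (.c 6 r19 .e)
noncomputable def q21 : Tr := .c 8 (.l 19) .e
noncomputable def r20 : Tr := .c 1 q21 .e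
noncomputable def t10 : Tr := .c 6 r20 .e
noncomputable def q22 : Tr := .c 5 (.l 20) .e
noncomputable def r21 : Tr := .c 6 q22 .e
noncomputable def r22 : Tr := .c 5 q6 .e
noncomputable def t11 : Tr := .c 1 r21 (.c 2 r22 .e)
noncomputable def q23 : Tr := .c 6 (.l 21) .e
noncomputable def r23 : Tr := .c 3 q23 (.c 5 q23 .e)
noncomputable def t12 : Tr := .c 6 r23 .e
noncomputable def q24 : Tr := .c 7 (.l 22) .e
noncomputable def r24 : Tr := .c 3 q24 .e
noncomputable def t13 : Tr := .c 6 r24 .e
noncomputable def q25 : Tr := .c 5 (.l 23) .e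
noncomputable def r25 : Tr := .c 6 q25 .e
noncomputable def q26 : Tr := .c 6 (.l 24) .e
noncomputable def r26 : Tr := .c 5 q26 .e
noncomputable def t14 : Tr := .c 3 r25 (.c 4 r26 .e)
noncomputable def q27 : Tr := .c 8 (.l 25) .e
noncomputable def q28 : Tr := .c 5 (.l 26) .e
noncomputable def r27 : Tr := .c 3 q27 (.c 4 q28 .e)
noncomputable def r28 : Tr := .c 3 q27 .e
noncomputable def t15 : Tr := .c 2 r27 (.c 6 r28 .e)
noncomputable def q29 : Tr := .c 7 (.l 27) .e
noncomputable def r29 : Tr := .c 0 q29 (.c 3 q29 (.c 4 q29 .e))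
noncomputable def t16 : Tr := .c 7 r29 .e
noncomputable def q30 : Tr := .c 4 (.l 28) .e
noncomputable def r30 : Tr := .c 2 q30 .e
noncomputable def q31 : Tr := .c 6 (.l 29) (.c 7 (.l 30) .e)
noncomputable def q32 : Tr := .c 7 (.l 30) .e
noncomputable def r31 : Tr := .c 0 q31 (.c 2 q30 (.c 4 q32 .e))
noncomputable def t17 : Tr := .c 3 r30 (.c 5 r31 .e)
noncomputable def q33 : Tr := .c 4 (.l 31) .e
noncomputable def r32 : Tr := .c 5 q33 .e
noncomputable def q34 : Tr := .c 7 (.l 32) (.c 8 (.l 33) .e)
noncomputable def q35 : Tr := .c 7 (.l 32) .e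
noncomputable def r33 : Tr := .c 3 q34 (.c 4 q35 (.c 5 q33 .e))
noncomputable def t18 : Tr := .c 0 r32 (.c 2 r33 .e)
noncomputable def q36 : Tr := .c 6 (.l 9) .e
noncomputable def r34 : Tr := .c 5 q36 .e
noncomputable def q37 : Tr := .c 7 (.l 34) .e
noncomputable def r35 : Tr := .c 4 q37 .e
noncomputable def q38 : Tr := .c 8 (.l 35) .e
noncomputable def r36 : Tr := .c 2 q38 .e
noncomputable def t19 : Tr := .c 0 r34 (.c 1 r35 (.c 3 r36 .e))
noncomputable def q39 : Tr := .c 6 (.l 36) .e
noncomputable def q40 : Tr := .c 4 (.l 37) .e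
noncomputable def r37 : Tr := .c 0 q39 (.c 2 q40 .e)
noncomputable def r38 : Tr := .c 0 q39 .e
noncomputable def t20 : Tr := .c 5 r37 (.c 7 r38 .e)
noncomputable def r39 : Tr := .c 0 q29 (.c 4 q29 .e)
noncomputable def t21 : Tr := .c 7 r39 .e
noncomputable def q41 : Tr := .c 8 (.l 38) .e
noncomputable def r40 : Tr := .c 0 q41 .e
noncomputable def t22 : Tr := .c 7 r40 .e
noncomputable def q42 : Tr := .c 4 (.l 23) .e
noncomputable def r41 : Tr := .c 7 q42 .e
noncomputable def r42 : Tr := .c 4 q35 .e
noncomputable def t23 : Tr := .c 0 r41 (.c 2 r42 .e)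
noncomputable def q43 : Tr := .c 4 (.l 39) .e
noncomputable def r43 : Tr := .c 2 q43 .e
noncomputable def q44 : Tr := .c 4 (.l 40) (.c 6 (.l 40) .e)
noncomputable def r44 : Tr := .c 1 q44 .e
noncomputable def t24 : Tr := .c 5 r43 (.c 7 r44 .e)
noncomputable def q45 : Tr := .c 7 (.l 41) .e
noncomputable def r45 : Tr := .c 1 q45 .e
noncomputable def t25 : Tr := .c 7 r45 .e
noncomputable def q46 : Tr := .c 4 (.l 42) .e
noncomputable def r46 : Tr := .c 5 q46 .e
noncomputable def q47 : Tr := .c 4 (.l 40) (.c 8 (.l 40) .e)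
noncomputable def r47 : Tr := .c 1 q47 .e
noncomputable def t26 : Tr := .c 2 r46 (.c 7 r47 .e)
noncomputable def q48 : Tr := .c 4 (.l 43) .e
noncomputable def r48 : Tr := .c 7 q48 .e
noncomputable def q49 : Tr := .c 4 (.l 42) (.c 6 (.l 42) .e)
noncomputable def r49 : Tr := .c 5 q49 .e
noncomputable def q50 : Tr := .c 4 (.l 39) (.c 8 (.l 39) .e)
noncomputable def r50 : Tr := .c 2 q50 .e
noncomputable def q51 : Tr := .c 4 (.l 40) (.c 6 (.l 40) (.c 8 (.l 40) .e))
noncomputable def r51 : Tr := .c 1 q51 .e
noncomputable def t27 : Tr := .c 1 r48 (.c 2 r49 (.c 5 r50 (.c 7 r51 .e)))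
noncomputable def q52 : Tr := .c 6 (.l 44) .e
noncomputable def r52 : Tr := .c 3 q52 .e
noncomputable def t28 : Tr := .c 7 r52 .e
noncomputable def r53 : Tr := .c 3 q29 (.c 4 q29 .e)
noncomputable def t29 : Tr := .c 7 r53 .e
noncomputable def q53 : Tr := .c 4 (.l 45) .e
noncomputable def r54 : Tr := .c 7 q53 .e
noncomputable def r55 : Tr := .c 4 q32 .e
noncomputable def t30 : Tr := .c 3 r54 (.c 5 r55 .e)
noncomputable def q54 : Tr := .c 4 (.l 46) .e
noncomputable def r56 : Tr := .c 3 q27 (.c 5 q54 .e)
noncomputable def t31 : Tr := .c 2 r56 (.c 7 r28 .e)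
noncomputable def q55 : Tr := .c 4 (.l 9) .e
noncomputable def r57 : Tr := .c 1 q55 (.c 5 q55 .e)
noncomputable def q56 : Tr := .c 5 (.l 8) .e
noncomputable def r58 : Tr := .c 0 q56 (.c 4 q56 .e)
noncomputable def t32 : Tr := .c 4 r57 (.c 5 r58 .e)
noncomputable def q57 : Tr := .c 4 (.l 47) .e
noncomputable def r59 : Tr := .c 5 q57 .e
noncomputable def q58 : Tr := .c 8 (.l 28) .e
noncomputable def r60 : Tr := .c 0 q58 .e
noncomputable def t33 : Tr := .c 0 r59 (.c 5 r60 .e)
noncomputable def q59 : Tr := .c 5 (.l 48) .e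
noncomputable def r61 : Tr := .c 4 q59 .e
noncomputable def q60 : Tr := .c 8 (.l 31) .e
noncomputable def r62 : Tr := .c 1 q60 .e
noncomputable def t34 : Tr := .c 1 r61 (.c 4 r62 .e)
noncomputable def q61 : Tr := .c 4 (.l 49) .e
noncomputable def q62 : Tr := .c 3 (.l 50) .e
noncomputable def r63 : Tr := .c 5 q61 (.c 8 q62 .e)
noncomputable def q63 : Tr := .c 5 (.l 51) .e
noncomputable def r64 : Tr := .c 4 q63 (.c 8 q62 .e)
noncomputable def q64 : Tr := .c 8 (.l 52) .e
noncomputable def r65 : Tr := .c 3 q64 (.c 4 q63 (.c 5 q61 (.c 8 q62 .e)))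
noncomputable def t35 : Tr := .c 0 r63 (.c 1 r64 (.c 2 r65 .e))
noncomputable def q65 : Tr := .c 3 (.l 23) (.c 5 (.l 23) .e)
noncomputable def r66 : Tr := .c 2 q65 .e
noncomputable def q66 : Tr := .c 5 (.l 53) .e
noncomputable def r67 : Tr := .c 0 q66 .e
noncomputable def q67 : Tr := .c 5 (.l 54) .e
noncomputable def r68 : Tr := .c 0 q67 (.c 4 q67 .e)
noncomputable def t36 : Tr := .c 4 r66 (.c 6 r67 (.c 7 r68 .e))
noncomputable def q68 : Tr := .c 4 (.l 55) (.c 5 (.l 23) .e)
noncomputable def r69 : Tr := .c 2 q68 (.c 5 q55 .e)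
noncomputable def q69 : Tr := .c 4 (.l 28) (.c 5 (.l 8) .e)
noncomputable def r70 : Tr := .c 0 q56 (.c 2 q69 (.c 4 q56 (.c 6 q56 .e)))
noncomputable def t37 : Tr := .c 4 r69 (.c 5 r70 .e)
noncomputable def q70 : Tr := .c 3 (.l 56) (.c 5 (.l 56) .e)
noncomputable def q71 : Tr := .c 3 (.l 57) .e
noncomputable def r71 : Tr := .c 5 q33 (.c 6 q70 (.c 8 q71 .e))
noncomputable def q72 : Tr := .c 8 (.l 33) .e
noncomputable def q73 : Tr := .c 5 (.l 22) .e
noncomputable def r72 : Tr := .c 3 q72 (.c 4 q73 (.c 5 q33 (.c 8 q71 .e)))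
noncomputable def q74 : Tr := .c 3 (.l 23) (.c 4 (.l 23) (.c 5 (.l 23) (.c 8 (.l 23) .e)))
noncomputable def r73 : Tr := .c 2 q74 (.c 5 q33 .e)
noncomputable def q75 : Tr := .c 5 (.l 53) (.c 8 (.l 58) .e)
noncomputable def r74 : Tr := .c 0 q75 (.c 3 q72 (.c 5 q33 .e))
noncomputable def t38 : Tr := .c 0 r71 (.c 2 r72 (.c 4 r73 (.c 6 r74 .e)))
noncomputable def q76 : Tr := .c 5 (.l 56) .e
noncomputable def r75 : Tr := .c 6 q76 .e
noncomputable def r76 : Tr := .c 4 q59 (.c 6 q59 .e)
noncomputable def q77 : Tr := .c 5 (.l 23) (.c 8 (.l 23) .e)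
noncomputable def r77 : Tr := .c 2 q77 .e
noncomputable def t39 : Tr := .c 0 r75 (.c 1 r76 (.c 4 r77 .e))
noncomputable def q78 : Tr := .c 3 (.l 20) (.c 4 (.l 20) .e)
noncomputable def r78 : Tr := .c 2 q78 .e
noncomputable def q79 : Tr := .c 4 (.l 59) .e
noncomputable def r79 : Tr := .c 1 q79 (.c 5 q79 .e)
noncomputable def q80 : Tr := .c 4 (.l 60) .e
noncomputable def r80 : Tr := .c 1 q80 .e
noncomputable def t40 : Tr := .c 5 r78 (.c 6 r79 (.c 7 r80 .e))
noncomputable def q81 : Tr := .c 4 (.l 9) (.c 5 (.l 1) .e)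
noncomputable def r81 : Tr := .c 1 q55 (.c 2 q81 (.c 5 q55 (.c 7 q55 .e)))
noncomputable def q82 : Tr := .c 4 (.l 20) (.c 5 (.l 61) .e)
noncomputable def r82 : Tr := .c 2 q82 (.c 4 q56 .e)
noncomputable def t41 : Tr := .c 4 r81 (.c 5 r82 .e)
noncomputable def q83 : Tr := .c 3 (.l 62) (.c 4 (.l 62) .e)
noncomputable def q84 : Tr := .c 3 (.l 63) .e
noncomputable def r83 : Tr := .c 4 q4 (.c 7 q83 (.c 8 q84 .e))
noncomputable def q85 : Tr := .c 8 (.l 6) .e
noncomputable def q86 : Tr := .c 4 (.l 19) .e
noncomputable def r84 : Tr := .c 3 q85 (.c 4 q4 (.c 5 q86 (.c 8 q84 .e)))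
noncomputable def q87 : Tr := .c 3 (.l 20) (.c 4 (.l 20) (.c 5 (.l 20) (.c 8 (.l 20) .e)))
noncomputable def r85 : Tr := .c 2 q87 (.c 4 q4 .e)
noncomputable def q88 : Tr := .c 4 (.l 60) (.c 8 (.l 60) .e)
noncomputable def r86 : Tr := .c 1 q88 (.c 3 q85 (.c 4 q4 .e))
noncomputable def t42 : Tr := .c 1 r83 (.c 2 r84 (.c 5 r85 (.c 7 r86 .e)))
noncomputable def r87 : Tr := .c 5 q57 (.c 7 q57 .e)
noncomputable def q89 : Tr := .c 4 (.l 62) .e
noncomputable def r88 : Tr := .c 7 q89 .e
noncomputable def q90 : Tr := .c 4 (.l 20) (.c 8 (.l 20) .e)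
noncomputable def r89 : Tr := .c 2 q90 .e
noncomputable def t43 : Tr := .c 0 r87 (.c 1 r88 (.c 5 r89 .e))
noncomputable def q91 : Tr := .c 3 (.l 28) .e
noncomputable def r90 : Tr := .c 6 q91 .e
noncomputable def q92 : Tr := .c 4 (.l 64) .e
noncomputable def r91 : Tr := .c 5 q92 .e
noncomputable def t44 : Tr := .c 5 r90 (.c 6 r91 .e)
noncomputable def q93 : Tr := .c 3 (.l 31) .e
noncomputable def r92 : Tr := .c 7 q93 .e
noncomputable def r93 : Tr := .c 4 q67 .e
noncomputable def t45 : Tr := .c 4 r92 (.c 7 r93 .e)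
noncomputable def r94 : Tr := .c 5 q55 (.c 7 q55 .e)
noncomputable def r95 : Tr := .c 4 q56 (.c 6 q56 .e)
noncomputable def t46 : Tr := .c 4 r94 (.c 5 r95 .e)
noncomputable def q94 : Tr := .c 3 (.l 65) .e
noncomputable def r96 : Tr := .c 3 q27 (.c 4 q28 (.c 5 q54 (.c 8 q94 .e)))
noncomputable def t47 : Tr := .c 2 r96 (.c 6 r56 (.c 7 r27 .e))
noncomputable def q95 : Tr := .c 8 (.l 66) .e
noncomputable def r97 : Tr := .c 0 q95 (.c 1 q95 (.c 2 q95 .e))
noncomputable def t48 : Tr := .c 8 r97 .e
noncomputable def q96 : Tr := .c 2 (.l 1) .e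
noncomputable def r98 : Tr := .c 4 q96 .e
noncomputable def q97 : Tr := .c 6 (.l 67) (.c 8 (.l 68) .e)
noncomputable def q98 : Tr := .c 8 (.l 68) .e
noncomputable def r99 : Tr := .c 0 q97 (.c 2 q98 (.c 4 q96 .e))
noncomputable def t49 : Tr := .c 1 r98 (.c 5 r99 .e)
noncomputable def q99 : Tr := .c 2 (.l 28) .e
noncomputable def r100 : Tr := .c 5 q99 .e
noncomputable def q100 : Tr := .c 7 (.l 69) (.c 8 (.l 70) .e)
noncomputable def q101 : Tr := .c 8 (.l 70) .e
noncomputable def r101 : Tr := .c 1 q100 (.c 2 q101 (.c 5 q99 .e))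
noncomputable def t50 : Tr := .c 0 r100 (.c 4 r101 .e)
noncomputable def q102 : Tr := .c 6 (.l 8) .e
noncomputable def r102 : Tr := .c 5 q102 .e
noncomputable def q103 : Tr := .c 7 (.l 71) .e
noncomputable def r103 : Tr := .c 4 q103 .e
noncomputable def q104 : Tr := .c 8 (.l 72) .e
noncomputable def r104 : Tr := .c 2 q104 .e
noncomputable def t51 : Tr := .c 0 r102 (.c 1 r103 (.c 3 r104 .e))
noncomputable def q105 : Tr := .c 2 (.l 73) .e
noncomputable def r105 : Tr := .c 0 q39 (.c 4 q105 .e)
noncomputable def q106 : Tr := .c 6 (.l 74) .e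
noncomputable def r106 : Tr := .c 0 q106 .e
noncomputable def t52 : Tr := .c 5 r105 (.c 8 r106 .e)
noncomputable def q107 : Tr := .c 7 (.l 75) .e
noncomputable def r107 : Tr := .c 0 q107 .e
noncomputable def t53 : Tr := .c 8 r107 .e
noncomputable def r108 : Tr := .c 0 q95 (.c 2 q95 .e)
noncomputable def t54 : Tr := .c 8 r108 .e
noncomputable def q108 : Tr := .c 2 (.l 20) .e
noncomputable def r109 : Tr := .c 8 q108 .e
noncomputable def r110 : Tr := .c 2 q101 .e
noncomputable def t55 : Tr := .c 0 r109 (.c 4 r110 .e)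
noncomputable def q109 : Tr := .c 6 (.l 76) .e
noncomputable def r111 : Tr := .c 1 q109 .e
noncomputable def t56 : Tr := .c 8 r111 .e
noncomputable def q110 : Tr := .c 2 (.l 77) .e
noncomputable def r112 : Tr := .c 1 q19 (.c 5 q110 .e)
noncomputable def t57 : Tr := .c 4 r112 (.c 8 r19 .e)
noncomputable def r113 : Tr := .c 1 q95 (.c 2 q95 .e)
noncomputable def t58 : Tr := .c 8 r113 .e
noncomputable def q111 : Tr := .c 2 (.l 78) .e
noncomputable def r114 : Tr := .c 8 q111 .e
noncomputable def r115 : Tr := .c 2 q98 .e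
noncomputable def t59 : Tr := .c 1 r114 (.c 5 r115 .e)
noncomputable def q112 : Tr := .c 2 (.l 79) .e
noncomputable def r116 : Tr := .c 4 q112 .e
noncomputable def q113 : Tr := .c 2 (.l 80) (.c 6 (.l 80) .e)
noncomputable def r117 : Tr := .c 3 q113 .e
noncomputable def t60 : Tr := .c 5 r116 (.c 8 r117 .e)
noncomputable def q114 : Tr := .c 2 (.l 81) .e
noncomputable def r118 : Tr := .c 5 q114 .e
noncomputable def q115 : Tr := .c 2 (.l 80) (.c 7 (.l 80) .e)
noncomputable def r119 : Tr := .c 3 q115 .e
noncomputable def t61 : Tr := .c 4 r118 (.c 8 r119 .e)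
noncomputable def q116 : Tr := .c 2 (.l 82) .e
noncomputable def r120 : Tr := .c 8 q116 .e
noncomputable def q117 : Tr := .c 2 (.l 81) (.c 6 (.l 81) .e)
noncomputable def r121 : Tr := .c 5 q117 .e
noncomputable def q118 : Tr := .c 2 (.l 79) (.c 7 (.l 79) .e)
noncomputable def r122 : Tr := .c 4 q118 .e
noncomputable def q119 : Tr := .c 2 (.l 80) (.c 6 (.l 80) (.c 7 (.l 80) .e))
noncomputable def r123 : Tr := .c 3 q119 .e
noncomputable def t62 : Tr := .c 3 r120 (.c 4 r121 (.c 5 r122 (.c 8 r123 .e)))
noncomputable def q120 : Tr := .c 8 (.l 83) .e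
noncomputable def r124 : Tr := .c 3 q120 .e
noncomputable def t63 : Tr := .c 8 r124 .e
noncomputable def q121 : Tr := .c 2 (.l 8) .e
noncomputable def r125 : Tr := .c 3 q121 (.c 5 q121 .e)
noncomputable def q122 : Tr := .c 5 (.l 71) .e
noncomputable def r126 : Tr := .c 0 q122 (.c 2 q122 .e)
noncomputable def t64 : Tr := .c 2 r125 (.c 5 r126 .e)
noncomputable def q123 : Tr := .c 2 (.l 84) .e
noncomputable def r127 : Tr := .c 5 q123 .e
noncomputable def q124 : Tr := .c 7 (.l 1) .e
noncomputable def r128 : Tr := .c 0 q124 .e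
noncomputable def t65 : Tr := .c 0 r127 (.c 5 r128 .e)
noncomputable def q125 : Tr := .c 2 (.l 85) .e
noncomputable def q126 : Tr := .c 1 (.l 86) .e
noncomputable def r129 : Tr := .c 5 q125 (.c 7 q126 .e)
noncomputable def q127 : Tr := .c 5 (.l 87) .e
noncomputable def r130 : Tr := .c 2 q127 (.c 7 q126 .e)
noncomputable def q128 : Tr := .c 7 (.l 88) .e
noncomputable def r131 : Tr := .c 1 q128 (.c 2 q127 (.c 5 q125 (.c 7 q126 .e)))
noncomputable def t66 : Tr := .c 0 r129 (.c 3 r130 (.c 4 r131 .e))
noncomputable def q129 : Tr := .c 7 (.l 4) .e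
noncomputable def r132 : Tr := .c 3 q129 .e
noncomputable def q130 : Tr := .c 5 (.l 89) .e
noncomputable def r133 : Tr := .c 2 q130 .e
noncomputable def t67 : Tr := .c 2 r132 (.c 3 r133 .e)
noncomputable def q131 : Tr := .c 1 (.l 20) (.c 5 (.l 20) .e)
noncomputable def r134 : Tr := .c 4 q131 .e
noncomputable def q132 : Tr := .c 5 (.l 90) .e
noncomputable def r135 : Tr := .c 0 q132 .e
noncomputable def q133 : Tr := .c 5 (.l 91) .e
noncomputable def r136 : Tr := .c 0 q133 (.c 2 q133 .e)
noncomputable def t68 : Tr := .c 2 r134 (.c 6 r135 (.c 8 r136 .e))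
noncomputable def q134 : Tr := .c 2 (.l 92) (.c 5 (.l 20) .e)
noncomputable def r137 : Tr := .c 4 q134 (.c 5 q121 .e)
noncomputable def q135 : Tr := .c 2 (.l 1) (.c 5 (.l 71) .e)
noncomputable def r138 : Tr := .c 0 q122 (.c 2 q122 (.c 4 q135 (.c 6 q122 .e)))
noncomputable def t69 : Tr := .c 2 r137 (.c 5 r138 .e)
noncomputable def q136 : Tr := .c 1 (.l 93) (.c 5 (.l 93) .e)
noncomputable def q137 : Tr := .c 1 (.l 94) .e
noncomputable def r139 : Tr := .c 5 q99 (.c 6 q136 (.c 7 q137 .e))
noncomputable def q138 : Tr := .c 1 (.l 20) (.c 2 (.l 20) (.c 5 (.l 20) (.c 7 (.l 20) .e)))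
noncomputable def r140 : Tr := .c 4 q138 (.c 5 q99 .e)
noncomputable def q139 : Tr := .c 7 (.l 69) .e
noncomputable def q140 : Tr := .c 5 (.l 75) .e
noncomputable def r141 : Tr := .c 1 q139 (.c 2 q140 (.c 5 q99 (.c 7 q137 .e)))
noncomputable def q141 : Tr := .c 5 (.l 90) (.c 7 (.l 90) .e)
noncomputable def r142 : Tr := .c 0 q141 (.c 1 q139 (.c 5 q99 .e))
noncomputable def t70 : Tr := .c 0 r139 (.c 2 r140 (.c 4 r141 (.c 6 r142 .e)))
noncomputable def q142 : Tr := .c 5 (.l 95) .e
noncomputable def r143 : Tr := .c 6 q142 .e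
noncomputable def q143 : Tr := .c 5 (.l 20) (.c 7 (.l 20) .e)
noncomputable def r144 : Tr := .c 4 q143 .e
noncomputable def r145 : Tr := .c 2 q130 (.c 6 q130 .e)
noncomputable def t71 : Tr := .c 0 r143 (.c 2 r144 (.c 3 r145 .e))
noncomputable def q144 : Tr := .c 1 (.l 78) (.c 2 (.l 78) .e)
noncomputable def r146 : Tr := .c 4 q144 .e
noncomputable def q145 : Tr := .c 2 (.l 96) .e
noncomputable def r147 : Tr := .c 3 q145 (.c 5 q145 .e)
noncomputable def q146 : Tr := .c 2 (.l 97) .e
noncomputable def r148 : Tr := .c 3 q146 .e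
noncomputable def t72 : Tr := .c 5 r146 (.c 6 r147 (.c 8 r148 .e))
noncomputable def q147 : Tr := .c 1 (.l 98) .e
noncomputable def q148 : Tr := .c 1 (.l 99) (.c 2 (.l 99) .e)
noncomputable def r149 : Tr := .c 2 q1 (.c 7 q147 (.c 8 q148 .e))
noncomputable def q149 : Tr := .c 7 (.l 3) .e
noncomputable def q150 : Tr := .c 2 (.l 76) .e
noncomputable def r150 : Tr := .c 1 q149 (.c 2 q1 (.c 5 q150 (.c 7 q147 .e)))
noncomputable def q151 : Tr := .c 1 (.l 78) (.c 2 (.l 78) (.c 5 (.l 78) (.c 7 (.l 78) .e)))
noncomputable def r151 : Tr := .c 2 q1 (.c 4 q151 .e)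
noncomputable def q152 : Tr := .c 2 (.l 97) (.c 7 (.l 97) .e)
noncomputable def r152 : Tr := .c 1 q149 (.c 2 q1 (.c 3 q152 .e))
noncomputable def t73 : Tr := .c 3 r149 (.c 4 r150 (.c 5 r151 (.c 8 r152 .e)))
noncomputable def q153 : Tr := .c 2 (.l 8) (.c 5 (.l 4) .e)
noncomputable def r153 : Tr := .c 3 q121 (.c 4 q153 (.c 5 q121 (.c 8 q121 .e)))
noncomputable def q154 : Tr := .c 2 (.l 78) (.c 5 (.l 100) .e)
noncomputable def r154 : Tr := .c 2 q122 (.c 4 q154 .e)
noncomputable def t74 : Tr := .c 2 r153 (.c 5 r154 .e)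
noncomputable def q155 : Tr := .c 2 (.l 101) .e
noncomputable def r155 : Tr := .c 5 q123 (.c 8 q155 .e)
noncomputable def q156 : Tr := .c 2 (.l 99) .e
noncomputable def r156 : Tr := .c 8 q156 .e
noncomputable def q157 : Tr := .c 2 (.l 78) (.c 7 (.l 78) .e)
noncomputable def r157 : Tr := .c 4 q157 .e
noncomputable def t75 : Tr := .c 0 r155 (.c 3 r156 (.c 5 r157 .e))
noncomputable def q158 : Tr := .c 1 (.l 1) .e
noncomputable def r158 : Tr := .c 6 q158 .e
noncomputable def r159 : Tr := .c 5 q145 .e
noncomputable def t76 : Tr := .c 5 r158 (.c 6 r159 .e)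
noncomputable def q159 : Tr := .c 1 (.l 102) .e
noncomputable def r160 : Tr := .c 1 q19 (.c 2 q20 (.c 5 q110 (.c 7 q159 .e)))
noncomputable def t77 : Tr := .c 4 r160 (.c 6 r112 (.c 8 r18 .e))
noncomputable def q160 : Tr := .c 1 (.l 4) .e
noncomputable def r161 : Tr := .c 8 q160 .e
noncomputable def r162 : Tr := .c 2 q133 .e
noncomputable def t78 : Tr := .c 2 r161 (.c 8 r162 .e)
noncomputable def r163 : Tr := .c 5 q121 (.c 8 q121 .e)
noncomputable def r164 : Tr := .c 2 q122 (.c 6 q122 .e)
noncomputable def t79 : Tr := .c 2 r163 (.c 5 r164 .e)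
noncomputable def q161 : Tr := .c 2 (.l 9) .e
noncomputable def r165 : Tr := .c 3 q161 (.c 4 q161 .e)
noncomputable def q162 : Tr := .c 4 (.l 35) .e
noncomputable def r166 : Tr := .c 1 q162 (.c 2 q162 .e)
noncomputable def t80 : Tr := .c 2 r165 (.c 4 r166 .e)
noncomputable def q163 : Tr := .c 2 (.l 103) .e
noncomputable def q164 : Tr := .c 0 (.l 104) .e
noncomputable def r167 : Tr := .c 4 q163 (.c 6 q164 .e)
noncomputable def q165 : Tr := .c 4 (.l 105) .e
noncomputable def r168 : Tr := .c 2 q165 (.c 6 q164 .e)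
noncomputable def q166 : Tr := .c 6 (.l 106) .e
noncomputable def r169 : Tr := .c 0 q166 (.c 2 q165 (.c 4 q163 (.c 6 q164 .e)))
noncomputable def t81 : Tr := .c 1 r167 (.c 3 r168 (.c 5 r169 .e))
noncomputable def q167 : Tr := .c 2 (.l 107) .e
noncomputable def r170 : Tr := .c 4 q167 .e
noncomputable def q168 : Tr := .c 6 (.l 28) .e
noncomputable def r171 : Tr := .c 1 q168 .e
noncomputable def t82 : Tr := .c 1 r170 (.c 4 r171 .e)
noncomputable def q169 : Tr := .c 6 (.l 1) .e
noncomputable def r172 : Tr := .c 3 q169 .e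
noncomputable def q170 : Tr := .c 4 (.l 108) .e
noncomputable def r173 : Tr := .c 2 q170 .e
noncomputable def t83 : Tr := .c 2 r172 (.c 3 r173 .e)
noncomputable def q171 : Tr := .c 0 (.l 23) (.c 4 (.l 23) .e)
noncomputable def r174 : Tr := .c 5 q171 .e
noncomputable def q172 : Tr := .c 4 (.l 109) .e
noncomputable def r175 : Tr := .c 1 q172 .e
noncomputable def q173 : Tr := .c 4 (.l 110) .e
noncomputable def r176 : Tr := .c 1 q173 (.c 2 q173 .e)
noncomputable def t84 : Tr := .c 2 r174 (.c 7 r175 (.c 8 r176 .e))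
noncomputable def q174 : Tr := .c 0 (.l 111) .e
noncomputable def q175 : Tr := .c 0 (.l 112) (.c 4 (.l 112) .e)
noncomputable def r177 : Tr := .c 4 q96 (.c 6 q174 (.c 7 q175 .e))
noncomputable def q176 : Tr := .c 0 (.l 23) (.c 2 (.l 23) (.c 4 (.l 23) (.c 6 (.l 23) .e)))
noncomputable def r178 : Tr := .c 4 q96 (.c 5 q176 .e)
noncomputable def q177 : Tr := .c 6 (.l 67) .e
noncomputable def q178 : Tr := .c 4 (.l 38) .e
noncomputable def r179 : Tr := .c 0 q177 (.c 2 q178 (.c 4 q96 (.c 6 q174 .e)))
noncomputable def q179 : Tr := .c 4 (.l 109) (.c 6 (.l 109) .e)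
noncomputable def r180 : Tr := .c 0 q177 (.c 1 q179 (.c 4 q96 .e))
noncomputable def t85 : Tr := .c 1 r177 (.c 2 r178 (.c 5 r179 (.c 7 r180 .e)))
noncomputable def q180 : Tr := .c 2 (.l 113) (.c 4 (.l 23) .e)
noncomputable def r181 : Tr := .c 4 q161 (.c 5 q180 .e)
noncomputable def q181 : Tr := .c 2 (.l 28) (.c 4 (.l 35) .e)
noncomputable def r182 : Tr := .c 1 q162 (.c 2 q162 (.c 5 q181 (.c 7 q162 .e)))
noncomputable def t86 : Tr := .c 2 r181 (.c 4 r182 .e)
noncomputable def q182 : Tr := .c 4 (.l 112) .e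
noncomputable def r183 : Tr := .c 7 q182 .e
noncomputable def q183 : Tr := .c 4 (.l 23) (.c 6 (.l 23) .e)
noncomputable def r184 : Tr := .c 5 q183 .e
noncomputable def r185 : Tr := .c 2 q170 (.c 7 q170 .e)
noncomputable def t87 : Tr := .c 1 r183 (.c 2 r184 (.c 3 r185 .e))
noncomputable def q184 : Tr := .c 0 (.l 45) (.c 2 (.l 45) .e)
noncomputable def r186 : Tr := .c 5 q184 .e
noncomputable def q185 : Tr := .c 2 (.l 114) .e
noncomputable def r187 : Tr := .c 3 q185 (.c 4 q185 .e)
noncomputable def q186 : Tr := .c 2 (.l 115) .e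
noncomputable def r188 : Tr := .c 3 q186 .e
noncomputable def t88 : Tr := .c 4 r186 (.c 7 r187 (.c 8 r188 .e))
noncomputable def q187 : Tr := .c 0 (.l 116) .e
noncomputable def q188 : Tr := .c 0 (.l 117) (.c 2 (.l 117) .e)
noncomputable def r189 : Tr := .c 2 q30 (.c 6 q187 (.c 8 q188 .e))
noncomputable def q189 : Tr := .c 0 (.l 45) (.c 2 (.l 45) (.c 4 (.l 45) (.c 6 (.l 45) .e)))
noncomputable def r190 : Tr := .c 2 q30 (.c 5 q189 .e)
noncomputable def q190 : Tr := .c 6 (.l 29) .e
noncomputable def q191 : Tr := .c 2 (.l 44) .e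
noncomputable def r191 : Tr := .c 0 q190 (.c 2 q30 (.c 4 q191 (.c 6 q187 .e)))
noncomputable def q192 : Tr := .c 6 (.l 118) .e
noncomputable def q193 : Tr := .c 2 (.l 115) (.c 6 (.l 115) .e)
noncomputable def r192 : Tr := .c 0 q192 (.c 2 q30 (.c 3 q193 .e))
noncomputable def t89 : Tr := .c 3 r189 (.c 4 r190 (.c 5 r191 (.c 8 r192 .e)))
noncomputable def q194 : Tr := .c 2 (.l 9) (.c 4 (.l 31) .e)
noncomputable def r193 : Tr := .c 3 q161 (.c 4 q161 (.c 5 q194 (.c 8 q161 .e)))
noncomputable def q195 : Tr := .c 2 (.l 45) (.c 4 (.l 119) .e)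
noncomputable def r194 : Tr := .c 2 q162 (.c 5 q195 .e)
noncomputable def t90 : Tr := .c 2 r193 (.c 4 r194 .e)
noncomputable def r195 : Tr := .c 4 q167 (.c 8 q167 .e)
noncomputable def q196 : Tr := .c 2 (.l 117) .e
noncomputable def r196 : Tr := .c 8 q196 .e
noncomputable def q197 : Tr := .c 2 (.l 45) (.c 6 (.l 45) .e)
noncomputable def r197 : Tr := .c 5 q197 .e
noncomputable def t91 : Tr := .c 1 r195 (.c 3 r196 (.c 4 r197 .e))
noncomputable def q198 : Tr := .c 0 (.l 120) .e
noncomputable def r198 : Tr := .c 0 q39 (.c 2 q40 (.c 4 q105 (.c 6 q198 .e)))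
noncomputable def q199 : Tr := .c 4 (.l 121) .e
noncomputable def r199 : Tr := .c 0 q106 (.c 2 q199 .e)
noncomputable def t92 : Tr := .c 5 r198 (.c 7 r105 (.c 8 r199 .e))
noncomputable def q200 : Tr := .c 0 (.l 28) .e
noncomputable def r200 : Tr := .c 7 q200 .e
noncomputable def r201 : Tr := .c 4 q185 .e
noncomputable def t93 : Tr := .c 4 r200 (.c 7 r201 .e)
noncomputable def q201 : Tr := .c 0 (.l 1) .e
noncomputable def r202 : Tr := .c 8 q201 .e
noncomputable def r203 : Tr := .c 2 q173 .e
noncomputable def t94 : Tr := .c 2 r202 (.c 8 r203 .e)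
noncomputable def r204 : Tr := .c 4 q161 (.c 8 q161 .e)
noncomputable def r205 : Tr := .c 2 q162 (.c 7 q162 .e)
noncomputable def t95 : Tr := .c 2 r204 (.c 4 r205 .e)
noncomputable def q202 : Tr := .c 1 (.l 122) (.c 3 (.l 122) (.c 5 (.l 122) .e))
noncomputable def r206 : Tr := .c 6 q202 .e
noncomputable def q203 : Tr := .c 1 (.l 123) (.c 5 (.l 123) .e)
noncomputable def r207 : Tr := .c 4 q203 .e
noncomputable def q204 : Tr := .c 3 (.l 124) (.c 5 (.l 124) .e)
noncomputable def r208 : Tr := .c 2 q204 .e
noncomputable def q205 : Tr := .c 5 (.l 125) .e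
noncomputable def r209 : Tr := .c 0 q205 .e
noncomputable def t96 : Tr := .c 0 r206 (.c 2 r207 (.c 4 r208 (.c 6 r209 .e)))
noncomputable def q206 : Tr := .c 0 (.l 126) .e
noncomputable def r210 : Tr := .c 6 q206 .e
noncomputable def t97 : Tr := .c 0 r210 .e
noncomputable def q207 : Tr := .c 1 (.l 122) (.c 5 (.l 122) .e)
noncomputable def r211 : Tr := .c 6 q207 .e
noncomputable def q208 : Tr := .c 5 (.l 124) .e
noncomputable def r212 : Tr := .c 2 q208 .e
noncomputable def t98 : Tr := .c 0 r211 (.c 4 r212 .e)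
noncomputable def q209 : Tr := .c 3 (.l 127) (.c 5 (.l 127) .e)
noncomputable def r213 : Tr := .c 6 q209 .e
noncomputable def q210 : Tr := .c 5 (.l 128) .e
noncomputable def r214 : Tr := .c 4 q210 .e
noncomputable def t99 : Tr := .c 0 r213 (.c 2 r214 .e)
noncomputable def q211 : Tr := .c 0 (.l 129) .e
noncomputable def r215 : Tr := .c 5 q211 .e
noncomputable def r216 : Tr := .c 0 q22 .e
noncomputable def t100 : Tr := .c 2 r215 (.c 7 r216 .e)
noncomputable def q212 : Tr := .c 0 (.l 130) .e
noncomputable def r217 : Tr := .c 5 q212 (.c 7 q212 .e)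
noncomputable def t101 : Tr := .c 0 r217 .e
noncomputable def r218 : Tr := .c 7 q126 .e
noncomputable def t102 : Tr := .c 0 r218 (.c 4 r130 .e)
noncomputable def q213 : Tr := .c 3 (.l 19) .e
noncomputable def r219 : Tr := .c 7 q213 .e
noncomputable def t103 : Tr := .c 0 r219 .e
noncomputable def q214 : Tr := .c 0 (.l 131) .e
noncomputable def r220 : Tr := .c 5 q214 .e
noncomputable def r221 : Tr := .c 0 q25 .e
noncomputable def t104 : Tr := .c 4 r220 (.c 8 r221 .e)
noncomputable def q215 : Tr := .c 0 (.l 132) .e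
noncomputable def r222 : Tr := .c 5 q212 (.c 8 q215 .e)
noncomputable def t105 : Tr := .c 0 r222 .e
noncomputable def q216 : Tr := .c 1 (.l 22) .e
noncomputable def r223 : Tr := .c 8 q216 .e
noncomputable def t106 : Tr := .c 0 r223 .e
noncomputable def r224 : Tr := .c 8 q62 .e
noncomputable def t107 : Tr := .c 0 r224 (.c 2 r64 .e)
noncomputable def q217 : Tr := .c 0 (.l 133) .e
noncomputable def r225 : Tr := .c 5 q217 .e
noncomputable def q218 : Tr := .c 1 (.l 8) .e
noncomputable def r226 : Tr := .c 4 q218 .e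
noncomputable def q219 : Tr := .c 3 (.l 9) .e
noncomputable def r227 : Tr := .c 2 q219 .e
noncomputable def t108 : Tr := .c 6 r225 (.c 7 r226 (.c 8 r227 .e))
noncomputable def q220 : Tr := .c 0 (.l 131) (.c 1 (.l 98) .e)
noncomputable def r228 : Tr := .c 2 q1 (.c 5 q214 (.c 7 q220 .e))
noncomputable def t109 : Tr := .c 4 r228 (.c 8 r1 .e)
noncomputable def q221 : Tr := .c 0 (.l 134) (.c 3 (.l 63) .e)
noncomputable def r229 : Tr := .c 4 q4 (.c 5 q211 (.c 8 q221 .e))
noncomputable def t110 : Tr := .c 2 r229 (.c 7 r3 .e)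
noncomputable def r230 : Tr := .c 5 q212 (.c 7 q212 (.c 8 q215 .e))
noncomputable def t111 : Tr := .c 0 r230 .e
noncomputable def q222 : Tr := .c 1 (.l 135) .e
noncomputable def r231 : Tr := .c 4 q222 .e
noncomputable def r232 : Tr := .c 1 q42 .e
noncomputable def t112 : Tr := .c 2 r231 (.c 6 r232 .e)
noncomputable def r233 : Tr := .c 6 q164 .e
noncomputable def t113 : Tr := .c 1 r233 (.c 5 r168 .e)
noncomputable def q223 : Tr := .c 1 (.l 136) .e
noncomputable def r234 : Tr := .c 4 q223 (.c 6 q223 .e)
noncomputable def t114 : Tr := .c 1 r234 .e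
noncomputable def q224 : Tr := .c 3 (.l 38) .e
noncomputable def r235 : Tr := .c 6 q224 .e
noncomputable def t115 : Tr := .c 1 r235 .e
noncomputable def q225 : Tr := .c 0 (.l 137) (.c 3 (.l 137) (.c 4 (.l 137) .e))
noncomputable def r236 : Tr := .c 7 q225 .e
noncomputable def q226 : Tr := .c 0 (.l 138) (.c 4 (.l 138) .e)
noncomputable def r237 : Tr := .c 5 q226 .e
noncomputable def q227 : Tr := .c 3 (.l 139) (.c 4 (.l 139) .e)
noncomputable def r238 : Tr := .c 2 q227 .e
noncomputable def q228 : Tr := .c 4 (.l 140) .e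
noncomputable def r239 : Tr := .c 1 q228 .e
noncomputable def t116 : Tr := .c 1 r236 (.c 2 r237 (.c 5 r238 (.c 7 r239 .e)))
noncomputable def q229 : Tr := .c 0 (.l 137) (.c 4 (.l 137) .e)
noncomputable def r240 : Tr := .c 7 q229 .e
noncomputable def q230 : Tr := .c 4 (.l 139) .e
noncomputable def r241 : Tr := .c 2 q230 .e
noncomputable def t117 : Tr := .c 1 r240 (.c 5 r241 .e)
noncomputable def q231 : Tr := .c 1 (.l 141) .e
noncomputable def r242 : Tr := .c 7 q231 .e
noncomputable def t118 : Tr := .c 1 r242 .e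
noncomputable def q232 : Tr := .c 3 (.l 137) (.c 4 (.l 137) .e)
noncomputable def r243 : Tr := .c 7 q232 .e
noncomputable def q233 : Tr := .c 4 (.l 138) .e
noncomputable def r244 : Tr := .c 5 q233 .e
noncomputable def t119 : Tr := .c 1 r243 (.c 2 r244 .e)
noncomputable def q234 : Tr := .c 1 (.l 142) .e
noncomputable def r245 : Tr := .c 4 q234 .e
noncomputable def r246 : Tr := .c 1 q53 .e
noncomputable def t120 : Tr := .c 5 r245 (.c 8 r246 .e)
noncomputable def q235 : Tr := .c 0 (.l 44) .e
noncomputable def r247 : Tr := .c 8 q235 .e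
noncomputable def t121 : Tr := .c 1 r247 .e
noncomputable def r248 : Tr := .c 4 q223 (.c 8 q223 .e)
noncomputable def t122 : Tr := .c 1 r248 .e
noncomputable def t123 : Tr := .c 1 r224 (.c 2 r63 .e)
noncomputable def q236 : Tr := .c 0 (.l 9) .e
noncomputable def r249 : Tr := .c 5 q236 .e
noncomputable def q237 : Tr := .c 1 (.l 143) .e
noncomputable def r250 : Tr := .c 4 q237 .e
noncomputable def q238 : Tr := .c 3 (.l 35) .e
noncomputable def r251 : Tr := .c 2 q238 .e
noncomputable def t124 : Tr := .c 6 r249 (.c 7 r250 (.c 8 r251 .e))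
noncomputable def q239 : Tr := .c 0 (.l 116) (.c 1 (.l 142) .e)
noncomputable def r252 : Tr := .c 2 q30 (.c 4 q234 (.c 6 q239 .e))
noncomputable def t125 : Tr := .c 5 r252 (.c 8 r30 .e)
noncomputable def q240 : Tr := .c 1 (.l 135) (.c 3 (.l 57) .e)
noncomputable def r253 : Tr := .c 4 q222 (.c 5 q33 (.c 8 q240 .e))
noncomputable def t126 : Tr := .c 2 r253 (.c 6 r32 .e)
noncomputable def r254 : Tr := .c 4 q223 (.c 6 q223 (.c 8 q223 .e))
noncomputable def t127 : Tr := .c 1 r254 .e
noncomputable def q241 : Tr := .c 3 (.l 144) .e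
noncomputable def r255 : Tr := .c 2 q241 .e
noncomputable def r256 : Tr := .c 3 q108 .e
noncomputable def t128 : Tr := .c 4 r255 (.c 6 r256 .e)
noncomputable def q242 : Tr := .c 0 (.l 145) .e
noncomputable def r257 : Tr := .c 6 q242 .e
noncomputable def q243 : Tr := .c 2 (.l 146) .e
noncomputable def r258 : Tr := .c 4 q243 (.c 6 q242 .e)
noncomputable def t129 : Tr := .c 3 r257 (.c 5 r258 .e)
noncomputable def q244 : Tr := .c 1 (.l 75) .e
noncomputable def r259 : Tr := .c 6 q244 .e
noncomputable def t130 : Tr := .c 3 r259 .e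
noncomputable def q245 : Tr := .c 3 (.l 147) .e
noncomputable def r260 : Tr := .c 2 q245 (.c 6 q245 .e)
noncomputable def t131 : Tr := .c 3 r260 .e
noncomputable def q246 : Tr := .c 3 (.l 148) .e
noncomputable def r261 : Tr := .c 2 q246 .e
noncomputable def r262 : Tr := .c 3 q111 .e
noncomputable def t132 : Tr := .c 5 r261 (.c 7 r262 .e)
noncomputable def q247 : Tr := .c 0 (.l 76) .e
noncomputable def r263 : Tr := .c 7 q247 .e
noncomputable def t133 : Tr := .c 3 r263 .e
noncomputable def t134 : Tr := .c 3 r218 (.c 4 r129 .e)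
noncomputable def r264 : Tr := .c 2 q245 (.c 7 q245 .e)
noncomputable def t135 : Tr := .c 3 r264 .e
noncomputable def q248 : Tr := .c 0 (.l 8) .e
noncomputable def r265 : Tr := .c 5 q248 .e
noncomputable def q249 : Tr := .c 1 (.l 71) .e
noncomputable def r266 : Tr := .c 4 q249 .e
noncomputable def q250 : Tr := .c 3 (.l 149) .e
noncomputable def r267 : Tr := .c 2 q250 .e
noncomputable def t136 : Tr := .c 6 r265 (.c 7 r266 (.c 8 r267 .e))
noncomputable def q251 : Tr := .c 0 (.l 150) (.c 3 (.l 148) .e)
noncomputable def r268 : Tr := .c 2 q246 (.c 4 q96 (.c 6 q251 .e))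
noncomputable def t137 : Tr := .c 5 r268 (.c 7 r98 .e)
noncomputable def q252 : Tr := .c 1 (.l 94) (.c 3 (.l 144) .e)
noncomputable def r269 : Tr := .c 2 q241 (.c 5 q99 (.c 7 q252 .e))
noncomputable def t138 : Tr := .c 4 r269 (.c 6 r100 .e)
noncomputable def r270 : Tr := .c 2 q245 (.c 6 q245 (.c 7 q245 .e))
noncomputable def t139 : Tr := .c 3 r270 .e
noncomputable def q253 : Tr := .c 0 (.l 151) (.c 1 (.l 151) (.c 2 (.l 151) .e))
noncomputable def r271 : Tr := .c 8 q253 .e
noncomputable def q254 : Tr := .c 0 (.l 152) (.c 2 (.l 152) .e)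
noncomputable def r272 : Tr := .c 5 q254 .e
noncomputable def q255 : Tr := .c 1 (.l 153) (.c 2 (.l 153) .e)
noncomputable def r273 : Tr := .c 4 q255 .e
noncomputable def q256 : Tr := .c 2 (.l 154) .e
noncomputable def r274 : Tr := .c 3 q256 .e
noncomputable def t140 : Tr := .c 3 r271 (.c 4 r272 (.c 5 r273 (.c 8 r274 .e)))
noncomputable def q257 : Tr := .c 0 (.l 151) (.c 2 (.l 151) .e)
noncomputable def r275 : Tr := .c 8 q257 .e
noncomputable def q258 : Tr := .c 2 (.l 153) .e
noncomputable def r276 : Tr := .c 4 q258 .e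
noncomputable def t141 : Tr := .c 3 r275 (.c 5 r276 .e)
noncomputable def q259 : Tr := .c 1 (.l 151) (.c 2 (.l 151) .e)
noncomputable def r277 : Tr := .c 8 q259 .e
noncomputable def q260 : Tr := .c 2 (.l 152) .e
noncomputable def r278 : Tr := .c 5 q260 .e
noncomputable def t142 : Tr := .c 3 r277 (.c 4 r278 .e)
noncomputable def q261 : Tr := .c 3 (.l 155) .e
noncomputable def r279 : Tr := .c 8 q261 .e
noncomputable def t143 : Tr := .c 3 r279 .e

/-- the diagram -/
noncomputable def T : Tr := (.c 0 (.c 5 (.c 0 t0 (.c 2 t1 (.c 4 t2 (.c 6 t3 .e)))) (.c 6 (.c 0 t4 (.c 1 t5 (.c 3 t6 (.c 5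
t7 .e)))) (.c 7 (.c 0 t8 (.c 1 t9 (.c 3 t10 (.c 4 t11 .e)))) (.c 8 (.c 0 t12 (.c 1 t13 (.c 2
t14 (.c 3 t15 .e)))) .e)))) (.c 1 (.c 4 (.c 1 t16 (.c 2 t17 (.c 5 t18 (.c 7 t19 .e)))) (.c 6
(.c 0 t20 (.c 1 t21 (.c 3 t22 (.c 5 t23 .e)))) (.c 7 (.c 0 t24 (.c 1 t25 (.c 3 t26 (.c 4 t27
.e)))) (.c 8 (.c 0 t28 (.c 1 t29 (.c 2 t30 (.c 3 t31 .e)))) .e)))) (.c 2 (.c 3 (.c 2 t32 (.c 6
t33 (.c 7 t34 (.c 8 t35 .e)))) (.c 4 (.c 1 t36 (.c 2 t37 (.c 5 t38 (.c 7 t39 .e)))) (.c 5 (.c 0
t40 (.c 2 t41 (.c 4 t42 (.c 6 t43 .e)))) (.c 8 (.c 0 t44 (.c 1 t45 (.c 2 t46 (.c 3 t47 .e))))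
.e)))) (.c 3 (.c 2 (.c 3 t48 (.c 4 t49 (.c 5 t50 (.c 8 t51 .e)))) (.c 6 (.c 0 t52 (.c 1 t53 (.c
3 t54 (.c 5 t55 .e)))) (.c 7 (.c 0 t56 (.c 1 t57 (.c 3 t58 (.c 4 t59 .e)))) (.c 8 (.c 0 t60 (.c
1 t61 (.c 2 t62 (.c 3 t63 .e)))) .e)))) (.c 4 (.c 1 (.c 4 t64 (.c 6 t65 (.c 7 t66 (.c 8 t67
.e)))) (.c 2 (.c 3 t68 (.c 4 t69 (.c 5 t70 (.c 8 t71 .e)))) (.c 5 (.c 0 t72 (.c 2 t73 (.c 4 t74
(.c 6 t75 .e)))) (.c 7 (.c 0 t76 (.c 1 t77 (.c 3 t78 (.c 4 t79 .e)))) .e)))) (.c 5 (.c 0 (.c 5
t80 (.c 6 t81 (.c 7 t82 (.c 8 t83 .e)))) (.c 2 (.c 3 t84 (.c 4 t85 (.c 5 t86 (.c 8 t87 .e))))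
(.c 4 (.c 1 t88 (.c 2 t89 (.c 5 t90 (.c 7 t91 .e)))) (.c 6 (.c 0 t92 (.c 1 t93 (.c 3 t94 (.c 5
t95 .e)))) .e)))) (.c 6 (.c 0 (.c 5 t96 (.c 6 t97 (.c 7 t98 (.c 8 t99 .e)))) (.c 1 (.c 4 t100
(.c 6 t101 (.c 7 t102 (.c 8 t103 .e)))) (.c 3 (.c 2 t104 (.c 6 t105 (.c 7 t106 (.c 8 t107
.e)))) (.c 5 (.c 0 t108 (.c 2 t109 (.c 4 t110 (.c 6 t111 .e)))) .e)))) (.c 7 (.c 0 (.c 5 t112
(.c 6 t113 (.c 7 t114 (.c 8 t115 .e)))) (.c 1 (.c 4 t116 (.c 6 t117 (.c 7 t118 (.c 8 t119
.e)))) (.c 3 (.c 2 t120 (.c 6 t121 (.c 7 t122 (.c 8 t123 .e)))) (.c 4 (.c 1 t124 (.c 2 t125 (.c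
5 t126 (.c 7 t127 .e)))) .e)))) (.c 8 (.c 0 (.c 5 t128 (.c 6 t129 (.c 7 t130 (.c 8 t131 .e))))
(.c 1 (.c 4 t132 (.c 6 t133 (.c 7 t134 (.c 8 t135 .e)))) (.c 2 (.c 3 t136 (.c 4 t137 (.c 5 t138
(.c 8 t139 .e)))) (.c 3 (.c 2 t140 (.c 6 t141 (.c 7 t142 (.c 8 t143 .e)))) .e)))) .e)))))))))

theorem k0 : chkQ0 D J R 156 T = true := by decide +kernel
theorem c0 : csP D J T 0 = true := by decide +kernel
theorem c1 : csP D J T 1 = true := by decide +kernel
theorem c2 : csP D J T 2 = true := by decide +kernel
theorem c3 : csP D J T 3 = true := by decide +kernel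
theorem c4 : csP D J T 4 = true := by decide +kernel
theorem c5 : csP D J T 5 = true := by decide +kernel
theorem c6 : csP D J T 6 = true := by decide +kernel
theorem c7 : csP D J T 7 = true := by decide +kernel
theorem c8 : csP D J T 8 = true := by decide +kernel
theorem c9 : csP D J T 9 = true := by decide +kernel
theorem c10 : csP D J T 10 = true := by decide +kernel
theorem c11 : csP D J T 11 = true := by decide +kernel
theorem c12 : csP D J T 12 = true := by decide +kernel
theorem c13 : csP D J T 13 = true := by decide +kernel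
theorem c14 : csP D J T 14 = true := by decide +kernel
theorem c15 : csP D J T 15 = true := by decide +kernel
theorem c16 : csP D J T 16 = true := by decide +kernel
theorem c17 : csP D J T 17 = true := by decide +kernel
theorem c18 : csP D J T 18 = true := by decide +kernel
theorem c19 : csP D J T 19 = true := by decide +kernel
theorem c20 : csP D J T 20 = true := by decide +kernel
theorem c21 : csP D J T 21 = true := by decide +kernel

theorem cs : ∀ p < D.N, csP D J T p = true := by
  intro p hp
  have hp : p < 22 := hp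
  interval_cases p
  · exact c0
  · exact c1
  · exact c2
  · exact c3
  · exact c4
  · exact c5
  · exact c6
  · exact c7
  · exact c8
  · exact c9
  · exact c10
  · exact c11
  · exact c12
  · exact c13
  · exact c14
  · exact c15
  · exact c16
  · exact c17
  · exact c18
  · exact c19
  · exact c20
  · exact c21

/-- the box table -/
theorem tab : BoxTab D := boxTab_of (by decide) (by decide) k0 cs

end C35_32

end Vale.Agent.P032.Words.Trie
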