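import Vale.Agent.P032.Words.H670.Split

/-!
# Hexagons around a centre with six colours: box tables
-/

namespace Vale.Agent.P032.Words.Trie

/-! ### 01 02 03 12 14 25  -/

namespace C13

/-- the data -/
def D : Dat where
  A := 6
  N := 13
  nb := [32, 16, 56, 4, 38, 21]
  op := [63, 63, 63, 63, 63, 63]
  nbT := [32, 16, 6200, 4, 1574, 405, 0, 7200, 5664, 6416, 2448, 1668, 900]
  opT := [8191, 8191, 2047, 8191, 6655, 7807, 8191, 8159, 8159, 8175, 8175, 8187, 8187]
  PL := [[0], [1], [2], [3], [4], [5], [0, 1, 3], [0, 2], [0, 4], [1, 2], [1, 5], [3, 4], [3, 5]]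
  L := [3, 5, 9, 6, 18, 36]
  P := [3, 5, 9, 6, 18, 36, 7, 11, 19, 13, 37, 22, 38]
  r := 0
  tie := [0, 0, 0, 0, 0, 0, 0, 0, 0, 0, 0, 0, 0]

/-- changes of the value at a tie -/
def J : List (List ℕ) := [[]]

/-- reachable values -/
def R : List (List ℕ) := [[1], [2], [4], [8], [0x10], [0x20], [0x40], [0x80], [0x100], [0x200], [0x400], [0x800],
[0x1000], [0x2000], [0x4000], [0x8000], [0x10000], [0x20000], [0x40000], [0x80000], [0x100000],
[0x200000], [0x400000], [0x800000], [0x1000000], [0x2000000], [0x4000000], [0x8000000],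
[0x10000000], [0x20000000], [0x40000000], [0x80000000], [0x100000000], [0x200000000],
[0x400000000], [0x800000000], [0x1000000000], [0x2000000000], [0x4000000000], [0x8000000000],
[0x10000000000], [0x20000000000], [0x40000000000], [0x80000000000], [0x100000000000],
[0x200000000000], [0x400000000000], [0x800000000000], [0x1000000000000], [0x2000000000000],
[0x4000000000000], [0x8000000000000], [0x10000000000000], [0x20000000000000],
[0x40000000000000], [0x80000000000000], [0x100000000000000], [0x200000000000000],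
[0x400000000000000], [0x800000000000000], [0x1000000000000000], [0x2000000000000000],
[0x4000000000000000], [0x8000000000000000], [0x10000000000000000], [0x20000000000000000],
[0x40000000000000000], [0x80000000000000000], [0x100000000000000000], [0x200000000000000000],
[0x400000000000000000], [0x800000000000000000], [0x1000000000000000000],
[0x2000000000000000000], [0x4000000000000000000], [0x8000000000000000000],
[0x10000000000000000000], [0x20000000000000000000], [0x40000000000000000000],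
[0x80000000000000000000], [0x100000000000000000000], [0x200000000000000000000],
[0x400000000000000000000], [0x800000000000000000000], [0x1000000000000000000000],
[0x2000000000000000000000], [0x4000000000000000000000], [0x8000000000000000000000],
[0x10000000000000000000000], [0x20000000000000000000000]]

noncomputable def q0 : Tr := .c 5 (.l 0) .e
noncomputable def q1 : Tr := .c 5 (.l 1) .e
noncomputable def q2 : Tr := .c 5 (.l 2) .e
noncomputable def r0 : Tr := .c 0 q0 (.c 2 q1 (.c 4 q2 .e))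
noncomputable def t0 : Tr := .c 5 r0 .e
noncomputable def q3 : Tr := .c 5 (.l 3) .e
noncomputable def r1 : Tr := .c 2 q3 .e
noncomputable def q4 : Tr := .c 5 (.l 4) .e
noncomputable def q5 : Tr := .c 5 (.l 5) .e
noncomputable def r2 : Tr := .c 0 q4 (.c 2 q3 (.c 4 q5 .e))
noncomputable def t1 : Tr := .c 3 r1 (.c 4 r1 (.c 5 r2 .e))
noncomputable def q6 : Tr := .c 5 (.l 6) .e
noncomputable def r3 : Tr := .c 4 q6 .e
noncomputable def q7 : Tr := .c 5 (.l 7) .e
noncomputable def q8 : Tr := .c 5 (.l 8) .e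
noncomputable def r4 : Tr := .c 0 q7 (.c 2 q8 (.c 4 q6 .e))
noncomputable def t2 : Tr := .c 1 r3 (.c 2 r3 (.c 5 r4 .e))
noncomputable def q9 : Tr := .c 4 (.l 9) .e
noncomputable def q10 : Tr := .c 4 (.l 10) .e
noncomputable def q11 : Tr := .c 4 (.l 11) .e
noncomputable def r5 : Tr := .c 1 q9 (.c 2 q10 (.c 5 q11 .e))
noncomputable def t3 : Tr := .c 4 r5 .e
noncomputable def q12 : Tr := .c 4 (.l 12) .e
noncomputable def r6 : Tr := .c 2 q12 .e
noncomputable def q13 : Tr := .c 4 (.l 13) .e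
noncomputable def q14 : Tr := .c 4 (.l 14) .e
noncomputable def r7 : Tr := .c 1 q13 (.c 2 q12 (.c 5 q14 .e))
noncomputable def t4 : Tr := .c 3 r6 (.c 4 r7 (.c 5 r6 .e))
noncomputable def q15 : Tr := .c 4 (.l 15) .e
noncomputable def r8 : Tr := .c 5 q15 .e
noncomputable def q16 : Tr := .c 4 (.l 16) .e
noncomputable def q17 : Tr := .c 4 (.l 17) .e
noncomputable def r9 : Tr := .c 1 q16 (.c 2 q17 (.c 5 q15 .e))
noncomputable def t5 : Tr := .c 0 r8 (.c 2 r8 (.c 4 r9 .e))
noncomputable def q18 : Tr := .c 3 (.l 18) (.c 4 (.l 13) (.c 5 (.l 4) .e))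
noncomputable def r10 : Tr := .c 2 q18 .e
noncomputable def q19 : Tr := .c 4 (.l 19) .e
noncomputable def q20 : Tr := .c 3 (.l 20) (.c 4 (.l 19) (.c 5 (.l 21) .e))
noncomputable def r11 : Tr := .c 1 q19 (.c 2 q20 (.c 5 q19 .e))
noncomputable def q21 : Tr := .c 5 (.l 22) .e
noncomputable def q22 : Tr := .c 3 (.l 23) (.c 4 (.l 24) (.c 5 (.l 22) .e))
noncomputable def r12 : Tr := .c 0 q21 (.c 2 q22 (.c 4 q21 .e))
noncomputable def t6 : Tr := .c 3 r10 (.c 4 r11 (.c 5 r12 .e))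
noncomputable def q23 : Tr := .c 4 (.l 20) .e
noncomputable def q24 : Tr := .c 3 (.l 25) (.c 4 (.l 25) (.c 5 (.l 25) .e))
noncomputable def q25 : Tr := .c 4 (.l 26) .e
noncomputable def r13 : Tr := .c 1 q23 (.c 2 q24 (.c 5 q25 .e))
noncomputable def t7 : Tr := .c 4 r13 .e
noncomputable def q26 : Tr := .c 3 (.l 10) (.c 4 (.l 12) (.c 5 (.l 27) .e))
noncomputable def r14 : Tr := .c 2 q26 .e
noncomputable def q27 : Tr := .c 3 (.l 25) (.c 4 (.l 28) (.c 5 (.l 25) .e))
noncomputable def r15 : Tr := .c 1 q19 (.c 2 q27 (.c 5 q19 .e))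
noncomputable def q28 : Tr := .c 3 (.l 29) (.c 4 (.l 12) (.c 5 (.l 22) .e))
noncomputable def r16 : Tr := .c 0 q21 (.c 2 q28 (.c 4 q21 .e))
noncomputable def t8 : Tr := .c 3 r14 (.c 4 r15 (.c 5 r16 .e))
noncomputable def q29 : Tr := .c 5 (.l 30) .e
noncomputable def r17 : Tr := .c 4 q29 (.c 5 q15 .e)
noncomputable def q30 : Tr := .c 4 (.l 31) .e
noncomputable def r18 : Tr := .c 1 q30 (.c 2 q24 (.c 5 q15 .e))
noncomputable def t9 : Tr := .c 0 r8 (.c 2 r17 (.c 4 r18 .e))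
noncomputable def q31 : Tr := .c 5 (.l 23) .e
noncomputable def q32 : Tr := .c 3 (.l 32) (.c 4 (.l 32) (.c 5 (.l 32) .e))
noncomputable def q33 : Tr := .c 5 (.l 33) .e
noncomputable def r19 : Tr := .c 0 q31 (.c 2 q32 (.c 4 q33 .e))
noncomputable def t10 : Tr := .c 5 r19 .e
noncomputable def q34 : Tr := .c 3 (.l 1) (.c 4 (.l 34) (.c 5 (.l 3) .e))
noncomputable def r20 : Tr := .c 2 q34 .e
noncomputable def q35 : Tr := .c 3 (.l 35) (.c 4 (.l 19) (.c 5 (.l 3) .e))
noncomputable def r21 : Tr := .c 1 q19 (.c 2 q35 (.c 5 q19 .e))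
noncomputable def q36 : Tr := .c 3 (.l 32) (.c 4 (.l 32) (.c 5 (.l 36) .e))
noncomputable def r22 : Tr := .c 0 q21 (.c 2 q36 (.c 4 q21 .e))
noncomputable def t11 : Tr := .c 3 r20 (.c 4 r21 (.c 5 r22 .e))
noncomputable def q37 : Tr := .c 4 (.l 37) .e
noncomputable def r23 : Tr := .c 4 q6 (.c 5 q37 .e)
noncomputable def q38 : Tr := .c 5 (.l 38) .e
noncomputable def r24 : Tr := .c 0 q38 (.c 2 q32 (.c 4 q6 .e))
noncomputable def t12 : Tr := .c 1 r3 (.c 2 r23 (.c 5 r24 .e))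
noncomputable def q39 : Tr := .c 2 (.l 39) .e
noncomputable def q40 : Tr := .c 2 (.l 40) .e
noncomputable def q41 : Tr := .c 2 (.l 41) .e
noncomputable def r25 : Tr := .c 3 q39 (.c 4 q40 (.c 5 q41 .e))
noncomputable def t13 : Tr := .c 2 r25 .e
noncomputable def q42 : Tr := .c 2 (.l 42) .e
noncomputable def r26 : Tr := .c 4 q42 .e
noncomputable def q43 : Tr := .c 2 (.l 43) .e
noncomputable def q44 : Tr := .c 2 (.l 44) .e
noncomputable def r27 : Tr := .c 3 q43 (.c 4 q42 (.c 5 q44 .e))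
noncomputable def t14 : Tr := .c 1 r26 (.c 2 r27 (.c 5 r26 .e))
noncomputable def q45 : Tr := .c 2 (.l 45) .e
noncomputable def r28 : Tr := .c 5 q45 .e
noncomputable def q46 : Tr := .c 2 (.l 46) .e
noncomputable def q47 : Tr := .c 2 (.l 47) .e
noncomputable def r29 : Tr := .c 3 q46 (.c 4 q47 (.c 5 q45 .e))
noncomputable def t15 : Tr := .c 0 r28 (.c 2 r29 (.c 4 r28 .e))
noncomputable def q48 : Tr := .c 1 (.l 48) (.c 2 (.l 43) (.c 5 (.l 7) .e))
noncomputable def r30 : Tr := .c 4 q48 .e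
noncomputable def q49 : Tr := .c 2 (.l 49) .e
noncomputable def q50 : Tr := .c 1 (.l 50) (.c 2 (.l 49) (.c 5 (.l 51) .e))
noncomputable def r31 : Tr := .c 3 q49 (.c 4 q50 (.c 5 q49 .e))
noncomputable def q51 : Tr := .c 5 (.l 52) .e
noncomputable def q52 : Tr := .c 1 (.l 53) (.c 2 (.l 54) (.c 5 (.l 52) .e))
noncomputable def r32 : Tr := .c 0 q51 (.c 2 q51 (.c 4 q52 .e))
noncomputable def t16 : Tr := .c 1 r30 (.c 2 r31 (.c 5 r32 .e))
noncomputable def q53 : Tr := .c 2 (.l 50) .e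
noncomputable def q54 : Tr := .c 1 (.l 55) (.c 2 (.l 55) (.c 5 (.l 55) .e))
noncomputable def q55 : Tr := .c 2 (.l 56) .e
noncomputable def r33 : Tr := .c 3 q53 (.c 4 q54 (.c 5 q55 .e))
noncomputable def t17 : Tr := .c 2 r33 .e
noncomputable def q56 : Tr := .c 1 (.l 40) (.c 2 (.l 42) (.c 5 (.l 57) .e))
noncomputable def r34 : Tr := .c 4 q56 .e
noncomputable def q57 : Tr := .c 1 (.l 55) (.c 2 (.l 58) (.c 5 (.l 55) .e))
noncomputable def r35 : Tr := .c 3 q49 (.c 4 q57 (.c 5 q49 .e))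
noncomputable def q58 : Tr := .c 1 (.l 59) (.c 2 (.l 42) (.c 5 (.l 52) .e))
noncomputable def r36 : Tr := .c 0 q51 (.c 2 q51 (.c 4 q58 .e))
noncomputable def t18 : Tr := .c 1 r34 (.c 2 r35 (.c 5 r36 .e))
noncomputable def q59 : Tr := .c 2 (.l 60) .e
noncomputable def r37 : Tr := .c 3 q59 (.c 4 q54 (.c 5 q45 .e))
noncomputable def q60 : Tr := .c 5 (.l 61) .e
noncomputable def r38 : Tr := .c 2 q60 (.c 5 q45 .e)
noncomputable def t19 : Tr := .c 0 r28 (.c 2 r37 (.c 4 r38 .e))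
noncomputable def q61 : Tr := .c 5 (.l 53) .e
noncomputable def q62 : Tr := .c 5 (.l 62) .e
noncomputable def q63 : Tr := .c 1 (.l 63) (.c 2 (.l 63) (.c 5 (.l 63) .e))
noncomputable def r39 : Tr := .c 0 q61 (.c 2 q62 (.c 4 q63 .e))
noncomputable def t20 : Tr := .c 5 r39 .e
noncomputable def q64 : Tr := .c 2 (.l 64) .e
noncomputable def r40 : Tr := .c 2 q3 (.c 5 q64 .e)
noncomputable def q65 : Tr := .c 5 (.l 65) .e
noncomputable def r41 : Tr := .c 0 q65 (.c 2 q3 (.c 4 q63 .e))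
noncomputable def t21 : Tr := .c 3 r1 (.c 4 r40 (.c 5 r41 .e))
noncomputable def q66 : Tr := .c 1 (.l 2) (.c 2 (.l 66) (.c 5 (.l 6) .e))
noncomputable def r42 : Tr := .c 4 q66 .e
noncomputable def q67 : Tr := .c 1 (.l 67) (.c 2 (.l 49) (.c 5 (.l 6) .e))
noncomputable def r43 : Tr := .c 3 q49 (.c 4 q67 (.c 5 q49 .e))
noncomputable def q68 : Tr := .c 1 (.l 63) (.c 2 (.l 63) (.c 5 (.l 68) .e))
noncomputable def r44 : Tr := .c 0 q51 (.c 2 q51 (.c 4 q68 .e))
noncomputable def t22 : Tr := .c 1 r42 (.c 2 r43 (.c 5 r44 .e))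
noncomputable def q69 : Tr := .c 0 (.l 69) (.c 2 (.l 46) (.c 4 (.l 16) .e))
noncomputable def r45 : Tr := .c 5 q69 .e
noncomputable def q70 : Tr := .c 2 (.l 70) .e
noncomputable def q71 : Tr := .c 0 (.l 71) (.c 2 (.l 70) (.c 4 (.l 72) .e))
noncomputable def r46 : Tr := .c 3 q70 (.c 4 q70 (.c 5 q71 .e))
noncomputable def q72 : Tr := .c 4 (.l 73) .e
noncomputable def q73 : Tr := .c 0 (.l 74) (.c 2 (.l 75) (.c 4 (.l 73) .e))
noncomputable def r47 : Tr := .c 1 q72 (.c 2 q72 (.c 5 q73 .e))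
noncomputable def t23 : Tr := .c 0 r45 (.c 2 r46 (.c 4 r47 .e))
noncomputable def q74 : Tr := .c 2 (.l 71) .e
noncomputable def q75 : Tr := .c 2 (.l 76) .e
noncomputable def q76 : Tr := .c 0 (.l 77) (.c 2 (.l 77) (.c 4 (.l 77) .e))
noncomputable def r48 : Tr := .c 3 q74 (.c 4 q75 (.c 5 q76 .e))
noncomputable def t24 : Tr := .c 2 r48 .e
noncomputable def q77 : Tr := .c 2 (.l 78) .e
noncomputable def r49 : Tr := .c 3 q77 (.c 4 q42 (.c 5 q76 .e))
noncomputable def q78 : Tr := .c 4 (.l 79) .e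
noncomputable def r50 : Tr := .c 2 q78 (.c 4 q42 .e)
noncomputable def t25 : Tr := .c 1 r26 (.c 2 r49 (.c 5 r50 .e))
noncomputable def q79 : Tr := .c 0 (.l 41) (.c 2 (.l 45) (.c 4 (.l 80) .e))
noncomputable def r51 : Tr := .c 5 q79 .e
noncomputable def q80 : Tr := .c 0 (.l 77) (.c 2 (.l 81) (.c 4 (.l 77) .e))
noncomputable def r52 : Tr := .c 3 q70 (.c 4 q70 (.c 5 q80 .e))
noncomputable def q81 : Tr := .c 0 (.l 82) (.c 2 (.l 45) (.c 4 (.l 73) .e))
noncomputable def r53 : Tr := .c 1 q72 (.c 2 q72 (.c 5 q81 .e))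
noncomputable def t26 : Tr := .c 0 r51 (.c 2 r52 (.c 4 r53 .e))
noncomputable def q82 : Tr := .c 4 (.l 74) .e
noncomputable def q83 : Tr := .c 4 (.l 83) .e
noncomputable def q84 : Tr := .c 0 (.l 84) (.c 2 (.l 84) (.c 4 (.l 84) .e))
noncomputable def r54 : Tr := .c 1 q82 (.c 2 q83 (.c 5 q84 .e))
noncomputable def t27 : Tr := .c 4 r54 .e
noncomputable def q85 : Tr := .c 4 (.l 85) .e
noncomputable def r55 : Tr := .c 1 q85 (.c 2 q12 (.c 5 q84 .e))
noncomputable def q86 : Tr := .c 2 (.l 86) .e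
noncomputable def r56 : Tr := .c 2 q12 (.c 4 q86 .e)
noncomputable def t28 : Tr := .c 3 r6 (.c 4 r55 (.c 5 r56 .e))
noncomputable def q87 : Tr := .c 0 (.l 11) (.c 2 (.l 87) (.c 4 (.l 15) .e))
noncomputable def r57 : Tr := .c 5 q87 .e
noncomputable def q88 : Tr := .c 0 (.l 88) (.c 2 (.l 70) (.c 4 (.l 15) .e))
noncomputable def r58 : Tr := .c 3 q70 (.c 4 q70 (.c 5 q88 .e))
noncomputable def q89 : Tr := .c 0 (.l 84) (.c 2 (.l 84) (.c 4 (.l 89) .e))
noncomputable def r59 : Tr := .c 1 q72 (.c 2 q72 (.c 5 q89 .e))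
noncomputable def t29 : Tr := .c 0 r57 (.c 2 r58 (.c 4 r59 .e))

/-- the diagram -/
noncomputable def T : Tr := (.c 0 (.c 5 (.c 0 t0 (.c 2 t1 (.c 4 t2 .e))) .e) (.c 1 (.c 4 (.c 1 t3 (.c 2 t4 (.c 5 t5 .e)))
.e) (.c 2 (.c 3 (.c 2 t6 .e) (.c 4 (.c 1 t7 (.c 2 t8 (.c 5 t9 .e))) (.c 5 (.c 0 t10 (.c 2 t11
(.c 4 t12 .e))) .e))) (.c 3 (.c 2 (.c 3 t13 (.c 4 t14 (.c 5 t15 .e))) .e) (.c 4 (.c 1 (.c 4 t16
.e) (.c 2 (.c 3 t17 (.c 4 t18 (.c 5 t19 .e))) (.c 5 (.c 0 t20 (.c 2 t21 (.c 4 t22 .e))) .e)))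
(.c 5 (.c 0 (.c 5 t23 .e) (.c 2 (.c 3 t24 (.c 4 t25 (.c 5 t26 .e))) (.c 4 (.c 1 t27 (.c 2 t28
(.c 5 t29 .e))) .e))) .e))))))

theorem k0 : chkQ0 D J R 90 T = true := by decide +kernel
theorem c0 : csP D J T 0 = true := by decide +kernel
theorem c1 : csP D J T 1 = true := by decide +kernel
theorem c2 : csP D J T 2 = true := by decide +kernel
theorem c3 : csP D J T 3 = true := by decide +kernel
theorem c4 : csP D J T 4 = true := by decide +kernel
theorem c5 : csP D J T 5 = true := by decide +kernel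
theorem c6 : csP D J T 6 = true := by decide +kernel
theorem c7 : csP D J T 7 = true := by decide +kernel
theorem c8 : csP D J T 8 = true := by decide +kernel
theorem c9 : csP D J T 9 = true := by decide +kernel
theorem c10 : csP D J T 10 = true := by decide +kernel
theorem c11 : csP D J T 11 = true := by decide +kernel
theorem c12 : csP D J T 12 = true := by decide +kernel

theorem cs : ∀ p < D.N, csP D J T p = true := by
  intro p hp
  have hp : p < 13 := hp
  interval_cases p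
  · exact c0
  · exact c1
  · exact c2
  · exact c3
  · exact c4
  · exact c5
  · exact c6
  · exact c7
  · exact c8
  · exact c9
  · exact c10
  · exact c11
  · exact c12

/-- the box table -/
theorem tab : BoxTab D := boxTab_of (by decide) (by decide) k0 cs

end C13

end Vale.Agent.P032.Words.Trie
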