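import Vale.Agent.P032.Words.H670.Split

/-!
# Hexagons around a centre with six colours: box tables
-/

namespace Vale.Agent.P032.Words.Trie

/-! ### 01 02 03 14 15 24  -/

namespace C17

/-- the data -/
def D : Dat where
  A := 6
  N := 14
  nb := [32, 24, 56, 6, 38, 21]
  op := [63, 63, 63, 63, 63, 63]
  nbT := [32, 8216, 12344, 1030, 3110, 661, 8192, 14368, 1024, 7200, 13080, 8848, 1668, 3270]
  opT := [16383, 8191, 4095, 15359, 13311, 15743, 16383, 16351, 16383, 16351, 16359, 16367, 16379,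
16377]
  PL := [[0], [1], [2], [3], [4], [5], [0, 1], [0, 2], [0, 3], [0, 4], [1, 2], [1, 5], [3, 5], [3, 4]]
  L := [3, 5, 9, 18, 34, 20]
  P := [3, 5, 9, 18, 34, 20, 7, 11, 19, 35, 13, 21, 22, 50]
  r := 0
  tie := [0, 0, 0, 0, 0, 0, 0, 0, 0, 0, 0, 0, 0, 0]

/-- changes of the value at a tie -/
def J : List (List ℕ) := [[]]

/-- reachable values -/
def R : List (List ℕ) := [[1], [2], [4], [8], [0x10], [0x20], [0x40], [0x80], [0x100], [0x200], [0x400], [0x800],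
[0x1000], [0x2000], [0x4000], [0x8000], [0x10000], [0x20000], [0x40000], [0x80000], [0x100000],
[0x200000], [0x400000], [0x800000], [0x1000000], [0x2000000]]

noncomputable def q0 : Tr := .c 5 (.l 0) .e
noncomputable def q1 : Tr := .c 5 (.l 1) .e
noncomputable def q2 : Tr := .c 5 (.l 2) .e
noncomputable def r0 : Tr := .c 0 q0 (.c 2 q1 (.c 4 q2 .e))
noncomputable def t0 : Tr := .c 5 r0 .e
noncomputable def r1 : Tr := .c 2 q1 .e
noncomputable def q3 : Tr := .c 5 (.l 3) .e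
noncomputable def r2 : Tr := .c 0 q1 (.c 2 q1 (.c 4 q3 .e))
noncomputable def t1 : Tr := .c 3 r1 (.c 4 r1 (.c 5 r2 .e))
noncomputable def r3 : Tr := .c 4 q2 .e
noncomputable def q4 : Tr := .c 5 (.l 4) .e
noncomputable def r4 : Tr := .c 0 q2 (.c 2 q4 (.c 4 q2 .e))
noncomputable def t2 : Tr := .c 1 r3 (.c 2 r3 (.c 5 r4 .e))
noncomputable def q5 : Tr := .c 3 (.l 1) (.c 4 (.l 1) .e)
noncomputable def r5 : Tr := .c 1 q5 (.c 2 q5 .e)
noncomputable def q6 : Tr := .c 4 (.l 1) .e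
noncomputable def r6 : Tr := .c 1 q5 (.c 2 q5 (.c 5 q6 .e))
noncomputable def t3 : Tr := .c 3 r5 (.c 4 r6 .e)
noncomputable def r7 : Tr := .c 2 q5 .e
noncomputable def t4 : Tr := .c 3 r5 (.c 4 r6 (.c 5 r7 .e))
noncomputable def r8 : Tr := .c 5 q6 .e
noncomputable def t5 : Tr := .c 0 r8 (.c 2 r8 (.c 4 r6 .e))
noncomputable def q7 : Tr := .c 3 (.l 1) (.c 4 (.l 1) (.c 5 (.l 1) .e))
noncomputable def r9 : Tr := .c 1 q5 (.c 2 q7 .e)
noncomputable def r10 : Tr := .c 1 q5 (.c 2 q7 (.c 5 q6 .e))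
noncomputable def t6 : Tr := .c 3 r9 (.c 4 r10 .e)
noncomputable def r11 : Tr := .c 0 q1 (.c 2 q7 (.c 4 q1 .e))
noncomputable def t7 : Tr := .c 3 r9 (.c 4 r10 (.c 5 r11 .e))
noncomputable def q8 : Tr := .c 5 (.l 5) .e
noncomputable def r12 : Tr := .c 4 q8 (.c 5 q6 .e)
noncomputable def t8 : Tr := .c 0 r8 (.c 2 r12 (.c 4 r10 .e))
noncomputable def q9 : Tr := .c 5 (.l 6) .e
noncomputable def r13 : Tr := .c 0 q1 (.c 2 q7 (.c 4 q9 .e))
noncomputable def t9 : Tr := .c 5 r13 .e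
noncomputable def q10 : Tr := .c 3 (.l 1) (.c 4 (.l 1) (.c 5 (.l 7) .e))
noncomputable def r14 : Tr := .c 0 q1 (.c 2 q10 (.c 4 q1 .e))
noncomputable def t10 : Tr := .c 3 r9 (.c 4 r10 (.c 5 r14 .e))
noncomputable def q11 : Tr := .c 4 (.l 8) .e
noncomputable def r15 : Tr := .c 4 q2 (.c 5 q11 .e)
noncomputable def q12 : Tr := .c 5 (.l 9) .e
noncomputable def r16 : Tr := .c 0 q12 (.c 2 q7 (.c 4 q2 .e))
noncomputable def t11 : Tr := .c 1 r3 (.c 2 r15 (.c 5 r16 .e))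
noncomputable def q13 : Tr := .c 1 (.l 2) (.c 2 (.l 2) .e)
noncomputable def r17 : Tr := .c 3 q13 (.c 4 q13 .e)
noncomputable def q14 : Tr := .c 2 (.l 2) .e
noncomputable def r18 : Tr := .c 3 q13 (.c 4 q13 (.c 5 q14 .e))
noncomputable def t12 : Tr := .c 1 r17 (.c 2 r18 .e)
noncomputable def r19 : Tr := .c 4 q13 .e
noncomputable def t13 : Tr := .c 1 r17 (.c 2 r18 (.c 5 r19 .e))
noncomputable def r20 : Tr := .c 5 q14 .e
noncomputable def t14 : Tr := .c 0 r20 (.c 2 r18 (.c 4 r20 .e))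
noncomputable def q15 : Tr := .c 1 (.l 2) (.c 2 (.l 2) (.c 5 (.l 2) .e))
noncomputable def r21 : Tr := .c 3 q13 (.c 4 q15 .e)
noncomputable def r22 : Tr := .c 3 q13 (.c 4 q15 (.c 5 q14 .e))
noncomputable def t15 : Tr := .c 1 r21 (.c 2 r22 .e)
noncomputable def r23 : Tr := .c 0 q2 (.c 2 q2 (.c 4 q15 .e))
noncomputable def t16 : Tr := .c 1 r21 (.c 2 r22 (.c 5 r23 .e))
noncomputable def q16 : Tr := .c 5 (.l 10) .e
noncomputable def r24 : Tr := .c 2 q16 (.c 5 q14 .e)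
noncomputable def t17 : Tr := .c 0 r20 (.c 2 r22 (.c 4 r24 .e))
noncomputable def q17 : Tr := .c 5 (.l 11) .e
noncomputable def r25 : Tr := .c 0 q2 (.c 2 q17 (.c 4 q15 .e))
noncomputable def t18 : Tr := .c 5 r25 .e
noncomputable def q18 : Tr := .c 2 (.l 12) .e
noncomputable def r26 : Tr := .c 2 q1 (.c 5 q18 .e)
noncomputable def q19 : Tr := .c 5 (.l 13) .e
noncomputable def r27 : Tr := .c 0 q19 (.c 2 q1 (.c 4 q15 .e))
noncomputable def t19 : Tr := .c 3 r1 (.c 4 r26 (.c 5 r27 .e))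
noncomputable def q20 : Tr := .c 1 (.l 2) (.c 2 (.l 2) (.c 5 (.l 14) .e))
noncomputable def r28 : Tr := .c 0 q2 (.c 2 q2 (.c 4 q20 .e))
noncomputable def t20 : Tr := .c 1 r21 (.c 2 r22 (.c 5 r28 .e))
noncomputable def q21 : Tr := .c 0 (.l 15) (.c 2 (.l 2) (.c 4 (.l 1) .e))
noncomputable def r29 : Tr := .c 5 q21 .e
noncomputable def q22 : Tr := .c 0 (.l 2) (.c 2 (.l 2) (.c 4 (.l 16) .e))
noncomputable def r30 : Tr := .c 3 q14 (.c 4 q14 (.c 5 q22 .e))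
noncomputable def q23 : Tr := .c 0 (.l 1) (.c 2 (.l 17) (.c 4 (.l 1) .e))
noncomputable def r31 : Tr := .c 1 q6 (.c 2 q6 (.c 5 q23 .e))
noncomputable def t21 : Tr := .c 0 r29 (.c 2 r30 (.c 4 r31 .e))
noncomputable def r32 : Tr := .c 3 q14 (.c 4 q14 .e)
noncomputable def q24 : Tr := .c 0 (.l 2) (.c 2 (.l 2) (.c 4 (.l 2) .e))
noncomputable def r33 : Tr := .c 3 q14 (.c 4 q14 (.c 5 q24 .e))
noncomputable def t22 : Tr := .c 1 r32 (.c 2 r33 .e)
noncomputable def q25 : Tr := .c 4 (.l 18) .e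
noncomputable def r34 : Tr := .c 2 q25 (.c 4 q14 .e)
noncomputable def t23 : Tr := .c 1 r32 (.c 2 r33 (.c 5 r34 .e))
noncomputable def q26 : Tr := .c 0 (.l 2) (.c 2 (.l 2) (.c 4 (.l 19) .e))
noncomputable def r35 : Tr := .c 5 q26 .e
noncomputable def q27 : Tr := .c 0 (.l 2) (.c 2 (.l 20) (.c 4 (.l 2) .e))
noncomputable def r36 : Tr := .c 3 q14 (.c 4 q14 (.c 5 q27 .e))
noncomputable def q28 : Tr := .c 0 (.l 21) (.c 2 (.l 2) (.c 4 (.l 1) .e))
noncomputable def r37 : Tr := .c 1 q6 (.c 2 q6 (.c 5 q28 .e))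
noncomputable def t24 : Tr := .c 0 r35 (.c 2 r36 (.c 4 r37 .e))
noncomputable def r38 : Tr := .c 1 q6 (.c 2 q6 .e)
noncomputable def q29 : Tr := .c 0 (.l 1) (.c 2 (.l 1) (.c 4 (.l 1) .e))
noncomputable def r39 : Tr := .c 1 q6 (.c 2 q6 (.c 5 q29 .e))
noncomputable def t25 : Tr := .c 3 r38 (.c 4 r39 .e)
noncomputable def q30 : Tr := .c 2 (.l 22) .e
noncomputable def r40 : Tr := .c 2 q6 (.c 4 q30 .e)
noncomputable def t26 : Tr := .c 3 r38 (.c 4 r39 (.c 5 r40 .e))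
noncomputable def q31 : Tr := .c 0 (.l 1) (.c 2 (.l 23) (.c 4 (.l 1) .e))
noncomputable def r41 : Tr := .c 5 q31 .e
noncomputable def q32 : Tr := .c 0 (.l 24) (.c 2 (.l 2) (.c 4 (.l 1) .e))
noncomputable def r42 : Tr := .c 3 q14 (.c 4 q14 (.c 5 q32 .e))
noncomputable def q33 : Tr := .c 0 (.l 1) (.c 2 (.l 1) (.c 4 (.l 25) .e))
noncomputable def r43 : Tr := .c 1 q6 (.c 2 q6 (.c 5 q33 .e))
noncomputable def t27 : Tr := .c 0 r41 (.c 2 r42 (.c 4 r43 .e))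

/-- the diagram -/
noncomputable def T : Tr := (.c 0 (.c 5 (.c 0 t0 (.c 2 t1 (.c 4 t2 .e))) .e) (.c 1 (.c 3 (.c 1 t3 (.c 2 t4 .e)) (.c 4 (.c 1
t3 (.c 2 t4 (.c 5 t5 .e))) .e)) (.c 2 (.c 3 (.c 1 t6 (.c 2 t7 .e)) (.c 4 (.c 1 t6 (.c 2 t7 (.c
5 t8 .e))) (.c 5 (.c 0 t9 (.c 2 t10 (.c 4 t11 .e))) .e))) (.c 3 (.c 1 (.c 3 t12 (.c 4 t13 .e))
(.c 2 (.c 3 t12 (.c 4 t13 (.c 5 t14 .e))) .e)) (.c 4 (.c 1 (.c 3 t15 (.c 4 t16 .e)) (.c 2 (.c 3
t15 (.c 4 t16 (.c 5 t17 .e))) (.c 5 (.c 0 t18 (.c 2 t19 (.c 4 t20 .e))) .e))) (.c 5 (.c 0 (.c 5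
t21 .e) (.c 2 (.c 3 t22 (.c 4 t23 (.c 5 t24 .e))) (.c 4 (.c 1 t25 (.c 2 t26 (.c 5 t27 .e)))
.e))) .e))))))

theorem k0 : chkQ0 D J R 26 T = true := by decide +kernel
theorem c0 : csP D J T 0 = true := by decide +kernel
theorem c1 : csP D J T 1 = true := by decide +kernel
theorem c2 : csP D J T 2 = true := by decide +kernel
theorem c3 : csP D J T 3 = true := by decide +kernel
theorem c4 : csP D J T 4 = true := by decide +kernel
theorem c5 : csP D J T 5 = true := by decide +kernel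
theorem c6 : csP D J T 6 = true := by decide +kernel
theorem c7 : csP D J T 7 = true := by decide +kernel
theorem c8 : csP D J T 8 = true := by decide +kernel
theorem c9 : csP D J T 9 = true := by decide +kernel
theorem c10 : csP D J T 10 = true := by decide +kernel
theorem c11 : csP D J T 11 = true := by decide +kernel
theorem c12 : csP D J T 12 = true := by decide +kernel
theorem c13 : csP D J T 13 = true := by decide +kernel

theorem cs : ∀ p < D.N, csP D J T p = true := by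
  intro p hp
  have hp : p < 14 := hp
  interval_cases p
  · exact c0
  · exact c1
  · exact c2
  · exact c3
  · exact c4
  · exact c5
  · exact c6
  · exact c7
  · exact c8
  · exact c9
  · exact c10
  · exact c11
  · exact c12
  · exact c13

/-- the box table -/
theorem tab : BoxTab D := boxTab_of (by decide) (by decide) k0 cs

end C17

end Vale.Agent.P032.Words.Trie
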