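import Vale.Agent.P032.Words.H670.Split

/-!
# Hexagons around a centre with six colours: box tables
-/

namespace Vale.Agent.P032.Words.Trie

/-! ### 01 02 03 12 14 25 34  -/

namespace C26

/-- the data -/
def D : Dat where
  A := 7
  N := 16
  nb := [96, 80, 56, 68, 38, 85, 43]
  op := [127, 63, 127, 63, 127, 63, 85]
  nbT := [96, 32848, 24632, 4164, 3110, 37717, 18603, 36928, 26656, 19488, 57872, 45904, 26792, 7428,
38724, 19618]
  opT := [65535, 32703, 40959, 61375, 62463, 27839, 46933, 65471, 65503, 65503, 65519, 65455, 65495,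
65531, 65467, 65501]
  PL := [[0], [1], [2], [3], [4], [5], [6], [0, 1, 3], [0, 2], [0, 4], [1, 2], [1, 5], [2, 6], [3, 4],
[3, 5], [4, 6]]
  L := [3, 5, 9, 6, 18, 36, 24]
  P := [3, 5, 9, 6, 18, 36, 24, 7, 11, 19, 13, 37, 25, 22, 38, 26]
  r := 0
  tie := [0, 0, 0, 0, 0, 0, 0, 0, 0, 0, 0, 0, 0, 0, 0, 0]

/-- changes of the value at a tie -/
def J : List (List ℕ) := [[]]

/-- reachable values -/
def R : List (List ℕ) := [[1], [2], [4], [8], [0x10], [0x20], [0x40], [0x80], [0x100], [0x200], [0x400], [0x800],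
[0x1000], [0x2000], [0x4000], [0x8000], [0x10000], [0x20000], [0x40000], [0x80000], [0x100000],
[0x200000], [0x400000], [0x800000], [0x1000000], [0x2000000], [0x4000000], [0x8000000],
[0x10000000], [0x20000000], [0x40000000], [0x80000000], [0x100000000], [0x200000000],
[0x400000000], [0x800000000], [0x1000000000], [0x2000000000], [0x4000000000], [0x8000000000],
[0x10000000000], [0x20000000000], [0x40000000000], [0x80000000000], [0x100000000000],
[0x200000000000], [0x400000000000], [0x800000000000], [0x1000000000000], [0x2000000000000],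
[0x4000000000000], [0x8000000000000], [0x10000000000000], [0x20000000000000],
[0x40000000000000], [0x80000000000000], [0x100000000000000], [0x200000000000000],
[0x400000000000000], [0x800000000000000], [0x1000000000000000], [0x2000000000000000],
[0x4000000000000000], [0x8000000000000000], [0x10000000000000000], [0x20000000000000000],
[0x40000000000000000], [0x80000000000000000], [0x100000000000000000], [0x200000000000000000],
[0x400000000000000000], [0x800000000000000000], [0x1000000000000000000],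
[0x2000000000000000000], [0x4000000000000000000], [0x8000000000000000000],
[0x10000000000000000000], [0x20000000000000000000], [0x40000000000000000000],
[0x80000000000000000000], [0x100000000000000000000], [0x200000000000000000000],
[0x400000000000000000000], [0x800000000000000000000], [0x1000000000000000000000],
[0x2000000000000000000000], [0x4000000000000000000000], [0x8000000000000000000000],
[0x10000000000000000000000], [0x20000000000000000000000], [0x40000000000000000000000],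
[0x80000000000000000000000], [0x100000000000000000000000], [0x200000000000000000000000],
[0x400000000000000000000000], [0x800000000000000000000000], [0x1000000000000000000000000],
[0x2000000000000000000000000], [0x4000000000000000000000000], [0x8000000000000000000000000],
[0x10000000000000000000000000], [0x20000000000000000000000000], [0x40000000000000000000000000],
[0x80000000000000000000000000], [0x100000000000000000000000000],
[0x200000000000000000000000000], [0x400000000000000000000000000],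
[0x800000000000000000000000000], [0x1000000000000000000000000000],
[0x2000000000000000000000000000], [0x4000000000000000000000000000],
[0x8000000000000000000000000000], [0x10000000000000000000000000000],
[0x20000000000000000000000000000], [0x40000000000000000000000000000],
[0x80000000000000000000000000000], [0x100000000000000000000000000000],
[0x200000000000000000000000000000], [0x400000000000000000000000000000],
[0x800000000000000000000000000000], [0x1000000000000000000000000000000],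
[0x2000000000000000000000000000000], [0x4000000000000000000000000000000],
[0x8000000000000000000000000000000], [0x10000000000000000000000000000000],
[0x20000000000000000000000000000000], [0x40000000000000000000000000000000],
[0x80000000000000000000000000000000], [0x100000000000000000000000000000000],
[0x200000000000000000000000000000000], [0x400000000000000000000000000000000],
[0x800000000000000000000000000000000], [0x1000000000000000000000000000000000],
[0x2000000000000000000000000000000000]]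

noncomputable def q0 : Tr := .c 5 (.l 0) (.c 6 (.l 1) .e)
noncomputable def q1 : Tr := .c 5 (.l 2) .e
noncomputable def q2 : Tr := .c 5 (.l 3) .e
noncomputable def r0 : Tr := .c 0 q0 (.c 2 q1 (.c 4 q2 .e))
noncomputable def q3 : Tr := .c 5 (.l 4) (.c 6 (.l 5) .e)
noncomputable def q4 : Tr := .c 6 (.l 5) .e
noncomputable def r1 : Tr := .c 0 q3 (.c 1 q4 (.c 3 q4 (.c 5 q4 .e)))
noncomputable def t0 : Tr := .c 5 r0 (.c 6 r1 .e)
noncomputable def q5 : Tr := .c 5 (.l 6) .e
noncomputable def r2 : Tr := .c 2 q5 .e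
noncomputable def q6 : Tr := .c 6 (.l 7) .e
noncomputable def r3 : Tr := .c 1 q6 (.c 2 q5 (.c 5 q6 .e))
noncomputable def q7 : Tr := .c 5 (.l 8) (.c 6 (.l 1) .e)
noncomputable def q8 : Tr := .c 5 (.l 9) .e
noncomputable def r4 : Tr := .c 0 q7 (.c 2 q5 (.c 4 q8 .e))
noncomputable def t1 : Tr := .c 3 r2 (.c 4 r3 (.c 5 r4 .e))
noncomputable def q9 : Tr := .c 5 (.l 10) .e
noncomputable def r5 : Tr := .c 4 q9 .e
noncomputable def q10 : Tr := .c 6 (.l 11) .e
noncomputable def r6 : Tr := .c 3 q10 (.c 4 q9 (.c 5 q10 .e))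
noncomputable def q11 : Tr := .c 5 (.l 12) (.c 6 (.l 1) .e)
noncomputable def q12 : Tr := .c 5 (.l 13) .e
noncomputable def r7 : Tr := .c 0 q11 (.c 2 q12 (.c 4 q9 .e))
noncomputable def t2 : Tr := .c 1 r5 (.c 2 r6 (.c 5 r7 .e))
noncomputable def q13 : Tr := .c 6 (.l 14) .e
noncomputable def r8 : Tr := .c 5 q13 .e
noncomputable def q14 : Tr := .c 6 (.l 1) .e
noncomputable def r9 : Tr := .c 0 q14 .e
noncomputable def t3 : Tr := .c 0 r8 (.c 5 r9 .e)
noncomputable def q15 : Tr := .c 5 (.l 15) (.c 6 (.l 16) .e)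
noncomputable def q16 : Tr := .c 5 (.l 15) .e
noncomputable def r10 : Tr := .c 0 q15 (.c 2 q16 (.c 4 q16 (.c 6 q16 .e)))
noncomputable def q17 : Tr := .c 5 (.l 17) (.c 6 (.l 18) .e)
noncomputable def r11 : Tr := .c 0 q17 .e
noncomputable def t4 : Tr := .c 5 r10 (.c 6 r11 .e)
noncomputable def q18 : Tr := .c 5 (.l 19) .e
noncomputable def r12 : Tr := .c 2 q18 .e
noncomputable def q19 : Tr := .c 5 (.l 17) .e
noncomputable def r13 : Tr := .c 0 q19 .e
noncomputable def t5 : Tr := .c 4 r12 (.c 6 r13 .e)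
noncomputable def q20 : Tr := .c 5 (.l 20) .e
noncomputable def r14 : Tr := .c 4 q20 .e
noncomputable def t6 : Tr := .c 2 r14 (.c 6 r13 .e)
noncomputable def q21 : Tr := .c 5 (.l 21) .e
noncomputable def r15 : Tr := .c 6 q21 .e
noncomputable def t7 : Tr := .c 0 r15 (.c 2 r14 (.c 4 r12 (.c 6 r13 .e)))
noncomputable def q22 : Tr := .c 4 (.l 22) .e
noncomputable def q23 : Tr := .c 4 (.l 23) .e
noncomputable def q24 : Tr := .c 4 (.l 24) .e
noncomputable def r16 : Tr := .c 1 q22 (.c 2 q23 (.c 5 q24 .e))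
noncomputable def t8 : Tr := .c 4 r16 .e
noncomputable def q25 : Tr := .c 4 (.l 25) .e
noncomputable def r17 : Tr := .c 2 q25 .e
noncomputable def q26 : Tr := .c 4 (.l 26) (.c 6 (.l 26) .e)
noncomputable def q27 : Tr := .c 4 (.l 27) (.c 6 (.l 27) .e)
noncomputable def r18 : Tr := .c 1 q26 (.c 2 q25 (.c 5 q27 .e))
noncomputable def q28 : Tr := .c 6 (.l 28) .e
noncomputable def r19 : Tr := .c 0 q28 (.c 2 q25 .e)
noncomputable def t9 : Tr := .c 3 r17 (.c 4 r18 (.c 5 r19 .e))
noncomputable def q29 : Tr := .c 4 (.l 29) .e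
noncomputable def r20 : Tr := .c 5 q29 .e
noncomputable def q30 : Tr := .c 4 (.l 30) .e
noncomputable def q31 : Tr := .c 4 (.l 31) .e
noncomputable def r21 : Tr := .c 1 q30 (.c 2 q31 (.c 5 q29 .e))
noncomputable def t10 : Tr := .c 0 r20 (.c 2 r20 (.c 4 r21 .e))
noncomputable def q32 : Tr := .c 6 (.l 16) .e
noncomputable def q33 : Tr := .c 4 (.l 32) .e
noncomputable def r22 : Tr := .c 0 q32 (.c 2 q33 .e)
noncomputable def t11 : Tr := .c 5 r22 .e
noncomputable def r23 : Tr := .c 2 q23 .e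
noncomputable def t12 : Tr := .c 4 r23 .e
noncomputable def r24 : Tr := .c 2 q31 .e
noncomputable def t13 : Tr := .c 4 r24 .e
noncomputable def q34 : Tr := .c 3 (.l 33) (.c 4 (.l 26) (.c 5 (.l 8) .e))
noncomputable def r25 : Tr := .c 2 q34 .e
noncomputable def q35 : Tr := .c 4 (.l 34) .e
noncomputable def q36 : Tr := .c 3 (.l 35) (.c 4 (.l 34) (.c 5 (.l 36) .e))
noncomputable def r26 : Tr := .c 1 q35 (.c 2 q36 (.c 5 q35 .e))
noncomputable def q37 : Tr := .c 5 (.l 37) .e
noncomputable def q38 : Tr := .c 3 (.l 38) (.c 4 (.l 39) (.c 5 (.l 37) .e))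
noncomputable def r27 : Tr := .c 0 q37 (.c 2 q38 (.c 4 q37 .e))
noncomputable def t14 : Tr := .c 3 r25 (.c 4 r26 (.c 5 r27 .e))
noncomputable def q39 : Tr := .c 4 (.l 40) .e
noncomputable def r28 : Tr := .c 5 q39 .e
noncomputable def q40 : Tr := .c 4 (.l 26) .e
noncomputable def r29 : Tr := .c 2 q40 .e
noncomputable def q41 : Tr := .c 4 (.l 39) .e
noncomputable def r30 : Tr := .c 2 q41 .e
noncomputable def t15 : Tr := .c 0 r28 (.c 3 r29 (.c 5 r30 .e))
noncomputable def q42 : Tr := .c 4 (.l 35) .e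
noncomputable def q43 : Tr := .c 3 (.l 41) (.c 4 (.l 41) (.c 5 (.l 41) .e))
noncomputable def q44 : Tr := .c 4 (.l 42) .e
noncomputable def r31 : Tr := .c 1 q42 (.c 2 q43 (.c 5 q44 .e))
noncomputable def q45 : Tr := .c 5 (.l 43) .e
noncomputable def r32 : Tr := .c 0 q45 (.c 1 q42 (.c 5 q44 .e))
noncomputable def t16 : Tr := .c 4 r31 (.c 6 r32 .e)
noncomputable def q46 : Tr := .c 3 (.l 23) (.c 4 (.l 25) (.c 5 (.l 44) .e))
noncomputable def q47 : Tr := .c 3 (.l 23) (.c 5 (.l 44) .e)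
noncomputable def r33 : Tr := .c 2 q46 (.c 6 q47 .e)
noncomputable def q48 : Tr := .c 3 (.l 41) (.c 4 (.l 45) (.c 5 (.l 41) .e))
noncomputable def r34 : Tr := .c 1 q35 (.c 2 q48 (.c 5 q35 .e))
noncomputable def q49 : Tr := .c 3 (.l 46) (.c 4 (.l 25) (.c 5 (.l 37) .e))
noncomputable def q50 : Tr := .c 3 (.l 46) (.c 5 (.l 37) .e)
noncomputable def r35 : Tr := .c 0 q37 (.c 2 q49 (.c 4 q37 (.c 6 q50 .e)))
noncomputable def t17 : Tr := .c 3 r33 (.c 4 r34 (.c 5 r35 .e))
noncomputable def q51 : Tr := .c 3 (.l 47) (.c 5 (.l 47) .e)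
noncomputable def r36 : Tr := .c 5 q29 (.c 6 q51 .e)
noncomputable def q52 : Tr := .c 5 (.l 48) .e
noncomputable def r37 : Tr := .c 4 q52 (.c 5 q29 .e)
noncomputable def q53 : Tr := .c 4 (.l 49) .e
noncomputable def r38 : Tr := .c 1 q53 (.c 2 q43 (.c 5 q29 .e))
noncomputable def r39 : Tr := .c 0 q45 (.c 1 q53 (.c 5 q29 .e))
noncomputable def t18 : Tr := .c 0 r36 (.c 2 r37 (.c 4 r38 (.c 6 r39 .e)))
noncomputable def q54 : Tr := .c 5 (.l 38) .e
noncomputable def q55 : Tr := .c 3 (.l 50) (.c 4 (.l 50) (.c 5 (.l 50) .e))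
noncomputable def q56 : Tr := .c 5 (.l 51) .e
noncomputable def r40 : Tr := .c 0 q54 (.c 2 q55 (.c 4 q56 .e))
noncomputable def q57 : Tr := .c 5 (.l 4) .e
noncomputable def q58 : Tr := .c 4 (.l 52) .e
noncomputable def r41 : Tr := .c 0 q57 (.c 1 q58 (.c 5 q58 .e))
noncomputable def t19 : Tr := .c 5 r40 (.c 6 r41 .e)
noncomputable def q59 : Tr := .c 3 (.l 2) (.c 4 (.l 53) (.c 5 (.l 6) .e))
noncomputable def r42 : Tr := .c 2 q59 .e
noncomputable def q60 : Tr := .c 3 (.l 54) (.c 4 (.l 34) (.c 5 (.l 6) .e))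
noncomputable def r43 : Tr := .c 1 q35 (.c 2 q60 (.c 5 q35 .e))
noncomputable def q61 : Tr := .c 3 (.l 50) (.c 4 (.l 50) (.c 5 (.l 55) .e))
noncomputable def r44 : Tr := .c 0 q37 (.c 2 q61 (.c 4 q37 .e))
noncomputable def t20 : Tr := .c 3 r42 (.c 4 r43 (.c 5 r44 .e))
noncomputable def q62 : Tr := .c 4 (.l 56) .e
noncomputable def r45 : Tr := .c 4 q9 (.c 5 q62 .e)
noncomputable def q63 : Tr := .c 5 (.l 57) .e
noncomputable def r46 : Tr := .c 0 q63 (.c 2 q55 (.c 4 q9 .e))
noncomputable def t21 : Tr := .c 1 r5 (.c 2 r45 (.c 5 r46 .e))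
noncomputable def q64 : Tr := .c 4 (.l 53) .e
noncomputable def r47 : Tr := .c 2 q64 .e
noncomputable def q65 : Tr := .c 4 (.l 50) .e
noncomputable def r48 : Tr := .c 2 q65 .e
noncomputable def t22 : Tr := .c 0 r28 (.c 3 r47 (.c 5 r48 .e))
noncomputable def q66 : Tr := .c 2 (.l 58) .e
noncomputable def q67 : Tr := .c 2 (.l 59) .e
noncomputable def q68 : Tr := .c 2 (.l 60) .e
noncomputable def r49 : Tr := .c 3 q66 (.c 4 q67 (.c 5 q68 .e))
noncomputable def t23 : Tr := .c 2 r49 .e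
noncomputable def q69 : Tr := .c 2 (.l 61) .e
noncomputable def r50 : Tr := .c 4 q69 .e
noncomputable def q70 : Tr := .c 2 (.l 62) (.c 6 (.l 62) .e)
noncomputable def q71 : Tr := .c 2 (.l 63) (.c 6 (.l 63) .e)
noncomputable def r51 : Tr := .c 3 q70 (.c 4 q69 (.c 5 q71 .e))
noncomputable def q72 : Tr := .c 6 (.l 64) .e
noncomputable def r52 : Tr := .c 0 q72 (.c 4 q69 .e)
noncomputable def t24 : Tr := .c 1 r50 (.c 2 r51 (.c 5 r52 .e))
noncomputable def q73 : Tr := .c 2 (.l 65) .e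
noncomputable def r53 : Tr := .c 5 q73 .e
noncomputable def q74 : Tr := .c 2 (.l 66) .e
noncomputable def q75 : Tr := .c 2 (.l 67) .e
noncomputable def r54 : Tr := .c 3 q74 (.c 4 q75 (.c 5 q73 .e))
noncomputable def t25 : Tr := .c 0 r53 (.c 2 r54 (.c 4 r53 .e))
noncomputable def q76 : Tr := .c 2 (.l 68) .e
noncomputable def r55 : Tr := .c 0 q32 (.c 4 q76 .e)
noncomputable def t26 : Tr := .c 5 r55 .e
noncomputable def r56 : Tr := .c 4 q67 .e
noncomputable def t27 : Tr := .c 2 r56 .e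
noncomputable def r57 : Tr := .c 4 q75 .e
noncomputable def t28 : Tr := .c 2 r57 .e
noncomputable def q77 : Tr := .c 1 (.l 69) (.c 2 (.l 62) (.c 5 (.l 12) .e))
noncomputable def r58 : Tr := .c 4 q77 .e
noncomputable def q78 : Tr := .c 2 (.l 70) .e
noncomputable def q79 : Tr := .c 1 (.l 71) (.c 2 (.l 70) (.c 5 (.l 72) .e))
noncomputable def r59 : Tr := .c 3 q78 (.c 4 q79 (.c 5 q78 .e))
noncomputable def q80 : Tr := .c 5 (.l 73) .e
noncomputable def q81 : Tr := .c 1 (.l 74) (.c 2 (.l 75) (.c 5 (.l 73) .e))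
noncomputable def r60 : Tr := .c 0 q80 (.c 2 q80 (.c 4 q81 .e))
noncomputable def t29 : Tr := .c 1 r58 (.c 2 r59 (.c 5 r60 .e))
noncomputable def q82 : Tr := .c 2 (.l 76) .e
noncomputable def r61 : Tr := .c 5 q82 .e
noncomputable def q83 : Tr := .c 2 (.l 62) .e
noncomputable def r62 : Tr := .c 4 q83 .e
noncomputable def q84 : Tr := .c 2 (.l 75) .e
noncomputable def r63 : Tr := .c 4 q84 .e
noncomputable def t30 : Tr := .c 0 r61 (.c 1 r62 (.c 5 r63 .e))
noncomputable def q85 : Tr := .c 2 (.l 71) .e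
noncomputable def q86 : Tr := .c 1 (.l 77) (.c 2 (.l 77) (.c 5 (.l 77) .e))
noncomputable def q87 : Tr := .c 2 (.l 78) .e
noncomputable def r64 : Tr := .c 3 q85 (.c 4 q86 (.c 5 q87 .e))
noncomputable def q88 : Tr := .c 5 (.l 79) .e
noncomputable def r65 : Tr := .c 0 q88 (.c 3 q85 (.c 5 q87 .e))
noncomputable def t31 : Tr := .c 2 r64 (.c 6 r65 .e)
noncomputable def q89 : Tr := .c 1 (.l 59) (.c 2 (.l 61) (.c 5 (.l 80) .e))
noncomputable def q90 : Tr := .c 1 (.l 59) (.c 5 (.l 80) .e)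
noncomputable def r66 : Tr := .c 4 q89 (.c 6 q90 .e)
noncomputable def q91 : Tr := .c 1 (.l 77) (.c 2 (.l 81) (.c 5 (.l 77) .e))
noncomputable def r67 : Tr := .c 3 q78 (.c 4 q91 (.c 5 q78 .e))
noncomputable def q92 : Tr := .c 1 (.l 82) (.c 2 (.l 61) (.c 5 (.l 73) .e))
noncomputable def q93 : Tr := .c 1 (.l 82) (.c 5 (.l 73) .e)
noncomputable def r68 : Tr := .c 0 q80 (.c 2 q80 (.c 4 q92 (.c 6 q93 .e)))
noncomputable def t32 : Tr := .c 1 r66 (.c 2 r67 (.c 5 r68 .e))
noncomputable def q94 : Tr := .c 1 (.l 83) (.c 5 (.l 83) .e)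
noncomputable def r69 : Tr := .c 5 q73 (.c 6 q94 .e)
noncomputable def q95 : Tr := .c 2 (.l 84) .e
noncomputable def r70 : Tr := .c 3 q95 (.c 4 q86 (.c 5 q73 .e))
noncomputable def q96 : Tr := .c 5 (.l 85) .e
noncomputable def r71 : Tr := .c 2 q96 (.c 5 q73 .e)
noncomputable def r72 : Tr := .c 0 q88 (.c 3 q95 (.c 5 q73 .e))
noncomputable def t33 : Tr := .c 0 r69 (.c 2 r70 (.c 4 r71 (.c 6 r72 .e)))
noncomputable def q97 : Tr := .c 5 (.l 74) .e
noncomputable def q98 : Tr := .c 5 (.l 86) .e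
noncomputable def q99 : Tr := .c 1 (.l 87) (.c 2 (.l 87) (.c 5 (.l 87) .e))
noncomputable def r73 : Tr := .c 0 q97 (.c 2 q98 (.c 4 q99 .e))
noncomputable def q100 : Tr := .c 2 (.l 88) .e
noncomputable def r74 : Tr := .c 0 q57 (.c 3 q100 (.c 5 q100 .e))
noncomputable def t34 : Tr := .c 5 r73 (.c 6 r74 .e)
noncomputable def q101 : Tr := .c 2 (.l 89) .e
noncomputable def r75 : Tr := .c 2 q5 (.c 5 q101 .e)
noncomputable def q102 : Tr := .c 5 (.l 90) .e
noncomputable def r76 : Tr := .c 0 q102 (.c 2 q5 (.c 4 q99 .e))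
noncomputable def t35 : Tr := .c 3 r2 (.c 4 r75 (.c 5 r76 .e))
noncomputable def q103 : Tr := .c 1 (.l 3) (.c 2 (.l 91) (.c 5 (.l 10) .e))
noncomputable def r77 : Tr := .c 4 q103 .e
noncomputable def q104 : Tr := .c 1 (.l 92) (.c 2 (.l 70) (.c 5 (.l 10) .e))
noncomputable def r78 : Tr := .c 3 q78 (.c 4 q104 (.c 5 q78 .e))
noncomputable def q105 : Tr := .c 1 (.l 87) (.c 2 (.l 87) (.c 5 (.l 93) .e))
noncomputable def r79 : Tr := .c 0 q80 (.c 2 q80 (.c 4 q105 .e))
noncomputable def t36 : Tr := .c 1 r77 (.c 2 r78 (.c 5 r79 .e))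
noncomputable def q106 : Tr := .c 2 (.l 91) .e
noncomputable def r80 : Tr := .c 4 q106 .e
noncomputable def q107 : Tr := .c 2 (.l 87) .e
noncomputable def r81 : Tr := .c 4 q107 .e
noncomputable def t37 : Tr := .c 0 r61 (.c 1 r80 (.c 5 r81 .e))
noncomputable def q108 : Tr := .c 0 (.l 94) (.c 2 (.l 66) (.c 4 (.l 30) .e))
noncomputable def q109 : Tr := .c 0 (.l 95) .e
noncomputable def r82 : Tr := .c 5 q108 (.c 6 q109 .e)
noncomputable def q110 : Tr := .c 2 (.l 96) .e
noncomputable def q111 : Tr := .c 0 (.l 97) (.c 2 (.l 96) (.c 4 (.l 98) .e))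
noncomputable def r83 : Tr := .c 3 q110 (.c 4 q110 (.c 5 q111 .e))
noncomputable def q112 : Tr := .c 4 (.l 99) .e
noncomputable def q113 : Tr := .c 0 (.l 100) (.c 2 (.l 101) (.c 4 (.l 99) .e))
noncomputable def r84 : Tr := .c 1 q112 (.c 2 q112 (.c 5 q113 .e))
noncomputable def t38 : Tr := .c 0 r82 (.c 2 r83 (.c 4 r84 .e))
noncomputable def q114 : Tr := .c 0 (.l 102) (.c 2 (.l 102) (.c 4 (.l 102) (.c 6 (.l 102) .e)))
noncomputable def q115 : Tr := .c 0 (.l 103) .e
noncomputable def r85 : Tr := .c 5 q114 (.c 6 q115 .e)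
noncomputable def q116 : Tr := .c 2 (.l 104) .e
noncomputable def r86 : Tr := .c 4 q116 (.c 6 q115 .e)
noncomputable def q117 : Tr := .c 4 (.l 105) .e
noncomputable def r87 : Tr := .c 2 q117 (.c 6 q115 .e)
noncomputable def q118 : Tr := .c 6 (.l 106) .e
noncomputable def r88 : Tr := .c 0 q118 (.c 2 q117 (.c 4 q116 (.c 6 q115 .e)))
noncomputable def t39 : Tr := .c 0 r85 (.c 1 r86 (.c 3 r87 (.c 5 r88 .e)))
noncomputable def q119 : Tr := .c 2 (.l 97) .e
noncomputable def q120 : Tr := .c 2 (.l 107) .e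
noncomputable def q121 : Tr := .c 0 (.l 108) (.c 2 (.l 108) (.c 4 (.l 108) .e))
noncomputable def r89 : Tr := .c 3 q119 (.c 4 q120 (.c 5 q121 .e))
noncomputable def t40 : Tr := .c 2 r89 .e
noncomputable def q122 : Tr := .c 0 (.l 109) .e
noncomputable def r90 : Tr := .c 4 q69 (.c 6 q122 .e)
noncomputable def q123 : Tr := .c 2 (.l 110) (.c 6 (.l 110) .e)
noncomputable def q124 : Tr := .c 0 (.l 108) (.c 2 (.l 108) (.c 4 (.l 108) (.c 6 (.l 108) .e)))
noncomputable def r91 : Tr := .c 3 q123 (.c 4 q69 (.c 5 q124 .e))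
noncomputable def q125 : Tr := .c 4 (.l 111) .e
noncomputable def r92 : Tr := .c 0 q72 (.c 2 q125 (.c 4 q69 (.c 6 q122 .e)))
noncomputable def t41 : Tr := .c 1 r90 (.c 2 r91 (.c 5 r92 .e))
noncomputable def q126 : Tr := .c 0 (.l 60) (.c 2 (.l 65) (.c 4 (.l 112) .e))
noncomputable def r93 : Tr := .c 5 q126 (.c 6 q109 .e)
noncomputable def q127 : Tr := .c 0 (.l 108) (.c 2 (.l 113) (.c 4 (.l 108) .e))
noncomputable def r94 : Tr := .c 3 q110 (.c 4 q110 (.c 5 q127 .e))
noncomputable def q128 : Tr := .c 0 (.l 114) (.c 2 (.l 65) (.c 4 (.l 99) .e))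
noncomputable def r95 : Tr := .c 1 q112 (.c 2 q112 (.c 5 q128 .e))
noncomputable def t42 : Tr := .c 0 r93 (.c 2 r94 (.c 4 r95 .e))
noncomputable def q129 : Tr := .c 4 (.l 100) .e
noncomputable def q130 : Tr := .c 4 (.l 115) .e
noncomputable def q131 : Tr := .c 0 (.l 116) (.c 2 (.l 116) (.c 4 (.l 116) .e))
noncomputable def r96 : Tr := .c 1 q129 (.c 2 q130 (.c 5 q131 .e))
noncomputable def t43 : Tr := .c 4 r96 .e
noncomputable def q132 : Tr := .c 0 (.l 117) .e
noncomputable def r97 : Tr := .c 2 q25 (.c 6 q132 .e)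
noncomputable def q133 : Tr := .c 4 (.l 118) (.c 6 (.l 118) .e)
noncomputable def q134 : Tr := .c 0 (.l 116) (.c 2 (.l 116) (.c 4 (.l 116) (.c 6 (.l 116) .e)))
noncomputable def r98 : Tr := .c 1 q133 (.c 2 q25 (.c 5 q134 .e))
noncomputable def q135 : Tr := .c 2 (.l 119) .e
noncomputable def r99 : Tr := .c 0 q28 (.c 2 q25 (.c 4 q135 (.c 6 q132 .e)))
noncomputable def t44 : Tr := .c 3 r97 (.c 4 r98 (.c 5 r99 .e))
noncomputable def q136 : Tr := .c 0 (.l 24) (.c 2 (.l 120) (.c 4 (.l 29) .e))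
noncomputable def r100 : Tr := .c 5 q136 (.c 6 q109 .e)
noncomputable def q137 : Tr := .c 0 (.l 121) (.c 2 (.l 96) (.c 4 (.l 29) .e))
noncomputable def r101 : Tr := .c 3 q110 (.c 4 q110 (.c 5 q137 .e))
noncomputable def q138 : Tr := .c 0 (.l 116) (.c 2 (.l 116) (.c 4 (.l 122) .e))
noncomputable def r102 : Tr := .c 1 q112 (.c 2 q112 (.c 5 q138 .e))
noncomputable def t45 : Tr := .c 0 r100 (.c 2 r101 (.c 4 r102 .e))
noncomputable def q139 : Tr := .c 0 (.l 123) .e
noncomputable def r103 : Tr := .c 0 q32 (.c 2 q33 (.c 4 q76 (.c 6 q139 .e)))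
noncomputable def t46 : Tr := .c 5 r103 .e
noncomputable def r104 : Tr := .c 2 q130 .e
noncomputable def t47 : Tr := .c 4 r104 .e
noncomputable def r105 : Tr := .c 4 q120 .e
noncomputable def t48 : Tr := .c 2 r105 .e
noncomputable def r106 : Tr := .c 6 q109 .e
noncomputable def r107 : Tr := .c 4 q110 .e
noncomputable def r108 : Tr := .c 2 q112 .e
noncomputable def t49 : Tr := .c 0 r106 (.c 2 r107 (.c 4 r108 .e))
noncomputable def q140 : Tr := .c 0 (.l 124) .e
noncomputable def q141 : Tr := .c 0 (.l 125) (.c 1 (.l 125) (.c 3 (.l 125) (.c 5 (.l 125) .e)))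
noncomputable def r109 : Tr := .c 5 q140 (.c 6 q141 .e)
noncomputable def q142 : Tr := .c 1 (.l 126) (.c 5 (.l 126) .e)
noncomputable def r110 : Tr := .c 4 q142 (.c 5 q140 .e)
noncomputable def q143 : Tr := .c 3 (.l 127) (.c 5 (.l 127) .e)
noncomputable def r111 : Tr := .c 2 q143 (.c 5 q140 .e)
noncomputable def q144 : Tr := .c 5 (.l 128) .e
noncomputable def r112 : Tr := .c 0 q144 (.c 5 q140 .e)
noncomputable def t50 : Tr := .c 0 r109 (.c 2 r110 (.c 4 r111 (.c 6 r112 .e)))
noncomputable def q145 : Tr := .c 0 (.l 129) .e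
noncomputable def q146 : Tr := .c 0 (.l 130) .e
noncomputable def r113 : Tr := .c 5 q145 (.c 6 q146 .e)
noncomputable def t51 : Tr := .c 0 r113 .e
noncomputable def q147 : Tr := .c 1 (.l 71) (.c 5 (.l 72) .e)
noncomputable def q148 : Tr := .c 0 (.l 131) .e
noncomputable def r114 : Tr := .c 4 q147 (.c 5 q148 .e)
noncomputable def t52 : Tr := .c 2 r114 .e
noncomputable def r115 : Tr := .c 5 q145 .e
noncomputable def t53 : Tr := .c 0 r115 .e
noncomputable def q149 : Tr := .c 3 (.l 35) (.c 5 (.l 36) .e)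
noncomputable def q150 : Tr := .c 0 (.l 132) .e
noncomputable def r116 : Tr := .c 2 q149 (.c 5 q150 .e)
noncomputable def t54 : Tr := .c 4 r116 .e
noncomputable def q151 : Tr := .c 0 (.l 133) .e
noncomputable def r117 : Tr := .c 0 q57 (.c 5 q151 .e)
noncomputable def t55 : Tr := .c 6 r117 .e
noncomputable def q152 : Tr := .c 3 (.l 54) (.c 5 (.l 6) .e)
noncomputable def r118 : Tr := .c 2 q152 (.c 5 q150 .e)
noncomputable def t56 : Tr := .c 4 r118 .e
noncomputable def q153 : Tr := .c 1 (.l 92) (.c 5 (.l 10) .e)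
noncomputable def r119 : Tr := .c 4 q153 (.c 5 q148 .e)
noncomputable def t57 : Tr := .c 2 r119 .e

/-- the diagram -/
noncomputable def T : Tr := (.c 0 (.c 5 (.c 0 t0 (.c 2 t1 (.c 4 t2 (.c 6 t3 .e)))) (.c 6 (.c 0 t4 (.c 1 t5 (.c 3 t6 (.c 5
t7 .e)))) .e)) (.c 1 (.c 4 (.c 1 t8 (.c 2 t9 (.c 5 t10 .e))) (.c 6 (.c 0 t11 (.c 1 t12 (.c 5
t13 .e))) .e)) (.c 2 (.c 3 (.c 2 t14 (.c 6 t15 .e)) (.c 4 (.c 1 t16 (.c 2 t17 (.c 5 t18 .e)))
(.c 5 (.c 0 t19 (.c 2 t20 (.c 4 t21 (.c 6 t22 .e)))) .e))) (.c 3 (.c 2 (.c 3 t23 (.c 4 t24 (.c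
5 t25 .e))) (.c 6 (.c 0 t26 (.c 3 t27 (.c 5 t28 .e))) .e)) (.c 4 (.c 1 (.c 4 t29 (.c 6 t30 .e))
(.c 2 (.c 3 t31 (.c 4 t32 (.c 5 t33 .e))) (.c 5 (.c 0 t34 (.c 2 t35 (.c 4 t36 (.c 6 t37 .e))))
.e))) (.c 5 (.c 0 (.c 5 t38 (.c 6 t39 .e)) (.c 2 (.c 3 t40 (.c 4 t41 (.c 5 t42 .e))) (.c 4 (.c
1 t43 (.c 2 t44 (.c 5 t45 .e))) (.c 6 (.c 0 t46 (.c 1 t47 (.c 3 t48 (.c 5 t49 .e)))) .e)))) (.c
6 (.c 0 (.c 5 t50 (.c 6 t51 .e)) (.c 1 (.c 4 t52 (.c 6 t53 .e)) (.c 3 (.c 2 t54 (.c 6 t53 .e))
(.c 5 (.c 0 t55 (.c 2 t56 (.c 4 t57 (.c 6 t53 .e)))) .e)))) .e)))))))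

theorem k0 : chkQ0 D J R 134 T = true := by decide +kernel
theorem c0 : csP D J T 0 = true := by decide +kernel
theorem c1 : csP D J T 1 = true := by decide +kernel
theorem c2 : csP D J T 2 = true := by decide +kernel
theorem c3 : csP D J T 3 = true := by decide +kernel
theorem c4 : csP D J T 4 = true := by decide +kernel
theorem c5 : csP D J T 5 = true := by decide +kernel
theorem c6 : csP D J T 6 = true := by decide +kernel
theorem c7 : csP D J T 7 = true := by decide +kernel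
theorem c8 : csP D J T 8 = true := by decide +kernel
theorem c9 : csP D J T 9 = true := by decide +kernel
theorem c10 : csP D J T 10 = true := by decide +kernel
theorem c11 : csP D J T 11 = true := by decide +kernel
theorem c12 : csP D J T 12 = true := by decide +kernel
theorem c13 : csP D J T 13 = true := by decide +kernel
theorem c14 : csP D J T 14 = true := by decide +kernel
theorem c15 : csP D J T 15 = true := by decide +kernel

theorem cs : ∀ p < D.N, csP D J T p = true := by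
  intro p hp
  have hp : p < 16 := hp
  interval_cases p
  · exact c0
  · exact c1
  · exact c2
  · exact c3
  · exact c4
  · exact c5
  · exact c6
  · exact c7
  · exact c8
  · exact c9
  · exact c10
  · exact c11
  · exact c12
  · exact c13
  · exact c14
  · exact c15

/-- the box table -/
theorem tab : BoxTab D := boxTab_of (by decide) (by decide) k0 cs

end C26

end Vale.Agent.P032.Words.Trie
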